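import Crest.Agent.R347.Sys

/-!
# Row 347: what the spin chain has to deliver (definitions only)

`Z• L j`: ring of `L` sites at inverse temperature `j/2`; `Zpm k j`, `Zpp k j`: chains of `k + 2` sites
with opposite / equal end fields.
-/

set_option autoImplicit false

namespace Crest.Agent.R347

structure Model where
  (Za Zb Zc Zd Ze Zpm Zpp : ℕ → ℕ → ℝ)
  pos : ∀ L j, 2 ≤ L → 1 ≤ j → 0 < Za L j
  hP0 : ∀ L, 2 ≤ L → FinP (fun j => (Za L j + 3 * Zc L j) / 4)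
  hP1 : ∀ L, 2 ≤ L → FinP (fun j => (Za L j - Zc L j) / 4)
  hQ0 : ∀ L, 2 ≤ L → FinP (fun j => (Zb L j + Zd L j - 2 * Ze L j) / 4)
  hQz : ∀ L, 2 ≤ L → FinP (fun j => (Zb L j + Zd L j + 2 * Ze L j) / 4)
  hQx : ∀ L, 2 ≤ L → FinP (fun j => (Zb L j - Zd L j) / 4)
  lS0 : ∀ j, 1 ≤ j → LimW (fun L => (Za L j + 3 * Zb L j) / 4) (fun k => (Zpm k j + Zpp k j) / 2)
  lS1 : ∀ j, 1 ≤ j → LimW (fun L => (Za L j - Zb L j) / 4) (fun k => (Zpm k j - Zpp k j) / 2)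
  lR0 : ∀ j, 1 ≤ j → LimP (fun L => (Zc L j + Zd L j - 2 * Ze L j) / 4)
  lRz : ∀ j, 1 ≤ j → LimP (fun L => (Zc L j + Zd L j + 2 * Ze L j) / 4)
  lRx : ∀ j, 1 ≤ j → LimP (fun L => (Zc L j - Zd L j) / 4)
  hpm : ∀ k, FinP (fun j => Zpm k j)
  hpp : ∀ k, FinP (fun j => Zpp k j)
  pospp : ∀ k j, 1 ≤ j → 0 < Zpp k j

/-- the abstract system `O` comes from the model `M` -/
structure Link (M : Model) (O : OSys) : Prop where
  a : ∀ i j, O.Za i j = M.Za (2 * i) j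
  b : ∀ i j, O.Zb i j = M.Zb (2 * i) j
  c : ∀ i j, O.Zc i j = M.Zc (2 * i) j
  d : ∀ i j, O.Zd i j = M.Zd (2 * i) j
  e : ∀ i j, O.Ze i j = M.Ze (2 * i) j
  ao : ∀ k j, O.Ao k j = (M.Zpm k j + M.Zpp k j) / 2
  bo : ∀ k j, O.Bo k j = (M.Zpm k j - M.Zpp k j) / 2
  spec : ∀ j, 1 ≤ j → WSpec (fun L => (M.Za L j + 3 * M.Zb L j) / 4)
    (fun k => (M.Zpm k j + M.Zpp k j) / 2) (O.x j) (O.ω j)

/-- numerical data at one temperature: centres and a common error -/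
structure Dat where
  (za zb zc zd ze zpm zpp : List ℚ)
  (δ δo : ℚ)

namespace Dat
variable (d : Dat)
def a (L : ℕ) : ℚ := d.za.getD (L - 6) 0
def b (L : ℕ) : ℚ := d.zb.getD (L - 6) 0
def c (L : ℕ) : ℚ := d.zc.getD (L - 6) 0
def dd (L : ℕ) : ℚ := d.zd.getD (L - 6) 0
def e (L : ℕ) : ℚ := d.ze.getD (L - 6) 0
def pm (k : ℕ) : ℚ := d.zpm.getD k 0
def pp (k : ℕ) : ℚ := d.zpp.getD k 0
def s0 (L : ℕ) : ℚ := (d.a L + 3 * d.b L) / 4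
def s1 (L : ℕ) : ℚ := (d.a L - d.b L) / 4
def r0 (L : ℕ) : ℚ := (d.c L + d.dd L - 2 * d.e L) / 4
def rz (L : ℕ) : ℚ := (d.c L + d.dd L + 2 * d.e L) / 4
def rx (L : ℕ) : ℚ := (d.c L - d.dd L) / 4
def ao (k : ℕ) : ℚ := (d.pm k + d.pp k) / 2
def bo (k : ℕ) : ℚ := (d.pm k - d.pp k) / 2
end Dat

/-- the data `d` describe the model at temperature index `j` -/
structure Model.Has (M : Model) (j : ℕ) (d : Dat) : Prop where
  one_le : 1 ≤ j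
  a : NearOn (fun L => M.Za L j) d.a d.δ 6 10
  b : NearOn (fun L => M.Zb L j) d.b d.δ 6 10
  c : NearOn (fun L => M.Zc L j) d.c d.δ 6 10
  dd : NearOn (fun L => M.Zd L j) d.dd d.δ 6 10
  e : NearOn (fun L => M.Ze L j) d.e d.δ 6 10
  pm : NearOn (fun k => M.Zpm k j) d.pm d.δo 0 5
  pp : NearOn (fun k => M.Zpp k j) d.pp d.δo 0 5

/-- the check of `LimP.top_le` -/
abbrev UpOK (z : ℕ → ℚ) (δ r u v u' v' R : ℚ) : Prop :=
  0 < r ∧ 0 < r ^ 2 + u * r + v ∧ 0 ≤ 2 * r + u ∧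
    filtUp z δ u v ≤ r ^ 6 * (r ^ 2 + u * r + v) ^ 2 ∧
    0 < r ^ 2 - u' * r + v' ∧ 0 ≤ 2 * r - u' ∧
    filtUp z δ u' v' ≤ r ^ 6 * (r ^ 2 - u' * r + v') ^ 2 ∧ r ^ 2 ≤ R

end Crest.Agent.R347
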