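import Mathlib

/-!
# Row 347 (Haldane gap): power sums and their top terms (definitions only)

A sequence `φ i = ∑ₖ λₖ ^ i` with `λₖ ≥ 0` and largest term `X` satisfies `Top φ X`; the class `Top`
is closed under pointwise limits, which is all that survives the Trotter limit.
-/

set_option autoImplicit false

namespace Crest.Agent.R347

open Filter Topology

/-- `φ` behaves like a power sum of non-negative numbers: `(φ i)^(1/i)` decreases. -/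
def Pow (φ : ℕ → ℝ) : Prop :=
  (∀ i, 1 ≤ i → 0 ≤ φ i) ∧ ∀ i i', 1 ≤ i → i ≤ i' → φ i' ^ i ≤ φ i ^ i'

/-- `φ` behaves like a power sum whose largest term is `X`. -/
structure Top (φ : ℕ → ℝ) (X : ℝ) : Prop where
  nonneg : 0 ≤ X
  rest : Pow (fun i => φ i - X ^ i)
  step : ∀ i, 1 ≤ i → φ (i + 1) ≤ X * φ i

/-- a finite power sum of non-negative numbers -/
def FinP (φ : ℕ → ℝ) : Prop :=
  ∃ (ι : Type) (_ : Fintype ι) (x : ι → ℝ), (∀ k, 0 ≤ x k) ∧ ∀ j, 1 ≤ j → φ j = ∑ k, x k ^ j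

/-- a limit of finite power sums of real numbers (exponents `≥ 2`) -/
def LimP (m : ℕ → ℝ) : Prop :=
  ∃ (ι : ℕ → Type) (_ : ∀ n, Fintype (ι n)) (x : ∀ n, ι n → ℝ),
    ∀ t, 2 ≤ t → Tendsto (fun n => ∑ k, x n k ^ t) atTop (𝓝 (m t))

/-- a limit of finite power sums together with a weighted version -/
def LimW (m a : ℕ → ℝ) : Prop :=
  ∃ (ι : ℕ → Type) (_ : ∀ n, Fintype (ι n)) (x w : ∀ n, ι n → ℝ), (∀ n k, 0 ≤ w n k) ∧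
    (∀ t, 2 ≤ t → Tendsto (fun n => ∑ k, x n k ^ t) atTop (𝓝 (m t))) ∧
    ∀ t, Tendsto (fun n => ∑ k, w n k * x n k ^ t) atTop (𝓝 (a t))

theorem LimW.limP {m a : ℕ → ℝ} (h : LimW m a) : LimP m := by
  obtain ⟨ι, inst, x, w, -, h1, -⟩ := h
  exact ⟨ι, inst, x, h1⟩

/-- even moments -/
def ev (m : ℕ → ℝ) (i : ℕ) : ℝ := m (2 * i)

/-- `∑ x^6 (x^2 + u x + v)^2` in terms of the moments -/
def filt (m : ℕ → ℝ) (u v : ℝ) : ℝ :=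
  m 10 + 2 * u * m 9 + (u ^ 2 + 2 * v) * m 8 + 2 * u * v * m 7 + v ^ 2 * m 6

/-- `∑ w (x + c) (x^2 + u x + v)^2` in terms of the weighted moments -/
def wfilt (a : ℕ → ℝ) (c u v : ℝ) : ℝ :=
  a 5 + (2 * u + c) * a 4 + (u ^ 2 + 2 * v + 2 * u * c) * a 3 +
    (2 * u * v + c * (u ^ 2 + 2 * v)) * a 2 + (v ^ 2 + 2 * u * v * c) * a 1 + c * v ^ 2 * a 0

/-- what survives of the top term `x` (largest in absolute value) and its weight `ω` -/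
structure WSpec (m a : ℕ → ℝ) (x ω : ℝ) : Prop where
  top : Top (ev m) (x ^ 2)
  filt_ge : ∀ u v : ℝ, x ^ 6 * (x ^ 2 + u * x + v) ^ 2 ≤ filt m u v
  w_nonneg : 0 ≤ ω
  top_le : ∀ n : ℕ, ω * x ^ (2 * n) ≤ a (2 * n)
  rest_pow : ∀ n i : ℕ, 1 ≤ i → (a (2 * n + 2) - ω * x ^ (2 * n + 2)) ^ i ≤
    (m (2 * i) - x ^ (2 * i)) * (a (2 * n) - ω * x ^ (2 * n)) ^ i
  rest_anti : ∀ n : ℕ, a (2 * n + 2) - ω * x ^ (2 * n + 2) ≤ x ^ 2 * (a (2 * n) - ω * x ^ (2 * n))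
  rest_odd : ∀ n : ℕ, |a (2 * n + 1) - ω * x ^ (2 * n + 1)| ≤ |x| * (a (2 * n) - ω * x ^ (2 * n))
  wfilt_ge : ∀ c u v u' v' R : ℝ, filt m u' v' < R →
    (∀ y : ℝ, y ≤ -c → R ≤ y ^ 6 * (y ^ 2 + u' * y + v') ^ 2) →
    ω * ((x + c) * (x ^ 2 + u * x + v) ^ 2) ≤ wfilt a c u v

/-- `m L` is within `δ` of the rational `z L` for `lo ≤ L ≤ hi` -/
def NearOn (m : ℕ → ℝ) (z : ℕ → ℚ) (δ : ℚ) (lo hi : ℕ) : Prop :=
  ∀ L, lo ≤ L → L ≤ hi → |m L - (z L : ℝ)| ≤ (δ : ℝ)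

/-- rational upper bound of `filt` -/
def filtUp (z : ℕ → ℚ) (δ u v : ℚ) : ℚ :=
  z 10 + 2 * u * z 9 + (u ^ 2 + 2 * v) * z 8 + 2 * u * v * z 7 + v ^ 2 * z 6 +
    δ * (1 + |2 * u| + |u ^ 2 + 2 * v| + |2 * u * v| + v ^ 2)

/-- rational upper bound of `wfilt` -/
def wfiltUp (z : ℕ → ℚ) (δ c u v : ℚ) : ℚ :=
  z 5 + (2 * u + c) * z 4 + (u ^ 2 + 2 * v + 2 * u * c) * z 3 +
    (2 * u * v + c * (u ^ 2 + 2 * v)) * z 2 + (v ^ 2 + 2 * u * v * c) * z 1 + c * v ^ 2 * z 0 +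
    δ * (1 + |2 * u + c| + |u ^ 2 + 2 * v + 2 * u * c| + |2 * u * v + c * (u ^ 2 + 2 * v)| +
      |v ^ 2 + 2 * u * v * c| + |c * v ^ 2|)

end Crest.Agent.R347
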