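import Crest.Agent.R347.Defs

/-!
# Row 347: a torus of tensors can be contracted by rows or by columns   (task R347/Torus)
-/

set_option autoImplicit false

namespace Crest.Agent.R347

open Matrix

variable {ι σ : Type} [Fintype ι] [DecidableEq ι] [Fintype σ] [DecidableEq σ]

/-- path expansion of a product (induction on `L`, `List.ofFn_succ`, `Fin.consEquiv`/`Fin.insertNthEquiv`) -/
theorem prod_ofFn_apply {L : ℕ} (M : Fin L → Matrix ι ι ℂ) (a b : ι) :
    (List.ofFn M).prod a b = ∑ p : Fin (L + 1) → ι,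
      if p 0 = a ∧ p (Fin.last L) = b then ∏ k : Fin L, M k (p k.castSucc) (p k.succ) else 0 := by
  induction L generalizing a with
  | zero =>
    rw [← (Equiv.funUnique (Fin 1) ι).symm.sum_comp]
    simp only [List.ofFn_zero, List.prod_nil, Matrix.one_apply, Equiv.funUnique_symm_apply,
      Finset.univ_eq_empty, Finset.prod_empty, uniqueElim_const]
    rw [Finset.sum_eq_single a (fun x _ hx => if_neg fun h => hx h.1) (by simp)]
    simp
  | succ L ih =>
    rw [List.ofFn_succ, List.prod_cons, Matrix.mul_apply,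
      ← (Fin.consEquiv fun _ : Fin (L + 2) => ι).sum_comp, Fintype.sum_prod_type,
      Finset.sum_eq_single a (fun x _ hx => Finset.sum_eq_zero fun q _ => if_neg fun h => hx h.1)
        (by simp)]
    simp only [ih, Finset.mul_sum]
    rw [Finset.sum_comm]
    refine Finset.sum_congr rfl fun q _ => ?_
    rw [Finset.sum_eq_single (q 0) (fun x _ hx => by rw [if_neg fun h => hx h.1.symm, mul_zero])
      (by simp), Fin.prod_univ_succ]
    simp only [Fin.consEquiv_apply, Fin.cons_zero, true_and, ← Fin.succ_last, Fin.cons_succ,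
      Fin.castSucc_zero, ← Fin.succ_castSucc, mul_ite, mul_zero]

theorem chain_eq_sum {L : ℕ} (Γ : Matrix ι ι ℂ) (M : Fin L → Matrix ι ι ℂ) :
    chain Γ M = ∑ p : Fin (L + 1) → ι,
      Γ (p (Fin.last L)) (p 0) * ∏ k : Fin L, M k (p k.castSucc) (p k.succ) := by
  simp only [chain, Matrix.trace, Matrix.diag_apply, Matrix.mul_apply, prod_ofFn_apply,
    Finset.mul_sum]
  rw [Finset.sum_congr rfl fun _ _ => Finset.sum_comm, Finset.sum_comm]
  refine Finset.sum_congr rfl fun p _ => ?_
  rw [Finset.sum_eq_single (p (Fin.last L))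
    (fun x _ hx => Finset.sum_eq_zero fun y _ => by rw [if_neg fun h => hx h.2.symm, mul_zero])
    (by simp), Finset.sum_eq_single (p 0)
    (fun x _ hx => by rw [if_neg fun h => hx h.1.symm, mul_zero]) (by simp), if_pos ⟨rfl, rfl⟩]

/-- closed paths, for a diagonal `Γ` -/
theorem chain_diagonal {L : ℕ} (γ : ι → ℂ) (M : Fin (L + 1) → Matrix ι ι ℂ) :
    chain (Matrix.diagonal γ) M = ∑ p : Fin (L + 1) → ι,
      γ (p 0) * ∏ k, M k (p k) (p (finRotate (L + 1) k)) := by
  rw [chain_eq_sum, ← (Fin.snocEquiv fun _ : Fin (L + 2) => ι).sum_comp, Fintype.sum_prod_type,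
    Finset.sum_comm]
  refine Finset.sum_congr rfl fun q _ => ?_
  have h0 : ∀ x : ι, (Fin.snoc q x : Fin (L + 2) → ι) 0 = q 0 := fun x =>
    Fin.snoc_castSucc (α := fun _ => ι) x q 0
  rw [Finset.sum_eq_single (q 0) (fun x _ hx => by
    simp only [Fin.snocEquiv_apply, Fin.snoc_last, h0]
    rw [Matrix.diagonal_apply_ne _ hx, zero_mul]) (by simp)]
  simp only [Fin.snocEquiv_apply, Fin.snoc_last, h0, Matrix.diagonal_apply_eq, Fin.snoc_castSucc]
  congr 1
  refine Finset.prod_congr rfl fun k _ => ?_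
  congr 1
  induction k using Fin.lastCases with
  | last => rw [Fin.succ_last, Fin.snoc_last, finRotate_last]
  | cast i => rw [Fin.succ_castSucc, Fin.snoc_castSucc, finRotate_apply, Fin.coeSucc_eq_succ]

theorem chain_const {L : ℕ} (Γ M : Matrix ι ι ℂ) :
    chain Γ (fun _ : Fin L => M) = (Γ * M ^ L).trace := by
  rw [chain, List.ofFn_const, List.prod_replicate]

/-- Both sides are the sum over `s : Fin (n+1) → Fin L → σ`, `a : Fin n → Fin (L+1) → ι` of
`(∏ k, D (s last k) (s 0 k)) * (∏ r, Γ (a r last) (a r 0)) *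
  ∏ r k, W k (a r k.castSucc) (a r k.succ) (s r.castSucc k) (s r.succ k)`:
expand with `chain_eq_sum` twice on each side, turn products of sums into sums over functions
(`Finset.prod_univ_sum`, `Fintype.piFinset_univ`) and reindex with `Function.swap`. -/
theorem torus {L : ℕ} (D : Matrix σ σ ℂ) (Γ : Matrix ι ι ℂ) (W : Fin L → ι → ι → Matrix σ σ ℂ)
    (n : ℕ) : (tens L D * mpo Γ W ^ n).trace = chain (tens n Γ) fun k => col D (W k) n := by
  rw [← chain_const, chain_eq_sum, chain_eq_sum]
  simp only [mpo, col, tens, tensF, Matrix.of_apply, chain_eq_sum, Finset.prod_univ_sum,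
    Fintype.piFinset_univ, Finset.mul_sum]
  rw [Finset.sum_comm, ← (Equiv.piComm fun (_ : Fin n) (_ : Fin (L + 1)) => ι).sum_comp]
  refine Finset.sum_congr rfl fun a _ => ?_
  rw [← (Equiv.piComm fun (_ : Fin (n + 1)) (_ : Fin L) => σ).sum_comp]
  refine Finset.sum_congr rfl fun s _ => ?_
  simp only [Equiv.piComm_apply, Function.swap, Finset.prod_mul_distrib]
  rw [Finset.prod_comm (s := (Finset.univ : Finset (Fin n)))]
  ring

end Crest.Agent.R347
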