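import Crest.Agent.R347.Tens
import Crest.Agent.R347.Torus

/-!
# Row 347: the Trotter slice of the chain with two ends to first order   (task R347/SliceO)

You may use `SpinAlg`, `Tens`, `Torus` (other tasks).

Recipe.  `Wsym θ a b = θ^(|a|+|b|) • Wsym 1 a b` with `|none| = 0`, `|some _| = 1`, `θ² = -τ` for `τ ≥ 0`.
`sliceO = tensF F * mpo E00 (fun _ => Wsym θ)` with `F p` the factor in `Wopen`, that is
`onSite (Fld τ s) 0 * onSite (Fld τ s') last * (…)`; the first two factors are `1 + τ (3/5 s) S^z`.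
By `chain_diagonal` (closed paths with `p 0 = none`) the last factor has entries
`∑ p, [p 0 = none] (-τ)^(N p) * c p`, `N p = #{k | p k ≠ none}`; the paths with `N p = 1` are
`p = update (fun _ => none) (succ j) (some a)`, giving `onSite (S^a) (castSucc j) * onSite (S^a) (succ j)`.
Product rule.
-/

set_option autoImplicit false

namespace Crest.Agent.R347

open Crest.MathPhysics.SpinChain Matrix

namespace SliceO

/-- entrywise one-sided derivative at `0` -/
def MD {n : Type} (A : ℝ → Matrix n n ℂ) (A' : Matrix n n ℂ) : Prop :=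
  ∀ i j, HasDerivWithinAt (fun τ => A τ i j) (A' i j) (Set.Ici 0) 0

theorem MD.mul {n : Type} [Fintype n] {A B : ℝ → Matrix n n ℂ} {A' B' : Matrix n n ℂ}
    (hA : MD A A') (hB : MD B B') : MD (fun τ => A τ * B τ) (A' * B 0 + A 0 * B') := by
  intro i j
  simp only [Matrix.mul_apply, Matrix.add_apply, ← Finset.sum_add_distrib]
  exact HasDerivWithinAt.fun_sum fun l _ => (hA i l).mul (hB l j)

theorem MD.congr {n : Type} {A B : ℝ → Matrix n n ℂ} {A' : Matrix n n ℂ} (hA : MD A A')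
    (h : ∀ τ, 0 ≤ τ → B τ = A τ) : MD B A' := fun i j =>
  (hA i j).congr (fun τ hτ => by rw [h τ hτ]) (by rw [h 0 le_rfl])

theorem MD_sum {n κ : Type} [Fintype κ] {c : κ → ℝ → ℂ} {c' : κ → ℂ} (T : κ → Matrix n n ℂ)
    (hc : ∀ p, HasDerivWithinAt (c p) (c' p) (Set.Ici 0) 0) :
    MD (fun τ => ∑ p, c p τ • T p) (∑ p, c' p • T p) := by
  intro i j
  simp only [Matrix.sum_apply, Matrix.smul_apply, smul_eq_mul]
  exact HasDerivWithinAt.fun_sum fun p _ => (hc p).mul_const _

theorem MD_lin {n : Type} (A Z : Matrix n n ℂ) (c : ℝ) :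
    MD (fun τ => A + ((τ * c : ℝ) : ℂ) • Z) ((c : ℂ) • Z) := by
  intro i j
  simp only [Matrix.add_apply, Matrix.smul_apply, smul_eq_mul]
  have h : HasDerivAt (fun τ : ℝ => ((τ * c : ℝ) : ℂ)) (c : ℂ) 0 := by
    simpa using ((hasDerivAt_id (0 : ℝ)).mul_const c).ofReal_comp
  exact ((h.mul_const _).const_add _).hasDerivWithinAt

theorem mpo_diag {ι σ : Type} [Fintype ι] [DecidableEq ι] {L : ℕ} (γ : ι → ℂ)
    (W : Fin (L + 1) → ι → ι → Matrix σ σ ℂ) :
    mpo (Matrix.diagonal γ) W = ∑ p : Fin (L + 1) → ι,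
      γ (p 0) • tensF fun q => W q (p q) (p (finRotate (L + 1) q)) := by
  ext s t
  simp only [mpo, Matrix.of_apply, chain_diagonal, Matrix.sum_apply, Matrix.smul_apply, tensF,
    smul_eq_mul]

theorem tensF_smul {ι σ : Type} [Fintype ι] (c : ι → ℂ) (D : ι → Matrix σ σ ℂ) :
    (tensF fun q => c q • D q) = (∏ q, c q) • tensF D := by
  ext s t
  simp [tensF, Finset.prod_mul_distrib]

/-- the weight of an auxiliary index -/
def wt (a : Aux) : ℕ := if a ≠ none then 1 else 0

theorem Wsym_eq (θ : ℂ) (a b : Aux) : Wsym θ a b = (θ ^ wt a * θ ^ wt b) • Wsym 1 a b := by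
  cases a <;> cases b <;> simp [Wsym, Bop, wt, smul_smul] <;> module

theorem Wsym_nn : Wsym 1 none none = 1 := by simp only [Wsym, Bop, mul_one]; module
theorem Wsym_ns (a : Fin 3) : Wsym 1 none (some a) = spinOp a := by
  simp only [Wsym, Bop, mul_one, one_mul]; module
theorem Wsym_sn (a : Fin 3) : Wsym 1 (some a) none = spinOp a := by
  simp only [Wsym, Bop, mul_one, one_mul]; module

/-- the number of spin operators on a path -/
def NN {L : ℕ} (p : Fin L → Aux) : ℕ := (Finset.univ.filter fun q => p q ≠ none).card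

theorem sum_wt {L : ℕ} (p : Fin L → Aux) : ∑ q, wt (p q) = NN p := by
  rw [NN, Finset.card_filter]; rfl

theorem theta_sq {τ : ℝ} (h : 0 ≤ τ) : theta τ * theta τ = -(τ : ℂ) := by
  have : ((Real.sqrt τ : ℝ) : ℂ) * (Real.sqrt τ : ℝ) = τ := by
    rw [← Complex.ofReal_mul, Real.mul_self_sqrt h]
  unfold theta
  linear_combination (Complex.I * Complex.I) * this + (τ : ℂ) * Complex.I_mul_I

/-- the operator of a path -/
noncomputable def TP {L : ℕ} (p : Fin L → Aux) : Matrix (Cfg L) (Cfg L) ℂ :=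
  tensF fun q => Wsym 1 (p q) (p (finRotate L q))

theorem mpo_poly {L : ℕ} (γ : Aux → ℂ) {τ : ℝ} (h : 0 ≤ τ) :
    (mpo (Matrix.diagonal γ) fun _ : Fin (L + 1) => Wsym (theta τ)) =
      ∑ p : Fin (L + 1) → Aux, (γ (p 0) * (-(τ : ℂ)) ^ NN p) • TP p := by
  rw [mpo_diag]
  refine Finset.sum_congr rfl fun p _ => ?_
  simp only [Wsym_eq (theta τ)]
  rw [tensF_smul, smul_smul, Finset.prod_mul_distrib, Finset.prod_pow_eq_pow_sum,
    Finset.prod_pow_eq_pow_sum, Equiv.sum_comp (finRotate (L + 1)) fun q => wt (p q), sum_wt,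
    ← mul_pow, theta_sq h, TP]

theorem NN_eq_zero {L : ℕ} {p : Fin L → Aux} : NN p = 0 ↔ p = fun _ => none := by
  simp [NN, Finset.filter_eq_empty_iff, funext_iff]

theorem sum_NN_one {L : ℕ} {M : Type} [AddCommMonoid M] (g : (Fin L → Aux) → M) :
    (∑ p, if NN p = 1 then g p else 0) =
      ∑ i : Fin L, ∑ a : Fin 3, g (Function.update (fun _ => none) i (some a)) := by
  rw [← Finset.sum_filter, ← Finset.sum_product']
  symm
  refine Finset.sum_nbij (fun z => Function.update (fun _ => none) z.1 (some z.2)) ?_ ?_ ?_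
    fun _ _ => rfl
  · rintro ⟨i, a⟩ -
    simp only [Finset.mem_filter, Finset.mem_univ, true_and, NN]
    refine Finset.card_eq_one.2 ⟨i, ?_⟩
    ext q
    by_cases h : q = i <;> simp [h]
  · rintro ⟨i, a⟩ - ⟨j, b⟩ - h
    have h1 := congrFun h i
    by_cases hij : i = j
    · subst hij; simpa using h1
    · simp [hij] at h1
  · intro p hp
    simp only [Finset.coe_filter, Finset.mem_univ, true_and, Set.mem_ofPred_eq, NN] at hp
    obtain ⟨i, hi⟩ := Finset.card_eq_one.1 hp
    have h1 : ∀ q, p q ≠ none ↔ q = i := fun q => by simpa using Finset.ext_iff.1 hi q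
    obtain ⟨a, ha⟩ := Option.ne_none_iff_exists'.1 ((h1 i).2 rfl)
    refine ⟨(i, a), by simp, funext fun q => ?_⟩
    by_cases h : q = i
    · simp [h, ha]
    · have := mt (h1 q).1 h
      simp only [ne_eq, not_not] at this
      simp [h, this]

theorem TP_none {L : ℕ} : TP (fun _ : Fin L => none) = 1 := by
  simp only [TP, Wsym_nn]; exact tensF_one

theorem TP_single {L : ℕ} (j : Fin L) (a : Fin 3) :
    TP (Function.update (fun _ => none) j.succ (some a)) =
      onSite (spinOp a) j.castSucc * onSite (spinOp a) j.succ := by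
  rw [onSite_eq, onSite_eq, tensF_mul, TP]
  congr 1
  funext q
  have hne : j.castSucc ≠ j.succ := j.castSucc_lt_succ.ne
  have hr : finRotate (L + 1) q = j.succ ↔ q = j.castSucc := by
    rw [← (finRotate (L + 1)).injective.eq_iff (b := j.castSucc), finRotate_apply j.castSucc,
      Fin.coeSucc_eq_succ]
  by_cases h1 : q = j.castSucc
  · rw [hr.2 h1, h1]
    simp [hne, Wsym_ns]
  · rw [Function.update_of_ne (mt hr.1 h1), Function.update_of_ne h1]
    by_cases h2 : q = j.succ
    · simp [h2, Wsym_sn]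
    · simp [h2, Wsym_nn]

theorem hasDeriv_pow (c : ℂ) (N : ℕ) :
    HasDerivWithinAt (fun τ : ℝ => c * (-(τ : ℂ)) ^ N) (if N = 1 then -c else 0) (Set.Ici 0) 0 := by
  have h : HasDerivAt (fun τ : ℝ => -(τ : ℂ)) (-1) 0 := by
    simpa using (hasDerivAt_id (0 : ℝ)).ofReal_comp.fun_neg
  refine (((h.fun_pow N).const_mul c).hasDerivWithinAt (s := Set.Ici 0)).congr_deriv ?_
  rcases N with _ | _ | N <;> simp

/-- the bulk part of the slice -/
noncomputable def bulk (k : ℕ) (τ : ℝ) : Matrix (Cfg (k + 2)) (Cfg (k + 2)) ℂ :=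
  mpo E00 fun _ => Wsym (theta τ)

theorem bulk_zero (k : ℕ) : bulk k 0 = 1 := by
  rw [bulk, E00, mpo_poly _ le_rfl, Finset.sum_eq_single (fun _ => none)]
  · simp [NN, TP_none]
  · intro p _ hp
    simp [mt NN_eq_zero.1 hp]
  · simp

theorem bulk_deriv (k : ℕ) :
    MD (bulk k) (-∑ j : Fin (k + 1), bond (Fin.castSucc j) (Fin.succ j)) := by
  have h := MD_sum (TP (L := k + 2)) fun p =>
    hasDeriv_pow (if p 0 = none then (1 : ℂ) else 0) (NN p)
  have e : (∑ p : Fin (k + 2) → Aux,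
      (if NN p = 1 then -(if p 0 = none then (1 : ℂ) else 0) else 0) • TP p) =
      -∑ j : Fin (k + 1), bond (Fin.castSucc j) (Fin.succ j) := by
    simp only [ite_smul, zero_smul]
    rw [sum_NN_one, Fin.sum_univ_succ]
    simp [TP_single, bond, Function.update_of_ne (Fin.succ_ne_zero _).symm]
  rw [e] at h
  exact h.congr fun τ hτ => mpo_poly _ hτ

theorem onSite_Fld {ι : Type} [Fintype ι] [DecidableEq ι] (τ s : ℝ) (j : ι) :
    onSite (Fld τ s) j = 1 + ((τ * (3 / 5 * s) : ℝ) : ℂ) • onSite spinZ j := by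
  rw [Fld, onSite_add, onSite_one, onSite_smul]

theorem sliceO_eq (k : ℕ) (s s' τ : ℝ) :
    sliceO k s s' τ = (1 + ((τ * (3 / 5 * s) : ℝ) : ℂ) • onSite spinZ (0 : Fin (k + 2))) *
      ((1 + ((τ * (3 / 5 * s') : ℝ) : ℂ) • onSite spinZ (Fin.last (k + 1))) * bulk k τ) := by
  rw [← onSite_Fld, ← onSite_Fld, ← Matrix.mul_assoc, onSite_eq, onSite_eq, tensF_mul, bulk, sliceO,
    E00, mpo_diag, mpo_diag, Finset.mul_sum]
  refine Finset.sum_congr rfl fun p _ => ?_
  rw [Matrix.mul_smul, tensF_mul]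
  congr 2
  funext q
  unfold Wopen
  congr 1
  by_cases h1 : q = 0
  · simp [h1]
  · by_cases h2 : q = Fin.last (k + 1)
    · simp [h2]
    · simp [h1, h2]

end SliceO

open SliceO

theorem sliceO_zero (k : ℕ) (s s' : ℝ) : sliceO k s s' 0 = 1 := by
  simp [sliceO_eq, bulk_zero]

theorem sliceO_deriv (k : ℕ) (s s' : ℝ) (σ σ' : Cfg (k + 2)) :
    HasDerivWithinAt (fun τ => sliceO k s s' τ σ σ') (-(openH (k + 1) s s' σ σ')) (Set.Ici 0) 0 := by
  have h := (MD_lin 1 (onSite spinZ (0 : Fin (k + 2))) (3 / 5 * s)).mul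
    ((MD_lin 1 (onSite spinZ (Fin.last (k + 1))) (3 / 5 * s')).mul (bulk_deriv k)) σ σ'
  simp only [sliceO_eq]
  refine h.congr_deriv ?_
  rw [← Matrix.neg_apply (openH (k + 1) s s')]
  refine congrArg (fun M : Matrix (Cfg (k + 2)) (Cfg (k + 2)) ℂ => M σ σ') ?_
  simp only [bulk_zero, zero_mul, Complex.ofReal_zero, zero_smul, add_zero, mul_one, one_mul, openH]
  abel

end Crest.Agent.R347
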