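import Crest.Agent.R347.Tens
import Crest.Agent.R347.Torus

/-!
# Row 347: the Trotter slice of the ring to first order   (task R347/SliceR)

You may use `SpinAlg`, `Tens`, `Torus` (other tasks).

Recipe.  `Wsym θ a b = θ^(|a|+|b|) • Wsym 1 a b` with `|none| = 0`, `|some _| = 1`.  By `chain_diagonal`
the entry `(s,t)` is `∑ p, sgn g (p 0) * ∏ k, Wsym θ (p k) (p (k+1)) (s k) (t k)
= ∑ p, (θ²)^(N p) * c p` with `N p = #{k | p k ≠ none}` and `θ² = -τ` for `τ ≥ 0`.  So on `τ ≥ 0` it is
a polynomial in `τ`; the value at `0` is the term `p = none` (identity), the derivative is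
`-∑_{N p = 1} c p`.  The paths with `N p = 1` are `p = update (fun _ => none) (finRotate j) (some a)`,
and for these `c p = sign * (onSite (S^a) j * onSite (S^a) (finRotate j)) s t` (`onSite_eq`, `tensF_mul`;
`finRotate j ≠ j` as `L ≥ 2`, `finRotate j = 0 ↔ j + 1 = L`).
-/

set_option autoImplicit false

namespace Crest.Agent.R347

open Crest.MathPhysics.SpinChain Matrix

/-- number of spin operators carried by an auxiliary index -/
def srDeg : Aux → ℕ
  | none => 0
  | some _ => 1

theorem sr_Bop (θ : ℂ) (a : Aux) : Bop θ a = θ ^ srDeg a • Bop 1 a := by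
  cases a <;> simp [Bop, srDeg]

theorem sr_Wsym (θ : ℂ) (a b : Aux) : Wsym θ a b = θ ^ (srDeg a + srDeg b) • Wsym 1 a b := by
  unfold Wsym
  rw [sr_Bop θ a, sr_Bop θ b, smul_mul_smul_comm, smul_mul_smul_comm, ← pow_add, ← pow_add,
    add_comm (srDeg b), ← smul_add, smul_comm]

theorem sr_W00 : Wsym 1 none none = 1 := by
  simp only [Wsym, Bop, mul_one]
  rw [← two_smul ℂ, smul_smul]
  norm_num

theorem sr_W01 (a : Fin 3) : Wsym 1 none (some a) = spinOp a := by
  simp only [Wsym, Bop, mul_one, one_mul, one_smul]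
  rw [← two_smul ℂ, smul_smul]
  norm_num

theorem sr_W10 (a : Fin 3) : Wsym 1 (some a) none = spinOp a := by
  simp only [Wsym, Bop, mul_one, one_mul, one_smul]
  rw [← two_smul ℂ, smul_smul]
  norm_num

theorem sr_theta_sq {τ : ℝ} (h : 0 ≤ τ) : theta τ ^ 2 = -τ := by
  rw [theta, mul_pow, Complex.I_sq, ← Complex.ofReal_pow, Real.sq_sqrt h, neg_one_mul]

/-- coefficient of a closed path -/
noncomputable def srC {L : ℕ} (γ : Aux → ℂ) (s t : Cfg (L + 1)) (p : Fin (L + 1) → Aux) : ℂ :=
  γ (p 0) * ∏ k, Wsym 1 (p k) (p (finRotate (L + 1) k)) (s k) (t k)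

theorem sr_expand {L : ℕ} (γ : Aux → ℂ) {τ : ℝ} (h : 0 ≤ τ) (s t : Cfg (L + 1)) :
    mpo (Matrix.diagonal γ) (fun _ => Wsym (theta τ)) s t =
      ∑ p : Fin (L + 1) → Aux, (-(τ : ℂ)) ^ (∑ k, srDeg (p k)) * srC γ s t p := by
  rw [mpo, Matrix.of_apply, chain_diagonal]
  refine Finset.sum_congr rfl fun p _ => ?_
  simp only [Matrix.of_apply, sr_Wsym (theta τ), Matrix.smul_apply, smul_eq_mul]
  rw [Finset.prod_mul_distrib, Finset.prod_pow_eq_pow_sum, Finset.sum_add_distrib,
    Equiv.sum_comp (finRotate (L + 1)) fun k => srDeg (p k), ← two_mul, pow_mul, sr_theta_sq h, srC]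
  ring

theorem sr_deg_zero {ι : Type} [Fintype ι] {p : ι → Aux} (h : ∑ k, srDeg (p k) = 0) :
    p = fun _ => none := by
  funext k
  have := (Finset.sum_eq_zero_iff.1 h) k (Finset.mem_univ k)
  cases hp : p k with
  | none => rfl
  | some a => rw [hp] at this; exact absurd this one_ne_zero

theorem sr_deg_update {ι : Type} [Fintype ι] [DecidableEq ι] (j : ι) (a : Fin 3) :
    ∑ k, srDeg (Function.update (fun _ => (none : Aux)) j (some a) k) = 1 := by
  rw [Finset.sum_eq_single j (fun k _ hk => by rw [Function.update_of_ne hk]; rfl) (by simp),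
    Function.update_self]
  rfl

theorem sr_deg_one {ι : Type} [Fintype ι] [DecidableEq ι] {p : ι → Aux}
    (h : ∑ k, srDeg (p k) = 1) : ∃ j a, p = Function.update (fun _ => none) j (some a) := by
  obtain ⟨j, -, hj⟩ := Finset.exists_ne_zero_of_sum_ne_zero (h.trans_ne one_ne_zero)
  cases hp : p j with
  | none => rw [hp] at hj; exact absurd rfl hj
  | some a =>
    refine ⟨j, a, funext fun k => ?_⟩
    by_cases hk : k = j
    · rw [hk, Function.update_self, hp]
    · rw [Function.update_of_ne hk]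
      rw [← Finset.add_sum_erase _ _ (Finset.mem_univ j), hp] at h
      have h1 : ∑ k ∈ Finset.univ.erase j, srDeg (p k) = 0 := by
        simpa [srDeg] using h
      have := (Finset.sum_eq_zero_iff.1 h1) k (Finset.mem_erase.2 ⟨hk, Finset.mem_univ k⟩)
      cases hp : p k with
      | none => rfl
      | some a => rw [hp] at this; exact absurd this one_ne_zero

theorem sr_rot_ne {L : ℕ} (j : Fin (L + 2)) : finRotate (L + 2) j ≠ j := by
  rw [finRotate_apply]
  simp

theorem srC_update {L : ℕ} (γ : Aux → ℂ) (s t : Cfg (L + 2)) (j : Fin (L + 2)) (a : Fin 3) :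
    srC γ s t (Function.update (fun _ => none) (finRotate (L + 2) j) (some a)) =
      (if j.val + 1 = L + 2 then γ (some a) else γ none) *
        (onSite (spinOp a) j * onSite (spinOp a) (finRotate (L + 2) j)) s t := by
  unfold srC
  congr 1
  · split_ifs with h
    · obtain rfl : j = Fin.last (L + 1) := Fin.ext (by simpa using h)
      rw [finRotate_last, Function.update_self]
    · rw [Function.update_of_ne]
      intro h0
      have h1 := coe_finRotate_of_ne_last (i := j) fun h2 => h (by simp [h2])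
      rw [← h0] at h1
      exact absurd h1 (by simp)
  · rw [onSite_eq, onSite_eq, tensF_mul, tensF, Matrix.of_apply]
    refine Finset.prod_congr rfl fun k _ => ?_
    by_cases h1 : k = j
    · subst h1
      rw [Function.update_self, Function.update_self, Function.update_of_ne (sr_rot_ne k).symm,
        Function.update_of_ne (sr_rot_ne k).symm, sr_W01, mul_one]
    · have h2 : finRotate (L + 2) k ≠ finRotate (L + 2) j := (finRotate _).injective.ne h1
      rw [Function.update_of_ne h1, Function.update_of_ne h2, one_mul]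
      by_cases h3 : k = finRotate (L + 2) j
      · rw [h3, Function.update_self, Function.update_self, sr_W10]
      · rw [Function.update_of_ne h3, Function.update_of_ne h3, sr_W00]

theorem sr_zero {L : ℕ} (γ : Aux → ℂ) :
    mpo (L := L + 1) (Matrix.diagonal γ) (fun _ => Wsym (theta 0)) = γ none • 1 := by
  ext s t
  rw [sr_expand γ le_rfl, Finset.sum_eq_single (fun _ => none) (fun p _ hp => by
    rw [Complex.ofReal_zero, neg_zero, zero_pow fun h => hp (sr_deg_zero h), zero_mul]) (by simp),
    ← tensF_one]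
  simp [srDeg, srC, sr_W00, tensF]

theorem sr_deriv {L : ℕ} (γ : Aux → ℂ) (s t : Cfg (L + 2)) :
    HasDerivWithinAt (fun τ : ℝ => mpo (Matrix.diagonal γ) (fun _ => Wsym (theta τ)) s t)
      (-∑ j : Fin (L + 2), ∑ a : Fin 3, (if j.val + 1 = L + 2 then γ (some a) else γ none) *
        (onSite (spinOp a) j * onSite (spinOp a) (finRotate (L + 2) j)) s t) (Set.Ici 0) 0 := by
  have h1 : ∀ N : ℕ, HasDerivAt (fun τ : ℝ => (-(τ : ℂ)) ^ N) (-if N = 1 then 1 else 0) 0 := by
    intro N
    refine ((Complex.ofRealCLM.hasDerivAt (x := (0 : ℝ))).neg.pow N).congr_deriv ?_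
    rcases N with _ | _ | N <;> simp
  have h2 := HasDerivAt.fun_sum (u := Finset.univ) fun (p : Fin (L + 2) → Aux) _ =>
    (h1 (∑ k, srDeg (p k))).mul_const (srC γ s t p)
  refine (h2.hasDerivWithinAt.congr (fun τ hτ => sr_expand γ hτ s t)
    (sr_expand γ le_rfl s t)).congr_deriv ?_
  simp only [neg_mul, Finset.sum_neg_distrib, neg_inj]
  rw [← Fintype.sum_prod_type']
  symm
  refine Finset.sum_of_injOn (fun q : Fin (L + 2) × Fin 3 =>
    Function.update (fun _ => (none : Aux)) (finRotate (L + 2) q.1) (some q.2)) ?_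
    (fun _ _ => Finset.mem_coe.2 (Finset.mem_univ _)) (fun p _ hp => ?_) fun q _ => ?_
  · rintro ⟨j, a⟩ - ⟨j', a'⟩ - h
    have h3 := congrFun h (finRotate (L + 2) j)
    simp only [Function.update_self] at h3
    by_cases h4 : j = j'
    · subst h4
      rw [Function.update_self] at h3
      rw [Option.some.inj h3]
    · rw [Function.update_of_ne ((finRotate _).injective.ne h4)] at h3
      exact absurd h3 (by simp)
  · rw [if_neg, zero_mul]
    intro h
    obtain ⟨j, a, rfl⟩ := sr_deg_one h
    exact hp ⟨((finRotate _).symm j, a), by simp, by simp only [Equiv.apply_symm_apply]⟩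
  · rw [sr_deg_update, if_pos rfl, one_mul, srC_update]

theorem sliceR_zero {L : ℕ} (hL : 2 ≤ L) (g : Aux) : sliceR L g 0 = 1 := by
  obtain ⟨L, rfl⟩ : ∃ n, L = n + 1 := ⟨L - 1, by omega⟩
  rw [sliceR, Gam, sr_zero]
  cases g <;> simp [sgn]

theorem sliceR_deriv {L : ℕ} (hL : 2 ≤ L) (g : Aux) (s t : Cfg L) :
    HasDerivWithinAt (fun τ => sliceR L g τ s t) (-(ringH L g s t)) (Set.Ici 0) 0 := by
  obtain ⟨L, rfl⟩ : ∃ n, L = n + 2 := ⟨L - 2, by omega⟩
  refine (sr_deriv (fun a => (sgn g a : ℂ)) s t).congr_deriv ?_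
  have h : (sgn g none : ℂ) = 1 := by cases g <;> simp [sgn]
  simp only [ringH, Matrix.sum_apply, Matrix.smul_apply, smul_eq_mul, h]

end Crest.Agent.R347
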