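import Crest.Agent.R347.Tens
import Crest.Agent.R347.Torus

/-!
# Row 347: the quantum transfer matrix   (task R347/Transfer)

You may use `SpinAlg`, `Tens`, `Torus` (other tasks).  Useful: with `J = rot (some 1)` (`J * J = 1`),
`(Bop (theta τ) a).map star = J * Bop (theta τ) a * J` (`theta` is purely imaginary, `spin_conj`);
`rot g * Bop θ a * rot g = sgn g a • Bop θ a`; `chain` is invariant under conjugating `Γ` and all `M k` by
an involution; `star (chain Γ M) = chain (Γ.map star) (fun k => (M k).map star)`;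
`chain Γ (fun k => c k • M k) = (∏ k, c k) * chain Γ M`.
-/

set_option autoImplicit false
set_option linter.unusedSectionVars false

namespace Crest.Agent.R347

open Crest.MathPhysics.SpinChain Matrix

section aux

variable {ι : Type} [Fintype ι] [DecidableEq ι]

theorem Transfer.prod_conj {U : Matrix ι ι ℂ} (hU : U * U = 1) {L : ℕ} (M : Fin L → Matrix ι ι ℂ) :
    (List.ofFn fun k => U * M k * U).prod = U * (List.ofFn M).prod * U := by
  induction L with
  | zero => simp [hU]
  | succ L ih =>
    rw [List.ofFn_succ, List.ofFn_succ, List.prod_cons, List.prod_cons, ih]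
    calc U * M 0 * U * (U * (List.ofFn fun i : Fin L => M i.succ).prod * U)
        = U * M 0 * (U * U) * (List.ofFn fun i : Fin L => M i.succ).prod * U := by
          simp only [Matrix.mul_assoc]
      _ = _ := by rw [hU]; simp only [Matrix.mul_assoc, Matrix.mul_one]

theorem Transfer.chain_conj {U : Matrix ι ι ℂ} (hU : U * U = 1) {L : ℕ} (Γ : Matrix ι ι ℂ)
    (M : Fin L → Matrix ι ι ℂ) : chain (U * Γ * U) (fun k => U * M k * U) = chain Γ M := by
  unfold chain
  rw [Transfer.prod_conj hU]
  calc (U * Γ * U * (U * (List.ofFn M).prod * U)).trace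
      = (U * (Γ * (U * U) * (List.ofFn M).prod * U)).trace := by simp only [Matrix.mul_assoc]
    _ = (Γ * (U * U) * (List.ofFn M).prod * U * U).trace := by rw [Matrix.trace_mul_comm]
    _ = _ := by rw [Matrix.mul_assoc _ U U, hU, Matrix.mul_one, Matrix.mul_one]

theorem Transfer.map_star_mul (A B : Matrix ι ι ℂ) :
    (A * B).map star = A.map star * B.map star :=
  Matrix.map_mul (f := starRingEnd ℂ)

theorem Transfer.map_star_one : (1 : Matrix ι ι ℂ).map star = 1 :=
  Matrix.map_one _ (star_zero ℂ) (star_one ℂ)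

theorem Transfer.map_star_add (A B : Matrix ι ι ℂ) :
    (A + B).map star = A.map star + B.map star := by
  ext i j; simp

theorem Transfer.map_star_smul (c : ℂ) (A : Matrix ι ι ℂ) :
    (c • A).map star = star c • A.map star := by
  ext i j; simp

theorem Transfer.star_chain {L : ℕ} (Γ : Matrix ι ι ℂ) (M : Fin L → Matrix ι ι ℂ) :
    star (chain Γ M) = chain (Γ.map star) fun k => (M k).map star := by
  have h1 : ∀ {L : ℕ} (M : Fin L → Matrix ι ι ℂ),
      (List.ofFn M).prod.map star = (List.ofFn fun k => (M k).map star).prod := by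
    intro L M
    induction L with
    | zero => simp [Transfer.map_star_one]
    | succ L ih =>
      rw [List.ofFn_succ, List.ofFn_succ, List.prod_cons, List.prod_cons, Transfer.map_star_mul, ih]
  unfold chain
  rw [← h1, ← Transfer.map_star_mul]
  simp only [Matrix.trace, Matrix.diag_apply, Matrix.map_apply, star_sum]

theorem Transfer.chain_smul {L : ℕ} (Γ : Matrix ι ι ℂ) (c : Fin L → ℂ)
    (M : Fin L → Matrix ι ι ℂ) :
    chain Γ (fun k => c k • M k) = (∏ k, c k) * chain Γ M := by
  have h1 : ∀ {L : ℕ} (c : Fin L → ℂ) (M : Fin L → Matrix ι ι ℂ),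
      (List.ofFn fun k => c k • M k).prod = (∏ k, c k) • (List.ofFn M).prod := by
    intro L c M
    induction L with
    | zero => simp
    | succ L ih =>
      rw [List.ofFn_succ, List.ofFn_succ, List.prod_cons, List.prod_cons, ih, Fin.prod_univ_succ,
        Matrix.smul_mul, Matrix.mul_smul, smul_smul]
  unfold chain
  rw [h1, Matrix.mul_smul, Matrix.trace_smul, smul_eq_mul]

theorem Transfer.tens_diagonal (n : ℕ) (γ : ι → ℂ) :
    tens n (Matrix.diagonal γ) = Matrix.diagonal fun a : Fin n → ι => ∏ r, γ (a r) := by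
  ext a b
  simp only [tens, tensF, Matrix.of_apply]
  by_cases hab : a = b
  · subst hab
    simp
  · rw [Matrix.diagonal_apply_ne _ hab]
    obtain ⟨r, hr⟩ := Function.ne_iff.1 hab
    exact Finset.prod_eq_zero (Finset.mem_univ r) (Matrix.diagonal_apply_ne _ hr)

end aux

theorem Transfer.rot_sq (g : Aux) : rot g * rot g = 1 := by
  rw [rot_rep.mul, gmul_self, rot_rep.one]

theorem Transfer.rot_conj (g h : Aux) : rot g * rot h * rot g = rot h := by
  rw [rot_rep.mul g h, gmul_comm, ← rot_rep.mul, Matrix.mul_assoc, Transfer.rot_sq, Matrix.mul_one]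

theorem Transfer.conj_mul (g : Aux) (A B : M3) :
    rot g * (A * B) * rot g = (rot g * A * rot g) * (rot g * B * rot g) := by
  calc rot g * (A * B) * rot g = rot g * A * (rot g * rot g) * B * rot g := by
        rw [Transfer.rot_sq]; simp only [Matrix.mul_assoc, Matrix.mul_one]
    _ = _ := by simp only [Matrix.mul_assoc]

theorem Transfer.rot_Bop (g : Aux) (θ : ℂ) (a : Aux) :
    rot g * Bop θ a * rot g = (sgn g a : ℂ) • Bop θ a := by
  cases a with
  | none =>
    have : sgn g none = 1 := by cases g <;> rfl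
    simp [Bop, this, Transfer.rot_sq]
  | some a =>
    simp only [Bop]
    rw [Matrix.mul_smul, Matrix.smul_mul, rot_spin, smul_comm]

theorem Transfer.conj_Wsym (g : Aux) (θ : ℂ) (a b : Aux) :
    rot g * Wsym θ a b * rot g = (1 / 2 : ℂ) •
      ((rot g * Bop θ a * rot g) * (rot g * Bop θ b * rot g) +
        (rot g * Bop θ b * rot g) * (rot g * Bop θ a * rot g)) := by
  rw [Wsym, Matrix.mul_smul, Matrix.smul_mul, Matrix.mul_add, Matrix.add_mul, Transfer.conj_mul,
    Transfer.conj_mul]

theorem Transfer.rot_Wsym (g : Aux) (θ : ℂ) (a b : Aux) :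
    rot g * Wsym θ a b * rot g = ((sgn g a : ℂ) * (sgn g b : ℂ)) • Wsym θ a b := by
  rw [Transfer.conj_Wsym, Transfer.rot_Bop, Transfer.rot_Bop, Wsym]
  simp only [Matrix.smul_mul, Matrix.mul_smul, smul_smul, smul_add]
  congr 2 <;> ring

theorem Transfer.star_Bop (τ : ℝ) (a : Aux) :
    (Bop (theta τ) a).map star = rot (some 1) * Bop (theta τ) a * rot (some 1) := by
  cases a with
  | none => simp only [Bop, Matrix.mul_one, Transfer.rot_sq, Transfer.map_star_one]
  | some a =>
    have : star (theta τ) = -theta τ := by simp [theta]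
    simp only [Bop]
    rw [Transfer.map_star_smul, spin_conj, this, Matrix.mul_smul, Matrix.smul_mul, neg_smul_neg]

theorem Transfer.star_Wsym (τ : ℝ) (a b : Aux) :
    (Wsym (theta τ) a b).map star = rot (some 1) * Wsym (theta τ) a b * rot (some 1) := by
  rw [Transfer.conj_Wsym, Wsym, Transfer.map_star_smul, Transfer.map_star_add,
    Transfer.map_star_mul, Transfer.map_star_mul, Transfer.star_Bop, Transfer.star_Bop]
  congr 1
  simp

theorem Transfer.Wsym_comm (θ : ℂ) (a b : Aux) : Wsym θ a b = Wsym θ b a := by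
  rw [Wsym, Wsym, add_comm]

theorem Transfer.Wsym_none (θ : ℂ) (b : Aux) : Wsym θ none b = Bop θ b := by
  have : Bop θ none = 1 := rfl
  rw [Wsym, this, Matrix.one_mul, Matrix.mul_one, ← two_smul ℂ, smul_smul]
  norm_num

theorem Transfer.rot_Fld (g : Aux) (τ s : ℝ) :
    rot g * Fld τ s * rot g = Fld τ ((sgn g (some 2) : ℝ) * s) := by
  have h := rot_spin g 2
  have e : spinOp 2 = spinZ := rfl
  rw [e] at h
  rw [Fld, Fld, Matrix.mul_add, Matrix.add_mul, Matrix.mul_one, Transfer.rot_sq, Matrix.mul_smul,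
    Matrix.smul_mul, h, smul_smul]
  congr 2
  push_cast
  ring

theorem Transfer.star_Fld (τ s : ℝ) :
    (Fld τ s).map star = rot (some 1) * Fld τ (-s) * rot (some 1) := by
  have h := spin_conj 2
  have e : spinOp 2 = spinZ := rfl
  rw [e] at h
  rw [Fld, Fld, Transfer.map_star_add, Transfer.map_star_one, Transfer.map_star_smul, h,
    Matrix.mul_add, Matrix.add_mul, Matrix.mul_one, Transfer.rot_sq, Matrix.mul_smul,
    Matrix.smul_mul, smul_neg, ← neg_smul]
  congr 2
  rw [Complex.star_def, Complex.conj_ofReal]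
  push_cast
  ring

theorem Transfer.rho_eq (n : ℕ) (g : Aux) :
    rho n g = Matrix.diagonal fun a : Fin n → Aux => ∏ r, (sgn g (a r) : ℂ) :=
  Transfer.tens_diagonal n _

theorem Transfer.sgn_prod_sq (n : ℕ) (g : Aux) (a : Fin n → Aux) :
    (∏ r, (sgn g (a r) : ℂ)) * ∏ r, (sgn g (a r) : ℂ) = 1 := by
  rw [← Finset.prod_mul_distrib]
  refine Finset.prod_eq_one fun r _ => ?_
  exact_mod_cast sgn_mul_self g (a r)

/-- symmetric because `Wsym θ a b = Wsym θ b a`, real by conjugation with `J` -/
theorem Tm_herm (h : Aux) (τ : ℝ) (n : ℕ) : (Tm h τ n).IsHermitian := by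
  ext a b
  rw [Matrix.conjTranspose_apply]
  simp only [Tm, col, Matrix.of_apply]
  rw [Transfer.star_chain, rot_real, ← Transfer.chain_conj (Transfer.rot_sq (some 1)) (rot h)
    (fun r => Wsym (theta τ) (a r) (b r)), Transfer.rot_conj]
  congr 1
  funext r
  rw [Transfer.star_Wsym, Transfer.Wsym_comm]

theorem rho_rep (n : ℕ) : Rep4 (rho n) := tens_rep n Gam_rep

/-- `rho n g` is diagonal with entries `∏ r, sgn g (a r)` -/
theorem rho_comm (g h : Aux) (τ : ℝ) (n : ℕ) : rho n g * Tm h τ n = Tm h τ n * rho n g := by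
  ext a b
  rw [Transfer.rho_eq, Matrix.diagonal_mul, Matrix.mul_diagonal]
  have e : Tm h τ n a b =
      ((∏ r, (sgn g (a r) : ℂ)) * ∏ r, (sgn g (b r) : ℂ)) * Tm h τ n a b := by
    simp only [Tm, col, Matrix.of_apply]
    rw [← Finset.prod_mul_distrib, ← Transfer.chain_smul,
      ← Transfer.chain_conj (Transfer.rot_sq g) (rot h) (fun r => Wsym (theta τ) (a r) (b r)),
      Transfer.rot_conj]
    congr 1
    funext r
    rw [Transfer.rot_Wsym]
  have e2 := Transfer.sgn_prod_sq n g a
  linear_combination (∏ r, (sgn g (a r) : ℂ)) * e +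
    ((∏ r, (sgn g (b r) : ℂ)) * Tm h τ n a b) * e2

theorem torus_ring (L : ℕ) (g h : Aux) (τ : ℝ) (n : ℕ) :
    (tens L (rot h) * sliceR L g τ ^ n).trace = (rho n g * Tm h τ n ^ L).trace := by
  rw [sliceR, torus]
  exact chain_const _ _

/-- `torus` with `D = 1`; `tens n E00` is the projector on the constant `none`; the first and last
columns contribute `lvec` because `Wsym θ none b = Bop θ b = Wsym θ b none`
(`List.ofFn_succ`, `List.ofFn_succ'`, `List.ofFn_const`). -/
theorem torus_open (k : ℕ) (s s' τ : ℝ) (n : ℕ) :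
    (sliceO k s s' τ ^ n).trace = lvec τ s n ⬝ᵥ (Tm none τ n ^ k *ᵥ lvec τ s' n) := by
  have h1 := torus (1 : M3) E00 (Wopen τ s s' k) n
  have h2 : tens (k + 2) (1 : M3) = 1 := tensF_one
  rw [h2, Matrix.one_mul] at h1
  rw [sliceO, h1, chain]
  have hmid : ∀ i : Fin k,
      col (1 : M3) (Wopen τ s s' k (Fin.castSucc i).succ) n = Tm none τ n := by
    intro i
    have e1 : (Fin.castSucc i).succ ≠ 0 := Fin.succ_ne_zero _
    have e2 : (Fin.castSucc i).succ ≠ Fin.last (k + 1) := by
      intro h
      have := congrArg Fin.val h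
      simp at this
      omega
    have e : Wopen τ s s' k (Fin.castSucc i).succ = Wsym (theta τ) := by
      funext a b
      rw [Wopen, if_neg e1, if_neg e2, Matrix.one_mul]
    rw [e]
    rfl
  rw [List.ofFn_succ, List.ofFn_succ', List.prod_cons, List.prod_concat]
  simp only [hmid]
  rw [List.ofFn_const, List.prod_replicate, E00, Transfer.tens_diagonal, Matrix.trace]
  rw [Finset.sum_eq_single (fun _ => none)]
  · have hL : ∀ a, col (1 : M3) (Wopen τ s s' k 0) n (fun _ => none) a = lvec τ s n a := by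
      intro a
      simp only [col, lvec, Matrix.of_apply, Wopen, if_true, Transfer.Wsym_none]
    have hR : ∀ b, col (1 : M3) (Wopen τ s s' k (Fin.last k).succ) n b (fun _ => none) =
        lvec τ s' n b := by
      intro b
      have e1 : (Fin.last k).succ ≠ 0 := Fin.succ_ne_zero _
      have e2 : (Fin.last k).succ = Fin.last (k + 1) := rfl
      simp only [col, lvec, Matrix.of_apply, Wopen, if_neg e1, if_pos e2,
        Transfer.Wsym_comm _ _ none, Transfer.Wsym_none]
    simp only [Matrix.diag_apply, Matrix.diagonal_mul, if_true, Finset.prod_const_one, one_mul]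
    rw [Matrix.mul_apply, dotProduct]
    refine Finset.sum_congr rfl fun a _ => ?_
    rw [hL, Matrix.mul_apply, Matrix.mulVec, dotProduct]
    simp only [hR]
  · intro a _ ha
    obtain ⟨r, hr⟩ := Function.ne_iff.1 ha
    rw [Matrix.diag_apply, Matrix.diagonal_mul,
      Finset.prod_eq_zero (Finset.mem_univ r) (if_neg hr), zero_mul]
  · intro h
    exact absurd (Finset.mem_univ _) h

theorem star_lvec (τ s : ℝ) (n : ℕ) : star (lvec τ s n) = lvec τ (-s) n := by
  funext a
  rw [Pi.star_apply]
  simp only [lvec]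
  rw [Transfer.star_chain, Transfer.map_star_one,
    ← Transfer.chain_conj (Transfer.rot_sq (some 1)) (1 : M3)
      (fun r => Fld τ (-s) * Bop (theta τ) (a r)), Matrix.mul_one, Transfer.rot_sq]
  congr 1
  funext r
  rw [Transfer.map_star_mul, Transfer.star_Fld, Transfer.star_Bop, Transfer.conj_mul]

theorem rho_lvec (g : Aux) (τ s : ℝ) (n : ℕ) :
    rho n g *ᵥ lvec τ s n = lvec τ ((sgn g (some 2) : ℝ) * s) n := by
  funext a
  rw [Transfer.rho_eq, Matrix.mulVec_diagonal]
  have e : lvec τ s n a =
      (∏ r, (sgn g (a r) : ℂ)) * lvec τ ((sgn g (some 2) : ℝ) * s) n a := by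
    simp only [lvec]
    rw [← Transfer.chain_smul, ← Transfer.chain_conj (Transfer.rot_sq g) (1 : M3)
      (fun r => Fld τ s * Bop (theta τ) (a r)), Matrix.mul_one, Transfer.rot_sq]
    congr 1
    funext r
    rw [Transfer.conj_mul, Transfer.rot_Fld, Transfer.rot_Bop, Matrix.mul_smul]
  rw [e, ← mul_assoc, Transfer.sgn_prod_sq, one_mul]

end Crest.Agent.R347
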