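import Crest.Agent.R347.Defs

/-!
# Row 347: the Trotter limit   (task R347/Trotter)

Recipe.  Work in a normed algebra structure on matrices (`open scoped Matrix.Norms.Operator`, i.e.
`Matrix.linftyOpNormedRing`, `linftyOpNormedAlgebra`; its topology is the product topology).
With `τ = β/n`, `Aₙ = O τ`, `Bₙ = exp (-τ H)`: both are `1 - τ H + o(τ)`, so `n ‖Aₙ - Bₙ‖ → 0`, and
`‖Aₙ‖, ‖Bₙ‖ ≤ 1 + C/n` eventually.  Telescoping, `‖A^n - B^n‖ ≤ n ‖A - B‖ max(‖A‖,‖B‖)^(n-1)`, and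
`Bₙ^n = exp (-β H)` (`Matrix.exp_nsmul`).  (If the index type is empty everything is trivial.)
-/

set_option autoImplicit false

namespace Crest.Agent.R347

open Matrix Filter Topology

section General

variable {𝔸 : Type*} [NormedRing 𝔸] [NormOneClass 𝔸]

private theorem tro_tele {A B : 𝔸} {M : ℝ} (hM : 1 ≤ M) (hA : ‖A‖ ≤ M) (hB : ‖B‖ ≤ M) (k : ℕ) :
    ‖A ^ k - B ^ k‖ ≤ k * M ^ k * ‖A - B‖ := by
  induction k with
  | zero => simp
  | succ k ih =>
    have e : A ^ (k + 1) - B ^ (k + 1) = A * (A ^ k - B ^ k) + (A - B) * B ^ k := by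
      rw [pow_succ', pow_succ' B]; noncomm_ring
    have hM0 : 0 ≤ M := by linarith
    have h1 : ‖A * (A ^ k - B ^ k)‖ ≤ M * (k * M ^ k * ‖A - B‖) :=
      (norm_mul_le _ _).trans (mul_le_mul hA ih (norm_nonneg _) hM0)
    have h2 : ‖(A - B) * B ^ k‖ ≤ ‖A - B‖ * M ^ (k + 1) := by
      refine (norm_mul_le _ _).trans (mul_le_mul_of_nonneg_left ?_ (norm_nonneg _))
      exact (norm_pow_le _ _).trans ((pow_le_pow_left₀ (norm_nonneg _) hB k).trans
        (pow_le_pow_right₀ hM (Nat.le_succ k)))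
    rw [e]
    refine (norm_add_le _ _).trans ((add_le_add h1 h2).trans (le_of_eq ?_))
    push_cast
    ring

variable [NormedAlgebra ℝ 𝔸]

private theorem tro_bound {O : ℝ → 𝔸} {X : 𝔸} (h0 : O 0 = 1)
    (hd : HasDerivWithinAt O X (Set.Ici 0) 0) :
    ∀ᶠ τ in 𝓝[Set.Ici 0] (0 : ℝ), ‖O τ‖ ≤ 1 + |τ| * (‖X‖ + 1) := by
  have h := (hasDerivWithinAt_iff_isLittleO.1 hd).def one_pos
  filter_upwards [h] with τ hτ
  rw [h0, sub_zero, one_mul, Real.norm_eq_abs] at hτ
  have e : O τ = (O τ - 1 - τ • X) + (1 + τ • X) := by abel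
  have h1 := norm_add_le (1 : 𝔸) (τ • X)
  rw [norm_one, norm_smul, Real.norm_eq_abs] at h1
  rw [e]
  refine (norm_add_le _ _).trans ?_
  linarith

private theorem tro_gen [CompleteSpace 𝔸] {O : ℝ → 𝔸} {X : 𝔸} (h0 : O 0 = 1)
    (hd : HasDerivWithinAt O X (Set.Ici 0) 0) {β : ℝ} (hβ : 0 < β) :
    Tendsto (fun N : ℕ => O (β / N) ^ N) atTop (𝓝 (NormedSpace.exp (β • X))) := by
  let _ : NormedAlgebra ℚ 𝔸 := NormedAlgebra.restrictScalars ℚ ℝ 𝔸
  set E : ℝ → 𝔸 := fun τ => NormedSpace.exp (τ • X) with hE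
  have hE0 : E 0 = 1 := by simp [hE]
  have hEd : HasDerivWithinAt E X (Set.Ici 0) 0 := by
    have := (hasDerivAt_exp_smul_const (𝕂 := ℝ) X 0).hasDerivWithinAt (s := Set.Ici 0)
    simpa using this
  have hτ : Tendsto (fun N : ℕ => β / N) atTop (𝓝[Set.Ici 0] (0 : ℝ)) :=
    tendsto_nhdsWithin_iff.2 ⟨tendsto_const_div_atTop_nhds_zero_nat β,
      Eventually.of_forall fun N => by simp only [Set.mem_Ici]; positivity⟩
  have hD := hasDerivWithinAt_iff_isLittleO.1 (hd.sub hEd)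
  set C : ℝ := ‖X‖ + 1 with hC
  have hC0 : 0 < C := by positivity
  rw [tendsto_iff_norm_sub_tendsto_zero, Metric.tendsto_nhds]
  intro ε hε
  have hK : 0 < 2 * β * Real.exp (β * C) := by positivity
  filter_upwards [hτ.eventually (tro_bound h0 hd), hτ.eventually (tro_bound hE0 hEd),
    hτ.eventually (hD.def (div_pos hε hK)), eventually_gt_atTop 0] with N h1 h2 h3 hN
  have hN' : (0 : ℝ) < N := Nat.cast_pos.2 hN
  have hb : 0 < β / N := by positivity
  rw [abs_of_pos hb] at h1 h2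
  simp only [Pi.sub_apply, h0, hE0, sub_self, smul_zero, sub_zero, Real.norm_eq_abs,
    abs_of_pos hb] at h3
  have e : NormedSpace.exp (β • X) = E (β / N) ^ N := by
    simp only [hE]
    rw [← NormedSpace.exp_nsmul, ← Nat.cast_smul_eq_nsmul ℝ, smul_smul, mul_div_cancel₀ _ hN'.ne']
  have h4 := tro_tele (M := 1 + β / N * C) (by have := mul_pos hb hC0; linarith) h1 h2 N
  have h5 : (1 + β / N * C) ^ N ≤ Real.exp (β * C) := by
    calc (1 + β / N * C) ^ N ≤ Real.exp (β / N * C) ^ N :=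
          pow_le_pow_left₀ (by positivity) (by linarith [Real.add_one_le_exp (β / N * C)]) N
      _ = Real.exp (β * C) := by
          rw [← Real.exp_nat_mul]; congr 1; field_simp
  rw [Real.dist_eq, sub_zero, abs_of_nonneg (norm_nonneg _), e]
  refine h4.trans_lt ?_
  calc (N : ℝ) * (1 + β / N * C) ^ N * ‖O (β / N) - E (β / N)‖
      ≤ N * Real.exp (β * C) * (ε / (2 * β * Real.exp (β * C)) * (β / N)) := by gcongr
    _ = ε / 2 := by field_simp
    _ < ε := half_lt_self hε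

end General

theorem trotter {n : Type} [Fintype n] [DecidableEq n] (O : ℝ → Matrix n n ℂ) (H : Matrix n n ℂ)
    (h0 : O 0 = 1)
    (hd : ∀ a b, HasDerivWithinAt (fun τ => O τ a b) (-(H a b)) (Set.Ici 0) 0) {β : ℝ}
    (hβ : 0 < β) :
    Tendsto (fun N : ℕ => O (β / N) ^ N) atTop (𝓝 (NormedSpace.exp (((-β : ℝ) : ℂ) • H))) := by
  rcases isEmpty_or_nonempty n with hn | hn
  · have e : (fun N : ℕ => O (β / N) ^ N) = fun _ => NormedSpace.exp (((-β : ℝ) : ℂ) • H) :=
      funext fun N => Subsingleton.elim _ _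
    rw [e]
    exact tendsto_const_nhds
  have hd' : HasDerivWithinAt (F := n → n → ℂ) O (-H) (Set.Ici 0) 0 :=
    hasDerivWithinAt_pi.2 fun a => hasDerivWithinAt_pi.2 fun b => hd a b
  have e : ((-β : ℝ) : ℂ) • H = β • (-H) := by
    ext a b
    simp
  rw [e]
  open scoped Matrix.Norms.Operator in exact tro_gen h0 hd' hβ

end Crest.Agent.R347
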