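import Crest.Agent.R347.Covar
import Crest.Agent.R347.Trotter
import Crest.Agent.R347.SliceR
import Crest.Agent.R347.SliceO
import Crest.Agent.R347.Transfer
import Crest.Agent.R347.PS

/-!
# Row 347: power sums in the space direction   (task R347/TSide)

You may use all imported files (other tasks).  `β = j/2`, `κ = η^j exp (-3j/4)`, `κ' = κ² exp (-j/10)`.
-/

set_option autoImplicit false

namespace Crest.Agent.R347

open Crest.MathPhysics.SpinChain Matrix Filter Topology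

theorem tside_cont {n : Type} [Fintype n] (A : Matrix n n ℂ) :
    Continuous fun M : Matrix n n ℂ => (A * M).trace.re :=
  Complex.continuous_re.comp (continuous_const.matrix_mul continuous_id).matrix_trace

/-- `trotter`, `sliceR_deriv`, `torus_ring`, `boltz_shift`, continuity of `trace` and `re` -/
theorem Zr_limit {L : ℕ} (hL : 2 ≤ L) (g h : Aux) {j : ℕ} (hj : 1 ≤ j) :
    Tendsto (fun n : ℕ => ((eta : ℝ) ^ j * Real.exp (-(3 * j / 4))) ^ L *
      (rho n g * Tm h ((j : ℝ) / 2 / n) n ^ L).trace.re) atTop (𝓝 (Zr L g h j)) := by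
  have hβ : (0 : ℝ) < j / 2 := by have : (1 : ℝ) ≤ j := by exact_mod_cast hj
                                  linarith
  have h1 := trotter (sliceR L g) (ringH L g) (sliceR_zero hL g) (sliceR_deriv hL g) hβ
  have h2 := ((tside_cont (tens L (rot h))).tendsto _).comp h1
  have h3 := h2.const_mul (((eta : ℝ) ^ j * Real.exp (-(3 * j / 4))) ^ L)
  simp only [Function.comp_def, torus_ring] at h3
  convert h3 using 2
  rw [Zr, boltz_shift, Matrix.mul_smul, Matrix.trace_smul, smul_eq_mul, Complex.re_ofReal_mul,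
    ← mul_assoc, mul_pow, ← pow_mul, ← pow_mul, mul_comm L j, ← Real.exp_nat_mul]
  congr 3
  ring

theorem Zo_limit (k : ℕ) (s s' : ℝ) {j : ℕ} (hj : 1 ≤ j) :
    Tendsto (fun n : ℕ => ((eta : ℝ) ^ j * Real.exp (-(3 * j / 4))) ^ (k + 2) *
      Real.exp (-(j / 10)) * (lvec ((j : ℝ) / 2 / n) s n ⬝ᵥ
        (Tm none ((j : ℝ) / 2 / n) n ^ k *ᵥ lvec ((j : ℝ) / 2 / n) s' n)).re)
      atTop (𝓝 (Zo k s s' j)) := by
  have hβ : (0 : ℝ) < j / 2 := by have : (1 : ℝ) ≤ j := by exact_mod_cast hj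
                                  linarith
  have h1 := trotter (sliceO k s s') (openH (k + 1) s s') (sliceO_zero k s s') (sliceO_deriv k s s') hβ
  have h2 := ((tside_cont 1).tendsto _).comp h1
  have h3 := h2.const_mul (((eta : ℝ) ^ j * Real.exp (-(3 * j / 4))) ^ (k + 2) * Real.exp (-(j / 10)))
  simp only [Function.comp_def, Matrix.one_mul, torus_open] at h3
  convert h3 using 2
  rw [Zo, boltz_shift, Matrix.trace_smul, smul_eq_mul, Complex.re_ofReal_mul,
    ← mul_assoc, mul_pow, ← pow_mul, ← pow_mul, mul_comm (k + 2) j, ← Real.exp_nat_mul,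
    mul_assoc _ (Real.exp _) (Real.exp _), ← Real.exp_add]
  congr 3
  push_cast
  ring

theorem tside_sector (h a : Aux) {j : ℕ} (hj : 1 ≤ j) (x : ∀ n : ℕ, (Fin n → Aux) → ℝ)
    (hx : ∀ n t : ℕ, 1 ≤ t → ((Tm h ((j : ℝ) / 2 / n) n ^ t).trace.re +
      (sgn (some 0) a : ℝ) * (rho n (some 0) * Tm h ((j : ℝ) / 2 / n) n ^ t).trace.re +
      (sgn (some 1) a : ℝ) * (rho n (some 1) * Tm h ((j : ℝ) / 2 / n) n ^ t).trace.re +
      (sgn (some 2) a : ℝ) * (rho n (some 2) * Tm h ((j : ℝ) / 2 / n) n ^ t).trace.re) / 4 =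
        ∑ k, x n k ^ t) (t : ℕ) (ht : 2 ≤ t) :
    Tendsto (fun n => ∑ k, (((eta : ℝ) ^ j * Real.exp (-(3 * j / 4))) * x n k) ^ t) atTop
      (𝓝 ((Zr t none h j + (sgn (some 0) a : ℝ) * Zr t (some 0) h j +
        (sgn (some 1) a : ℝ) * Zr t (some 1) h j + (sgn (some 2) a : ℝ) * Zr t (some 2) h j) / 4)) := by
  have h1 := ((((Zr_limit ht none h hj).add
    ((Zr_limit ht (some 0) h hj).const_mul (sgn (some 0) a : ℝ))).add
    ((Zr_limit ht (some 1) h hj).const_mul (sgn (some 1) a : ℝ))).add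
    ((Zr_limit ht (some 2) h hj).const_mul (sgn (some 2) a : ℝ))).div_const 4
  refine h1.congr fun n => ?_
  simp only [mul_pow _ (x n _)]
  rw [← Finset.mul_sum, ← hx n t (by omega), (rho_rep n).one, Matrix.one_mul]
  ring

/-- `sector4` with `l = 0` for each `n`, eigenvalues multiplied by `κ` -/
theorem Zr_limP (h a : Aux) {j : ℕ} (hj : 1 ≤ j) : LimP fun L => (Zr L none h j +
    (sgn (some 0) a : ℝ) * Zr L (some 0) h j + (sgn (some 1) a : ℝ) * Zr L (some 1) h j +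
    (sgn (some 2) a : ℝ) * Zr L (some 2) h j) / 4 := by
  choose x w _ _ hx _ using fun n : ℕ => sector4 (rho_rep n) (Tm h ((j : ℝ) / 2 / n) n) (Tm_herm _ _ _)
    (fun g => rho_comm g h _ n) a 0 (fun g => by simp)
  exact ⟨fun n => Fin n → Aux, fun _ => inferInstance, _, tside_sector h a hj x hx⟩

theorem tside_flip (τ s s' : ℝ) (n k : ℕ) :
    lvec τ (-s) n ⬝ᵥ (Tm none τ n ^ k *ᵥ lvec τ (-s') n) =
      lvec τ s n ⬝ᵥ (Tm none τ n ^ k *ᵥ lvec τ s' n) := by
  have hR : ∀ s, rho n (some 0) *ᵥ lvec τ s n = lvec τ (-s) n := fun s => by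
    rw [rho_lvec]; simp [sgn]
  have hc : Tm none τ n ^ k * rho n (some 0) = rho n (some 0) * Tm none τ n ^ k :=
    ((Commute.pow_right (rho_comm (some 0) none τ n) k).eq).symm
  rw [← hR s', Matrix.mulVec_mulVec, hc, ← Matrix.mulVec_mulVec, Matrix.dotProduct_mulVec,
    ← star_lvec τ s, ← ((rho_rep n).herm (some 0)).eq, ← Matrix.star_mulVec, hR, star_lvec, neg_neg]

theorem tside_limW (a : Aux) (ε : ℝ) (hε : ε * ε = 1)
    (hl : ∀ (τ : ℝ) (n : ℕ) (g : Aux),
      rho n g *ᵥ ((1 / 2 : ℂ) • (lvec τ 1 n + (ε : ℂ) • lvec τ (-1) n)) =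
        (sgn g a : ℂ) • ((1 / 2 : ℂ) • (lvec τ 1 n + (ε : ℂ) • lvec τ (-1) n)))
    {j : ℕ} (hj : 1 ≤ j) :
    LimW (fun L => (Zr L none none j + (sgn (some 0) a : ℝ) * Zr L (some 0) none j +
        (sgn (some 1) a : ℝ) * Zr L (some 1) none j + (sgn (some 2) a : ℝ) * Zr L (some 2) none j) / 4)
      (fun k => (Zo k 1 (-1) j + ε * Zo k 1 1 j) / 2) := by
  choose x w hw _ hx hwx using fun n : ℕ => sector4 (rho_rep n) (Tm none ((j : ℝ) / 2 / n) n)
    (Tm_herm _ _ _) (fun g => rho_comm g none _ n) a _ (hl ((j : ℝ) / 2 / n) n)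
  set κ : ℝ := (eta : ℝ) ^ j * Real.exp (-(3 * j / 4)) with hκ
  refine ⟨fun n => Fin n → Aux, fun _ => inferInstance, fun n k => κ * x n k,
    fun n k => κ ^ 2 * Real.exp (-(j / 10)) * w n k,
    fun n k => mul_nonneg (by positivity) (hw n k), tside_sector none a hj x hx, fun t => ?_⟩
  have h1 := ((Zo_limit t 1 (-1) hj).add ((Zo_limit t 1 1 hj).const_mul ε)).div_const 2
  refine h1.congr fun n => ?_
  have e : ∀ k, κ ^ 2 * Real.exp (-(j / 10)) * w n k * (κ * x n k) ^ t =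
      κ ^ (t + 2) * Real.exp (-(j / 10)) * (w n k * x n k ^ t) := fun k => by ring
  simp only [e]
  rw [← Finset.mul_sum, ← hwx n t]
  set τ : ℝ := (j : ℝ) / 2 / n
  have f1 := tside_flip τ 1 1 n t
  have f2 := tside_flip τ 1 (-1) n t
  rw [neg_neg] at f2
  have hε' : (ε : ℂ) * ε = 1 := by exact_mod_cast hε
  have e2 : star ((1 / 2 : ℂ) • (lvec τ 1 n + (ε : ℂ) • lvec τ (-1) n)) ⬝ᵥ
      (Tm none τ n ^ t *ᵥ ((1 / 2 : ℂ) • (lvec τ 1 n + (ε : ℂ) • lvec τ (-1) n))) =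
      ((1 / 2 : ℝ) : ℂ) * (lvec τ 1 n ⬝ᵥ (Tm none τ n ^ t *ᵥ lvec τ (-1) n) +
        (ε : ℂ) * (lvec τ 1 n ⬝ᵥ (Tm none τ n ^ t *ᵥ lvec τ 1 n))) := by
    simp only [star_smul, star_add, star_lvec, neg_neg, Matrix.mulVec_smul, Matrix.mulVec_add,
      smul_dotProduct, dotProduct_smul, add_dotProduct, dotProduct_add, smul_eq_mul, f1, f2,
      Complex.star_def, Complex.conj_ofReal, map_div₀, map_one, Complex.conj_ofNat]
    push_cast
    linear_combination (1 / 4 : ℂ) * (lvec τ 1 n ⬝ᵥ (Tm none τ n ^ t *ᵥ lvec τ (-1) n)) * hε'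
  rw [e2, Complex.re_ofReal_mul, Complex.add_re, Complex.re_ofReal_mul]
  ring

/-- With `l₊ = lvec τ 1`, `l₋ = lvec τ (-1)`: `l = (l₊ + l₋)/2` is fixed by all `rho g` and
`star l = l`; `T` is symmetric under the exchange (`rho (some 0)` commutes with `T`, swaps `l₊, l₋`, and
is a symmetric involution), so `l₋ T^k l₋ = l₊ T^k l₊`, `l₋ T^k l₊ = l₊ T^k l₋` and
`star l ⬝ T^k l = (l₊ T^k l₋ + l₊ T^k l₊) / 2`. -/
theorem limW_S0 {j : ℕ} (hj : 1 ≤ j) :
    LimW (fun L => (Zr L none none j + 3 * Zr L (some 2) none j) / 4)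
      (fun k => (Zo k 1 (-1) j + Zo k 1 1 j) / 2) := by
  have h := tside_limW none 1 (by norm_num) (fun τ n g => ?_) hj
  · convert h using 2 with L k
    · obtain ⟨-, -, h1, h2, -⟩ := Zr_cases L j
      simp only [h1, h2, sgn]
      push_cast
      ring
    · ring
  · rw [Matrix.mulVec_smul, Matrix.mulVec_add, Matrix.mulVec_smul, rho_lvec, rho_lvec]
    rcases g with _ | g
    · simp [sgn]
    · fin_cases g <;> simp [sgn, add_comm]

/-- `l = (l₊ - l₋)/2` lies in the sector `a = some 2`, `star l = -l`, and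
`star l ⬝ T^k l = (l₊ T^k l₋ - l₊ T^k l₊) / 2`. -/
theorem limW_S1 {j : ℕ} (hj : 1 ≤ j) :
    LimW (fun L => (Zr L none none j - Zr L (some 2) none j) / 4)
      (fun k => (Zo k 1 (-1) j - Zo k 1 1 j) / 2) := by
  have h := tside_limW (some 2) (-1) (by norm_num) (fun τ n g => ?_) hj
  · convert h using 2 with L k
    · obtain ⟨-, -, h1, h2, -⟩ := Zr_cases L j
      simp [h1, h2, sgn, sub_eq_add_neg]
    · ring
  · rw [Matrix.mulVec_smul, Matrix.mulVec_add, Matrix.mulVec_smul, rho_lvec, rho_lvec]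
    rcases g with _ | g
    · simp [sgn]
    · fin_cases g <;> simp [sgn, add_comm]

theorem limP_R0 {j : ℕ} (hj : 1 ≤ j) : LimP fun L => (Zr L none (some 2) j +
    Zr L (some 2) (some 2) j - 2 * -Zr L (some 2) (some 0) j) / 4 := by
  convert Zr_limP (some 2) none hj using 2 with L
  obtain ⟨-, -, -, -, -, h1, h2⟩ := Zr_cases L j
  simp only [h1, h2, sgn]
  push_cast
  ring

theorem limP_Rz {j : ℕ} (hj : 1 ≤ j) : LimP fun L => (Zr L none (some 2) j +
    Zr L (some 2) (some 2) j + 2 * -Zr L (some 2) (some 0) j) / 4 := by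
  convert Zr_limP (some 2) (some 2) hj using 2 with L
  obtain ⟨-, -, -, -, -, h1, h2⟩ := Zr_cases L j
  simp [h1, h2, sgn]
  ring

theorem limP_Rx {j : ℕ} (hj : 1 ≤ j) :
    LimP fun L => (Zr L none (some 2) j - Zr L (some 2) (some 2) j) / 4 := by
  convert Zr_limP (some 2) (some 0) hj using 2 with L
  obtain ⟨-, -, -, -, -, h1, h2⟩ := Zr_cases L j
  simp [h1, h2, sgn]
  ring

end Crest.Agent.R347
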