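import Crest.Agent.R347.HSide
import Crest.Agent.R347.TSide
import Crest.Agent.R347.Model

/-!
# Row 347: the spin chain is a `Model`
-/

set_option autoImplicit false

namespace Crest.Agent.R347

noncomputable def model : Model where
  Za L j := Zr L none none j
  Zb L j := Zr L (some 2) none j
  Zc L j := Zr L none (some 2) j
  Zd L j := Zr L (some 2) (some 2) j
  Ze L j := -Zr L (some 2) (some 0) j
  Zpm k j := Zo k 1 (-1) j
  Zpp k j := Zo k 1 1 j
  pos L j _ _ := Zr_pos L none j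
  hP0 L _ := finP_P0 L
  hP1 L _ := finP_P1 L
  hQ0 L _ := finP_Q0 L
  hQz L _ := finP_Qz L
  hQx L _ := finP_Qx L
  lS0 _ hj := limW_S0 hj
  lS1 _ hj := limW_S1 hj
  lR0 _ hj := limP_R0 hj
  lRz _ hj := limP_Rz hj
  lRx _ hj := limP_Rx hj
  hpm k := Zo_finP k 1 (-1)
  hpp k := Zo_finP k 1 1
  pospp k j _ := Zo_pos k 1 1 j

end Crest.Agent.R347
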