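import Crest.Agent.R347.EngCheb

/-!
# Row 347: rounding errors of the Chebyshev recurrence on an invariant subspace   (task R347/ChebExt)

Copy the proof of `cheb_sound` (`EngCheb.lean`) with `Y i k := E (fun c => (iter M t J k).1 c i)`.
`bound` with `B = 0` and `sub` show that `E y` only depends on the values of `y` on `ok`.  The defects are
`E (y (l+2) - ((fun c => (A *ᵥ E (y (l+1))) (dec c)) - y l))` by `inv` and `sub`, so their entries are `≤ 1`
by `bound`, `row` and `cheb_round`.  `chebNN (Y i 0) ≤ (2^F + 2^58) d` by `bound` and `cheb_nn_le`.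
-/

set_option autoImplicit false

namespace Crest.Agent.R347.Eng

open Matrix

/-- the rows of `M` describe `2^s A` on the range of the extension map `E` -/
structure Ext {ι : Type} [Fintype ι] (M : Mat) (ok : ℕ → Bool) (t : ℕ) (dec : ℕ → ι)
    (A : Matrix ι ι ℂ) (E : (ℕ → ℂ) → ι → ℂ) : Prop extends Closed M ok t where
  val : ∀ y c, ok c = true → E y (dec c) = y c
  bound : ∀ y (B : ℝ), 0 ≤ B → (∀ c, ok c = true → ‖y c‖ ≤ B) → ∀ p, ‖E y p‖ ≤ B
  sub : ∀ y y', E (y - y') = E y - E y'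
  inv : ∀ y, E (fun c => (A *ᵥ E y) (dec c)) = A *ᵥ E y
  row : ∀ c, ok c = true → ∀ y : ℕ → ℂ,
    gsum y (M.row c).1 - gsum y (M.row c).2 = 2 ^ M.s * (A *ᵥ E y) (dec c)

variable {ι : Type} [Fintype ι] [DecidableEq ι] {M : Mat} {ok : ℕ → Bool} {t : ℕ} {dec : ℕ → ι}
  {A : Matrix ι ι ℂ} {E : (ℕ → ℂ) → ι → ℂ}

/-- the range of `E` is invariant under the Chebyshev polynomials -/
theorem Ext.chU_mem (R : Ext M ok t dec A E) (k : ℕ) (y : ℕ → ℂ) : ∃ y', chU A k *ᵥ E y = E y' := by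
  have key : ∀ k : ℕ, (∃ y', chU A k *ᵥ E y = E y') ∧ ∃ y', chU A (k + 1) *ᵥ E y = E y' := by
    intro k
    induction k with
    | zero => exact ⟨⟨y, by simp [chU]⟩, ⟨_, by rw [R.inv y]; simp [chU]⟩⟩
    | succ k ih =>
      obtain ⟨⟨y₀, h0⟩, ⟨y₁, h1⟩⟩ := ih
      exact ⟨⟨y₁, h1⟩, ⟨(fun c => (A *ᵥ E y₁) (dec c)) - y₀, by
        rw [cheb_succ, h0, h1, R.sub, R.inv]⟩⟩
  exact (key k).1

theorem cheb_sound2 {J : Job} (R : Ext M ok t dec A E) (hA : A.IsHermitian) (hS : Spec A (-2) 2)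
    (hold : M.old = true) {d : ℕ} (hd : Fintype.card ι ≤ d ^ 2) (hwf : J.wf ok = true)
    (hsz : M.s + 1 ≤ J.w ∧ 2 ^ M.s * ((J.e.length + 1) * ((2 ^ J.F + 2 ^ 58) * d) +
      d * (J.e.length + 1) ^ 2 + 1) ≤ 2 ^ (J.w - 1))
    (h : check M J = true) (k : ℕ) (hk : k < J.e.length) :
    ‖(J.val1 M.s k : ℂ) - (J.l1.map fun e => (e.1 : ℂ) *
      (chU A k *ᵥ E fun q => if q = J.src e.2.2 then 2 ^ J.F else 0) (dec e.2.1)).sum‖ ≤
      wsum J.l1 * (d * ((k : ℝ) + 1) ^ 2) := by
  classical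
  obtain ⟨hs, hsz⟩ := hsz
  have hwf' := hwf
  simp only [Job.wf, Bool.and_eq_true, decide_eq_true_eq, List.all_eq_true, beq_iff_eq] at hwf'
  obtain ⟨⟨-, hok1⟩, -⟩ := hwf'
  obtain ⟨y, hy⟩ : ∃ y : ℕ → ℕ → ℕ → ℂ, y = fun i k c => ((iter M t J k).1 c i : ℂ) := ⟨_, rfl⟩
  have hY : ∀ i k c, ok c = true → E (y i k) (dec c) = ((iter M t J k).1 c i : ℂ) := by
    intro i k c hc
    rw [R.val _ c hc, hy]
  have hstep : ∀ i k c, ok c = true → ‖((iter M t J (k + 1)).1 c i : ℂ) -
      ((A *ᵥ E (y i k)) (dec c) - ((iter M t J k).2 c i : ℂ))‖ ≤ 1 := by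
    intro i k c hc
    have h1 := R.row c hc (y i k)
    rw [← cheb_gsum (y := fun q => (iter M t J k).1 q i) (y' := y i k) _ (fun q _ => by rw [hy]),
      ← cheb_gsum (y := fun q => (iter M t J k).1 q i) (y' := y i k) _ (fun q _ => by rw [hy])] at h1
    have h2 := cheb_round (s := M.s) (if i = 0 then 0 else (t : ℤ))
      (by split_ifs <;> positivity) (by
        split_ifs
        · positivity
        · exact_mod_cast R.t_le)
      (gsum (fun q => (iter M t J k).1 q i) (M.row c).1 -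
        gsum (fun q => (iter M t J k).1 q i) (M.row c).2) ((iter M t J k).2 c i)
      ((A *ᵥ E (y i k)) (dec c)) (by push_cast; exact h1)
    simpa only [iter, pre, hold, if_true] using h2
  have herr : ∀ i k p, ‖E (y i k) p - (chU A k *ᵥ E (y i 0)) p‖ ≤ d * ((k : ℝ) + 1) ^ 2 := by
    intro i k p
    refine cheb_error hA hS hd (fun k => E (y i k)) (fun l => match l with
      | 0 => E (y i 1) - A *ᵥ E (y i 0)
      | l + 1 => E (y i (l + 2)) - (A *ᵥ E (y i (l + 1)) - E (y i l))) (fun l p => ?_) (by simp)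
      (fun k => by simp) k p
    cases l with
    | zero =>
      have := R.bound (y i 1 - fun c => (A *ᵥ E (y i 0)) (dec c)) 1 zero_le_one (fun c hc => by
        have h1 := hstep i 0 c hc
        rw [Pi.sub_apply]
        conv_lhs => enter [1, 1]; rw [hy]
        simpa [iter] using h1) p
      rwa [R.sub, R.inv] at this
    | succ l =>
      have := R.bound (y i (l + 2) - ((fun c => (A *ᵥ E (y i (l + 1))) (dec c)) - y i l)) 1
        zero_le_one (fun c hc => by
          have h1 := hstep i (l + 1) c hc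
          rw [Pi.sub_apply, Pi.sub_apply]
          conv_lhs => enter [1, 1]; rw [hy]
          conv_lhs => enter [1, 2, 2]; rw [hy]
          exact h1) p
      rwa [R.sub, R.sub, R.inv] at this
  have hinit : ∀ i, 1 ≤ i → y i 0 = fun q => if q = J.src i then 2 ^ J.F else 0 := by
    intro i hi
    funext q
    simp only [hy, iter, Job.y0, if_neg (show i ≠ 0 by omega)]
    split_ifs <;> simp
  have hnn : ∀ i, chebNN (E (y i 0)) ≤ (2 ^ J.F + 2 ^ 58) * d := by
    intro i
    refine cheb_nn_le hd (by positivity) (R.bound _ _ (by positivity) fun c _ => ?_)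
    rcases Nat.eq_zero_or_pos i with rfl | hi
    · simp only [hy, iter, Job.y0, if_true, Int.cast_natCast, Complex.norm_natCast]
      refine le_trans ?_ (le_add_of_nonneg_left (by positivity))
      exact_mod_cast (rnd_lt c).le
    · rw [hinit i hi]
      refine le_trans ?_ (le_add_of_nonneg_right (by positivity))
      beta_reduce
      split_ifs <;> simp
  have hb : ∀ k, k ≤ J.e.length → ∀ c, ok c = true → ∀ i, i < J.m →
      2 ^ M.s * |(iter M t J k).1 c i| + 2 ^ M.s ≤ 2 ^ (J.w - 1) := by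
    intro k hk c hc i him
    have h1 := herr i k (dec c)
    have h2 := (cheb_apply_le _ (dec c)).trans (cheb_nn_chU hA hS k (E (y i 0)))
    have h3 := norm_add_le (E (y i k) (dec c) - (chU A k *ᵥ E (y i 0)) (dec c))
      ((chU A k *ᵥ E (y i 0)) (dec c))
    rw [sub_add_cancel] at h3
    replace h3 := h3.trans (add_le_add h1 h2)
    rw [hY i k c hc, Complex.norm_intCast] at h3
    have hk' : (k : ℝ) ≤ J.e.length := by exact_mod_cast hk
    have h4 : |((iter M t J k).1 c i : ℝ)| ≤ ((J.e.length : ℝ) + 1) * ((2 ^ J.F + 2 ^ 58) * d) +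
        d * ((J.e.length : ℝ) + 1) ^ 2 := by
      have b1 : ((k : ℝ) + 1) * chebNN (E (y i 0)) ≤
          ((J.e.length : ℝ) + 1) * ((2 ^ J.F + 2 ^ 58) * d) :=
        mul_le_mul (by linarith) (hnn i) (cheb_nn_nonneg _) (by positivity)
      have b2 : (d : ℝ) * ((k : ℝ) + 1) ^ 2 ≤ d * ((J.e.length : ℝ) + 1) ^ 2 := by gcongr
      linarith
    have h5 : (2 : ℝ) ^ M.s * (((J.e.length : ℝ) + 1) * ((2 ^ J.F + 2 ^ 58) * d) +
        d * ((J.e.length : ℝ) + 1) ^ 2 + 1) ≤ 2 ^ (J.w - 1) := by exact_mod_cast hsz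
    have h6 : (2 : ℝ) ^ M.s * |((iter M t J k).1 c i : ℝ)| + 2 ^ M.s ≤ 2 ^ (J.w - 1) := by
      refine le_trans ?_ h5
      rw [mul_add _ _ (1 : ℝ), mul_one]
      gcongr
    exact_mod_cast h6
  obtain ⟨e1, -⟩ := run_sound M J R.toClosed hwf hs hb h k hk
  have fin : ∀ l : List (ℕ × ℕ × ℕ), (∀ e ∈ l, (ok e.2.1 = true ∧ 1 ≤ e.2.2) ∧ e.2.2 < J.m) →
      ‖(((l.map fun e => (e.1 : ℤ) * (iter M t J k).1 e.2.1 e.2.2).sum : ℤ) : ℂ) -
        (l.map fun e => (e.1 : ℂ) *
          (chU A k *ᵥ E fun q => if q = J.src e.2.2 then 2 ^ J.F else 0) (dec e.2.1)).sum‖ ≤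
        wsum l * (d * ((k : ℝ) + 1) ^ 2) := by
    intro l hl
    induction l with
    | nil => simp [wsum]
    | cons e l ih =>
      have a1 := ih fun e' he' => hl e' (List.mem_cons_of_mem _ he')
      obtain ⟨⟨b1, b2⟩, -⟩ := hl e List.mem_cons_self
      have a2 := herr e.2.2 k (dec e.2.1)
      rw [hY _ k _ b1, hinit _ b2] at a2
      simp only [wsum, List.map_cons, List.sum_cons] at a1 ⊢
      push_cast at a1 ⊢
      rw [add_mul]
      refine le_trans (le_of_eq ?_) ((norm_add_le _ _).trans (add_le_add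
        ((norm_mul_le (e.1 : ℂ) _).trans (mul_le_mul_of_nonneg_left a2 (norm_nonneg _))) a1)
        |>.trans (le_of_eq ?_))
      · congr 1
        ring
      · rw [Complex.norm_natCast]
  rw [e1]
  exact fin _ hok1

end Crest.Agent.R347.Eng
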