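import Crest.Agent.R347.Sector

/-!
# Row 347: permuting the spin axes   (task R347/Covar)

You may use `SpinAlg`, `Tens`, `Sector` (other tasks).
General lemma: if `U * U' = 1` (`3 × 3`), `π` is a permutation of `Fin 3` and
`U * spinOp a * U' = ε a • spinOp (π a)` with `ε a * ε a = 1`, then `V = tens L U`, `V' = tens L U'` satisfy
`V * ringH L g * V' = ringH L (g.map π)` (`tensF_conj_onSite`, insert `V' * V = 1` between the two
factors; `sgn (g.map π) (some (π a)) = sgn g (some a)`), `U * rot h * U' = rot (h.map π)` (`rot_eq`), so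
`Zr L (g.map π) (h.map π) j = Zr L g h j` by `boltz_conj` and cyclicity of the trace.
For `x ↔ y`: `U = diagonal ![-I, 1, I]`, `U' = Uᴴ`.  For `x ↔ z`: the real rotation
`U = !![1/2, -r, 1/2; r, 0, -r; 1/2, r, 1/2]` with `r = √2/2`, `U' = Uᵀ`.  With `U = U' = rot h` and
`π = 1` the same lemma gives `rot_comm_ringH`.
-/

set_option autoImplicit false

namespace Crest.Agent.R347

open Crest.MathPhysics.SpinChain Matrix

theorem sgn_map (π : Equiv.Perm (Fin 3)) (g : Aux) (a : Fin 3) :
    sgn (g.map π) (some (π a)) = sgn g (some a) := by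
  cases g with
  | none => rfl
  | some b => simp [sgn]

theorem tens_mul_eq_one {U U' : M3} (hU : U * U' = 1) (L : ℕ) : tens L U * tens L U' = 1 := by
  unfold tens
  rw [tensF_mul]
  simp only [hU]
  exact tensF_one

theorem conj_ringH {U U' : M3} {π : Equiv.Perm (Fin 3)} {ε : Fin 3 → ℂ} (hU : U * U' = 1)
    (hε : ∀ a, ε a * ε a = 1) (h : ∀ a, U * spinOp a * U' = ε a • spinOp (π a)) (L : ℕ)
    (g : Aux) : tens L U * ringH L g * tens L U' = ringH L (g.map π) := by
  have hU' : U' * U = 1 := mul_eq_one_comm.1 hU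
  have hV := tens_mul_eq_one hU' L
  have hc : ∀ (a : Fin 3) (k : Fin L),
      tens L U * onSite (spinOp a) k * tens L U' = ε a • onSite (spinOp (π a)) k := by
    intro a k
    unfold tens
    rw [tensF_conj_onSite (fun _ => U) (fun _ => U') (fun _ => hU), h, onSite_smul]
  unfold ringH
  rw [Finset.mul_sum, Finset.sum_mul]
  refine Finset.sum_congr rfl fun k _ => ?_
  rw [Finset.mul_sum, Finset.sum_mul, ← Equiv.sum_comp π (fun a =>
    (if k.val + 1 = L then (sgn (g.map π) (some a) : ℂ) else 1) •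
      (onSite (spinOp a) k * onSite (spinOp a) (finRotate L k)))]
  refine Finset.sum_congr rfl fun a _ => ?_
  rw [sgn_map, Matrix.mul_smul, Matrix.smul_mul]
  congr 1
  calc tens L U * (onSite (spinOp a) k * onSite (spinOp a) (finRotate L k)) * tens L U'
      = tens L U * onSite (spinOp a) k * (tens L U' * tens L U) *
          onSite (spinOp a) (finRotate L k) * tens L U' := by
        rw [hV]; simp only [Matrix.mul_assoc, Matrix.mul_one, Matrix.one_mul]
    _ = (tens L U * onSite (spinOp a) k * tens L U') *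
          (tens L U * onSite (spinOp a) (finRotate L k) * tens L U') := by
        simp only [Matrix.mul_assoc]
    _ = _ := by rw [hc, hc, Matrix.smul_mul, Matrix.mul_smul, smul_smul, hε, one_smul]

theorem conj_rot {U U' : M3} {π : Equiv.Perm (Fin 3)} {ε : Fin 3 → ℂ} (hU : U * U' = 1)
    (hε : ∀ a, ε a * ε a = 1) (h : ∀ a, U * spinOp a * U' = ε a • spinOp (π a)) (g : Aux) :
    U * rot g * U' = rot (g.map π) := by
  have hU' : U' * U = 1 := mul_eq_one_comm.1 hU
  cases g with
  | none => simpa [rot] using hU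
  | some a =>
    rw [Option.map_some, rot_eq, rot_eq, mul_sub, sub_mul, mul_one, hU, Matrix.mul_smul,
      Matrix.smul_mul]
    have : U * (spinOp a * spinOp a) * U' = (U * spinOp a * U') * (U * spinOp a * U') := by
      calc U * (spinOp a * spinOp a) * U' = U * spinOp a * (U' * U) * spinOp a * U' := by
            rw [hU']; simp only [Matrix.mul_assoc, Matrix.mul_one, Matrix.one_mul]
        _ = _ := by simp only [Matrix.mul_assoc]
    rw [this, h, Matrix.smul_mul, Matrix.mul_smul, smul_smul (ε a), hε, one_smul]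

theorem Zr_conj {U U' : M3} {π : Equiv.Perm (Fin 3)} {ε : Fin 3 → ℂ} (hU : U * U' = 1)
    (hε : ∀ a, ε a * ε a = 1) (h : ∀ a, U * spinOp a * U' = ε a • spinOp (π a)) (L : ℕ)
    (g k : Aux) (j : ℕ) : Zr L (g.map π) (k.map π) j = Zr L g k j := by
  have hU' : U' * U = 1 := mul_eq_one_comm.1 hU
  have hV := tens_mul_eq_one hU L
  have hV' := tens_mul_eq_one hU' L
  have h1 := boltz_conj hV (conj_ringH hU hε h L g) (3 * L / 2) (j / 2)
  have h2 : tens L U * tens L (rot k) * tens L U' = tens L (rot (k.map π)) := by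
    unfold tens
    rw [tensF_mul, tensF_mul]
    simp only [conj_rot hU hε h k]
  unfold Zr
  rw [← h1, ← h2]
  congr 2
  calc (tens L U * tens L (rot k) * tens L U' *
        (tens L U * boltz (ringH L g) (3 * L / 2) (j / 2) * tens L U')).trace
      = (tens L U * (tens L (rot k) * (tens L U' * tens L U) *
        boltz (ringH L g) (3 * L / 2) (j / 2)) * tens L U').trace := by
        simp only [Matrix.mul_assoc]
    _ = _ := by rw [Matrix.trace_mul_cycle, hV', Matrix.mul_one, Matrix.one_mul]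

/-- `√2 / 2` -/
noncomputable def rr : ℂ := ((Real.sqrt 2 / 2 : ℝ) : ℂ)

theorem rr_sq : rr ^ 2 = 1 / 2 := by
  unfold rr
  rw [← Complex.ofReal_pow, div_pow, Real.sq_sqrt (by norm_num)]
  push_cast
  norm_num

theorem spinOp0 : spinOp 0 = !![0, rr, 0; rr, 0, rr; 0, rr, 0] := by
  change spinX = _
  rw [spinX_eq, ← rr]
  ext i j
  fin_cases i <;> fin_cases j <;> simp [spP, spM]

theorem spinOp1 : spinOp 1 = !![0, -(Complex.I * rr), 0; Complex.I * rr, 0, -(Complex.I * rr);
    0, Complex.I * rr, 0] := by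
  change spinY = _
  rw [spinY_eq, ← rr]
  ext i j
  fin_cases i <;> fin_cases j <;> simp [spP, spM]

theorem spinOp2 : spinOp 2 = !![1, 0, 0; 0, 0, 0; 0, 0, -1] := spinZ_eq

theorem rot_comm_ringH (L : ℕ) (g h : Aux) :
    tens L (rot h) * ringH L g * tens L (rot h) = ringH L g := by
  have h1 : rot h * rot h = 1 := by rw [rot_rep.mul, gmul_self, rot_rep.one]
  have := conj_ringH (π := Equiv.refl _) (ε := fun a => (sgn h (some a) : ℂ)) h1
    (fun a => by exact_mod_cast sgn_mul_self h (some a)) (fun a => rot_spin h a) L g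
  rw [this]
  cases g <;> rfl

theorem Zr_swap01 (L : ℕ) (g h : Aux) (j : ℕ) :
    Zr L (g.map (Equiv.swap 0 1)) (h.map (Equiv.swap 0 1)) j = Zr L g h j := by
  refine Zr_conj (U := !![-Complex.I, 0, 0; 0, 1, 0; 0, 0, Complex.I])
    (U' := !![Complex.I, 0, 0; 0, 1, 0; 0, 0, -Complex.I]) (ε := ![1, -1, 1]) ?_ ?_ ?_ L g h j
  · ext i j
    fin_cases i <;> fin_cases j <;> simp [Matrix.mul_apply, Fin.sum_univ_three]
  · intro a
    fin_cases a <;> simp
  · have e0 : Equiv.swap (0 : Fin 3) 1 0 = 1 := by decide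
    have e1 : Equiv.swap (0 : Fin 3) 1 1 = 0 := by decide
    have e2 : Equiv.swap (0 : Fin 3) 1 2 = 2 := by decide
    rw [Fin.forall_fin_succ, Fin.forall_fin_two]
    refine ⟨?_, ?_, ?_⟩
    · rw [e0, spinOp0, spinOp1]
      ext i j
      fin_cases i <;> fin_cases j <;> simp [Matrix.mul_apply, Fin.sum_univ_three] <;> ring_nf
    · rw [show (Fin.succ 0 : Fin 3) = 1 from rfl, e1, spinOp0, spinOp1]
      ext i j
      fin_cases i <;> fin_cases j <;> simp [Matrix.mul_apply, Fin.sum_univ_three] <;> ring_nf <;>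
        simp
    · rw [show (Fin.succ 1 : Fin 3) = 2 from rfl, e2, spinOp2]
      ext i j
      fin_cases i <;> fin_cases j <;> simp [Matrix.mul_apply, Fin.sum_univ_three]

theorem Zr_swap02 (L : ℕ) (g h : Aux) (j : ℕ) :
    Zr L (g.map (Equiv.swap 0 2)) (h.map (Equiv.swap 0 2)) j = Zr L g h j := by
  have h2 : rr ^ 2 = 1 / 2 := rr_sq
  have h3 : rr ^ 3 = rr / 2 := by rw [pow_succ, h2]; ring
  refine Zr_conj (U := !![1 / 2, -rr, 1 / 2; rr, 0, -rr; 1 / 2, rr, 1 / 2])
    (U' := !![1 / 2, rr, 1 / 2; -rr, 0, rr; 1 / 2, -rr, 1 / 2]) (ε := ![-1, 1, 1]) ?_ ?_ ?_ L g h j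
  · ext i j
    fin_cases i <;> fin_cases j <;> simp [Matrix.mul_apply, Fin.sum_univ_three] <;> ring_nf <;>
      simp [h2] <;> norm_num
  · intro a
    fin_cases a <;> simp
  · have e0 : Equiv.swap (0 : Fin 3) 2 0 = 2 := by decide
    have e1 : Equiv.swap (0 : Fin 3) 2 1 = 1 := by decide
    have e2 : Equiv.swap (0 : Fin 3) 2 2 = 0 := by decide
    rw [Fin.forall_fin_succ, Fin.forall_fin_two]
    refine ⟨?_, ?_, ?_⟩
    · rw [e0, spinOp0, spinOp2]
      ext i j
      fin_cases i <;> fin_cases j <;> simp [Matrix.mul_apply, Fin.sum_univ_three] <;> ring_nf <;>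
        simp [h2, h3]
    · rw [show (Fin.succ 0 : Fin 3) = 1 from rfl, e1, spinOp1]
      ext i j
      fin_cases i <;> fin_cases j <;> simp [Matrix.mul_apply, Fin.sum_univ_three] <;> ring_nf <;>
        simp [h2, h3] <;> ring_nf
    · rw [show (Fin.succ 1 : Fin 3) = 2 from rfl, e2, spinOp2, spinOp0]
      ext i j
      fin_cases i <;> fin_cases j <;> simp [Matrix.mul_apply, Fin.sum_univ_three] <;> ring_nf

/-- the special cases that are used -/
theorem Zr_cases (L j : ℕ) :
    Zr L none (some 0) j = Zr L none (some 2) j ∧ Zr L none (some 1) j = Zr L none (some 2) j ∧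
    Zr L (some 0) none j = Zr L (some 2) none j ∧ Zr L (some 1) none j = Zr L (some 2) none j ∧
    Zr L (some 2) (some 1) j = Zr L (some 2) (some 0) j ∧
    Zr L (some 0) (some 2) j = Zr L (some 2) (some 0) j ∧
    Zr L (some 1) (some 2) j = Zr L (some 2) (some 0) j := by
  have A := fun g h => Zr_swap01 L g h j
  have B := fun g h => Zr_swap02 L g h j
  have a0 : Equiv.swap (0 : Fin 3) 1 0 = 1 := by decide
  have a2 : Equiv.swap (0 : Fin 3) 1 2 = 2 := by decide
  have b1 : Equiv.swap (0 : Fin 3) 2 1 = 1 := by decide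
  have b2 : Equiv.swap (0 : Fin 3) 2 2 = 0 := by decide
  have b0 : Equiv.swap (0 : Fin 3) 2 0 = 2 := by decide
  have h1 := B none (some 2)
  have h2 := A none (some 0)
  have h3 := B (some 2) none
  have h4 := A (some 0) none
  have h5 := A (some 2) (some 0)
  have h6 := B (some 2) (some 0)
  have h7 := A (some 0) (some 2)
  simp only [Option.map_none, Option.map_some, a0, a2, b0, b2] at h1 h2 h3 h4 h5 h6 h7
  exact ⟨h1, h2.trans h1, h3, h4.trans h3, h5, h6, h7.trans h6⟩

end Crest.Agent.R347
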