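import Crest.Agent.R347.LimTop

/-!
# Row 347: moment filters with rational data   (task R347/Filt)

You may use `TopBasic.lean` and `LimTop.lean` (proved in other tasks).
-/

set_option autoImplicit false

namespace Crest.Agent.R347

theorem filt_lin {m z δ : ℝ} (h : |m - z| ≤ δ) (c : ℝ) : c * m ≤ c * z + δ * |c| := by
  have h1 : c * (m - z) ≤ |c| * |m - z| := by rw [← abs_mul]; exact le_abs_self _
  have h2 := mul_le_mul_of_nonneg_left h (abs_nonneg c)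
  linarith

theorem filt_quad {r u v x : ℝ} (h3 : 0 ≤ 2 * r + u) (hx : r ≤ x) :
    r ^ 2 + u * r + v ≤ x ^ 2 + u * x + v := by
  nlinarith [mul_nonneg (sub_nonneg.2 hx) h3, sq_nonneg (x - r)]

theorem filt_lt {r u v x : ℝ} (h1 : 0 < r) (h2 : 0 < r ^ 2 + u * r + v) (h3 : 0 ≤ 2 * r + u)
    (hx : r < x) : r ^ 6 * (r ^ 2 + u * r + v) ^ 2 < x ^ 6 * (x ^ 2 + u * x + v) ^ 2 := by
  have h4 := filt_quad h3 hx.le (v := v)
  have h5 : r ^ 6 < x ^ 6 := by gcongr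
  have h6 : (r ^ 2 + u * r + v) ^ 2 ≤ (x ^ 2 + u * x + v) ^ 2 := by gcongr
  exact mul_lt_mul h5 h6 (by positivity) (by positivity)

theorem filt_le {m : ℕ → ℝ} {z : ℕ → ℚ} {δ : ℚ} (hz : NearOn m z δ 6 10) (u v : ℚ) :
    filt m u v ≤ (filtUp z δ u v : ℚ) := by
  have h10 := filt_lin (hz 10 (by norm_num) (by norm_num)) 1
  have h9 := filt_lin (hz 9 (by norm_num) (by norm_num)) (2 * u)
  have h8 := filt_lin (hz 8 (by norm_num) (by norm_num)) (u ^ 2 + 2 * v)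
  have h7 := filt_lin (hz 7 (by norm_num) (by norm_num)) (2 * u * v)
  have h6 := filt_lin (hz 6 (by norm_num) (by norm_num)) (v ^ 2)
  rw [abs_one] at h10
  rw [abs_of_nonneg (sq_nonneg _)] at h6
  unfold filt filtUp
  push_cast
  linarith

theorem wfilt_le {a : ℕ → ℝ} {z : ℕ → ℚ} {δ : ℚ} (hz : NearOn a z δ 0 5) (c u v : ℚ) :
    wfilt a c u v ≤ (wfiltUp z δ c u v : ℚ) := by
  have h5 := filt_lin (hz 5 (by norm_num) (by norm_num)) 1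
  have h4 := filt_lin (hz 4 (by norm_num) (by norm_num)) (2 * u + c)
  have h3 := filt_lin (hz 3 (by norm_num) (by norm_num)) (u ^ 2 + 2 * v + 2 * u * c)
  have h2 := filt_lin (hz 2 (by norm_num) (by norm_num)) (2 * u * v + c * (u ^ 2 + 2 * v))
  have h1 := filt_lin (hz 1 (by norm_num) (by norm_num)) (v ^ 2 + 2 * u * v * c)
  have h0 := filt_lin (hz 0 (by norm_num) (by norm_num)) (c * v ^ 2)
  rw [abs_one] at h5
  unfold wfilt wfiltUp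
  push_cast
  linarith

/-- Take `x` from `LimP.top`; `X = x^2` by `Top.unique`.  If `x > r` then `x^2+ux+v > r^2+ur+v > 0`
and `x^6 (…)^2 > r^6 (…)^2 ≥ filt`, impossible.  The same for `-x > r` with `(u', v')`. -/
theorem LimP.top_le {m : ℕ → ℝ} (h : LimP m) {X : ℝ} (hX : Top (ev m) X) {z : ℕ → ℚ} {δ : ℚ}
    (hz : NearOn m z δ 6 10) (r u v u' v' : ℚ) {R : ℚ}
    (hc : 0 < r ∧ 0 < r ^ 2 + u * r + v ∧ 0 ≤ 2 * r + u ∧
      filtUp z δ u v ≤ r ^ 6 * (r ^ 2 + u * r + v) ^ 2 ∧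
      0 < r ^ 2 - u' * r + v' ∧ 0 ≤ 2 * r - u' ∧
      filtUp z δ u' v' ≤ r ^ 6 * (r ^ 2 - u' * r + v') ^ 2 ∧ r ^ 2 ≤ R) : X ≤ (R : ℝ) := by
  obtain ⟨x, hx, hf⟩ := h.top
  obtain ⟨c1, c2, c3, c4, c5, c6, c7, c8⟩ := hc
  have d1 : (0 : ℝ) < r := by exact_mod_cast c1
  have d2 : (0 : ℝ) < r ^ 2 + u * r + v := by exact_mod_cast c2
  have d3 : (0 : ℝ) ≤ 2 * r + u := by exact_mod_cast c3
  have d4 : ((filtUp z δ u v : ℚ) : ℝ) ≤ r ^ 6 * (r ^ 2 + u * r + v) ^ 2 := by exact_mod_cast c4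
  have d5 : (0 : ℝ) < r ^ 2 - u' * r + v' := by exact_mod_cast c5
  have d6 : (0 : ℝ) ≤ 2 * r - u' := by exact_mod_cast c6
  have d7 : ((filtUp z δ u' v' : ℚ) : ℝ) ≤ r ^ 6 * (r ^ 2 - u' * r + v') ^ 2 := by
    exact_mod_cast c7
  have d8 : (r : ℝ) ^ 2 ≤ R := by exact_mod_cast c8
  have h1 : x ≤ r := by
    by_contra hlt
    have := filt_lt d1 d2 d3 (not_le.1 hlt)
    linarith [hf u v, filt_le hz u v]
  have h2 : -x ≤ r := by
    by_contra hlt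
    have := filt_lt (u := -u') (v := v') d1 (by linarith) (by linarith) (not_le.1 hlt)
    have e1 : (-x) ^ 6 * ((-x) ^ 2 + -(u' : ℝ) * -x + v') ^ 2 =
        x ^ 6 * (x ^ 2 + u' * x + v') ^ 2 := by ring
    have e2 : (r : ℝ) ^ 6 * (r ^ 2 + -(u' : ℝ) * r + v') ^ 2 =
        r ^ 6 * (r ^ 2 - u' * r + v') ^ 2 := by ring
    linarith [hf u' v', filt_le hz u' v']
  rw [hX.unique hx]
  exact (sq_le_sq' (by linarith) h1).trans d8

/-- With `R = c^6 (c^2 - u' c + v')^2`: every `y ≤ -c` has `R ≤ y^6 (y^2+u'y+v')^2`.  So `x > -c`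
(`filt_ge`), hence `x > 0` (as `c^2 < al ≤ x^2`), `x ≥ xl`, and `wfilt_ge` gives
`ω (xl+c)(xl^2+u xl+v)^2 ≤ ω (x+c)(x^2+ux+v)^2 ≤ wfilt`. -/
theorem WSpec.omega_le {m a : ℕ → ℝ} {x ω : ℝ} (h : WSpec m a x ω) {z za : ℕ → ℚ} {δ δa : ℚ}
    (hz : NearOn m z δ 6 10) (hza : NearOn a za δa 0 5) {al : ℚ} (hal : (al : ℝ) ≤ x ^ 2)
    (c u' v' xl u v : ℚ) {wb : ℚ}
    (hc : 0 < c ∧ 0 < c ^ 2 - u' * c + v' ∧ 0 ≤ 2 * c - u' ∧
      filtUp z δ u' v' < c ^ 6 * (c ^ 2 - u' * c + v') ^ 2 ∧ c ^ 2 < al ∧ 0 ≤ xl ∧ xl ^ 2 ≤ al ∧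
      0 < xl ^ 2 + u * xl + v ∧ 0 ≤ 2 * xl + u ∧
      wfiltUp za δa c u v ≤ wb * ((xl + c) * (xl ^ 2 + u * xl + v) ^ 2)) : ω ≤ (wb : ℝ) := by
  obtain ⟨c1, c2, c3, c4, c5, c6, c7, c8, c9, c10⟩ := hc
  have d1 : (0 : ℝ) < c := by exact_mod_cast c1
  have d2 : (0 : ℝ) < c ^ 2 - u' * c + v' := by exact_mod_cast c2
  have d3 : (0 : ℝ) ≤ 2 * c - u' := by exact_mod_cast c3
  have d4 : ((filtUp z δ u' v' : ℚ) : ℝ) < c ^ 6 * (c ^ 2 - u' * c + v') ^ 2 := by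
    exact_mod_cast c4
  have d5 : (c : ℝ) ^ 2 < al := by exact_mod_cast c5
  have d6 : (0 : ℝ) ≤ xl := by exact_mod_cast c6
  have d7 : (xl : ℝ) ^ 2 ≤ al := by exact_mod_cast c7
  have d8 : (0 : ℝ) < xl ^ 2 + u * xl + v := by exact_mod_cast c8
  have d9 : (0 : ℝ) ≤ 2 * xl + u := by exact_mod_cast c9
  have d10 : ((wfiltUp za δa c u v : ℚ) : ℝ) ≤ wb * ((xl + c) * (xl ^ 2 + u * xl + v) ^ 2) := by
    exact_mod_cast c10
  have hR : filt m u' v' < c ^ 6 * (c ^ 2 - u' * c + v') ^ 2 := (filt_le hz u' v').trans_lt d4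
  have hy : ∀ y : ℝ, y ≤ -c →
      (c : ℝ) ^ 6 * (c ^ 2 - u' * c + v') ^ 2 ≤ y ^ 6 * (y ^ 2 + u' * y + v') ^ 2 := by
    intro y hy
    rcases hy.eq_or_lt with rfl | hy
    · exact le_of_eq (by ring)
    · have := filt_lt (u := -u') (v := v') (x := -y) d1 (by linarith) (by linarith) (by linarith)
      have e1 : (-y) ^ 6 * ((-y) ^ 2 + -(u' : ℝ) * -y + v') ^ 2 =
          y ^ 6 * (y ^ 2 + u' * y + v') ^ 2 := by ring
      have e2 : (c : ℝ) ^ 6 * (c ^ 2 + -(u' : ℝ) * c + v') ^ 2 =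
          c ^ 6 * (c ^ 2 - u' * c + v') ^ 2 := by ring
      linarith
  have h1 : -(c : ℝ) < x := by
    by_contra hle
    linarith [hy x (not_lt.1 hle), h.filt_ge u' v']
  have h2 : 0 ≤ x := by
    by_contra hlt
    nlinarith [not_le.1 hlt]
  have h3 : (xl : ℝ) ≤ x := by
    by_contra hlt
    nlinarith [not_le.1 hlt]
  have h4 := filt_quad d9 h3 (v := v)
  have h5 : ((xl : ℝ) + c) * (xl ^ 2 + u * xl + v) ^ 2 ≤ (x + c) * (x ^ 2 + u * x + v) ^ 2 := by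
    gcongr
  have h6 := h.wfilt_ge c u v u' v' _ hR hy
  have h7 := wfilt_le hza c u v
  have h8 := mul_le_mul_of_nonneg_left h5 h.w_nonneg
  exact le_of_mul_le_mul_right (h8.trans (h6.trans (h7.trans d10))) (by positivity)

theorem NearOn.le {m : ℕ → ℝ} {z : ℕ → ℚ} {δ : ℚ} {lo hi : ℕ} (hz : NearOn m z δ lo hi) (L : ℕ)
    {b : ℚ} (hc : lo ≤ L ∧ L ≤ hi ∧ z L + δ ≤ b) : m L ≤ (b : ℝ) := by
  have h1 := (abs_le.1 (hz L hc.1 hc.2.1)).2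
  have h2 : (z L : ℝ) + δ ≤ b := by exact_mod_cast hc.2.2
  linarith

/-- `(m + 3 m')/4` -/
theorem NearOn.comb13 {m m' : ℕ → ℝ} {z z' : ℕ → ℚ} {δ : ℚ} {lo hi : ℕ} (h : NearOn m z δ lo hi)
    (h' : NearOn m' z' δ lo hi) :
    NearOn (fun L => (m L + 3 * m' L) / 4) (fun L => (z L + 3 * z' L) / 4) δ lo hi := by
  intro L h1 h2
  have a := abs_le.1 (h L h1 h2)
  have a' := abs_le.1 (h' L h1 h2)
  push_cast
  rw [abs_le]
  constructor <;> linarith [a.1, a.2, a'.1, a'.2]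

/-- `(m - m')/4` -/
theorem NearOn.comb11 {m m' : ℕ → ℝ} {z z' : ℕ → ℚ} {δ : ℚ} {lo hi : ℕ} (h : NearOn m z δ lo hi)
    (h' : NearOn m' z' δ lo hi) :
    NearOn (fun L => (m L - m' L) / 4) (fun L => (z L - z' L) / 4) δ lo hi := by
  intro L h1 h2
  have a := abs_le.1 (h L h1 h2)
  have a' := abs_le.1 (h' L h1 h2)
  push_cast
  rw [abs_le]
  constructor <;> linarith [a.1, a.2, a'.1, a'.2]

/-- `(m + m' + 2 m'')/4` -/
theorem NearOn.comb112 {m m' m'' : ℕ → ℝ} {z z' z'' : ℕ → ℚ} {δ : ℚ} {lo hi : ℕ}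
    (h : NearOn m z δ lo hi) (h' : NearOn m' z' δ lo hi) (h'' : NearOn m'' z'' δ lo hi) :
    NearOn (fun L => (m L + m' L + 2 * m'' L) / 4) (fun L => (z L + z' L + 2 * z'' L) / 4)
      δ lo hi := by
  intro L h1 h2
  have a := abs_le.1 (h L h1 h2)
  have a' := abs_le.1 (h' L h1 h2)
  have a'' := abs_le.1 (h'' L h1 h2)
  push_cast
  rw [abs_le]
  constructor <;> linarith [a.1, a.2, a'.1, a'.2, a''.1, a''.2]

/-- `(m + m' - 2 m'')/4` -/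
theorem NearOn.comb112' {m m' m'' : ℕ → ℝ} {z z' z'' : ℕ → ℚ} {δ : ℚ} {lo hi : ℕ}
    (h : NearOn m z δ lo hi) (h' : NearOn m' z' δ lo hi) (h'' : NearOn m'' z'' δ lo hi) :
    NearOn (fun L => (m L + m' L - 2 * m'' L) / 4) (fun L => (z L + z' L - 2 * z'' L) / 4)
      δ lo hi := by
  intro L h1 h2
  have a := abs_le.1 (h L h1 h2)
  have a' := abs_le.1 (h' L h1 h2)
  have a'' := abs_le.1 (h'' L h1 h2)
  push_cast
  rw [abs_le]
  constructor <;> linarith [a.1, a.2, a'.1, a'.2, a''.1, a''.2]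

/-- `(m + m')/2` -/
theorem NearOn.half {m m' : ℕ → ℝ} {z z' : ℕ → ℚ} {δ : ℚ} {lo hi : ℕ} (h : NearOn m z δ lo hi)
    (h' : NearOn m' z' δ lo hi) :
    NearOn (fun L => (m L + m' L) / 2) (fun L => (z L + z' L) / 2) δ lo hi := by
  intro L h1 h2
  have a := abs_le.1 (h L h1 h2)
  have a' := abs_le.1 (h' L h1 h2)
  push_cast
  rw [abs_le]
  constructor <;> linarith [a.1, a.2, a'.1, a'.2]

/-- `(m - m')/2` -/
theorem NearOn.half' {m m' : ℕ → ℝ} {z z' : ℕ → ℚ} {δ : ℚ} {lo hi : ℕ} (h : NearOn m z δ lo hi)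
    (h' : NearOn m' z' δ lo hi) :
    NearOn (fun L => (m L - m' L) / 2) (fun L => (z L - z' L) / 2) δ lo hi := by
  intro L h1 h2
  have a := abs_le.1 (h L h1 h2)
  have a' := abs_le.1 (h' L h1 h2)
  push_cast
  rw [abs_le]
  constructor <;> linarith [a.1, a.2, a'.1, a'.2]

end Crest.Agent.R347
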