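import Crest.Agent.R347.Model
import Crest.Agent.R347.Filt

/-!
# Row 347: from the model to the abstract system   (task R347/Link)

You may use `TopBasic`, `LimTop`, `Filt` (other tasks).
-/

set_option autoImplicit false

namespace Crest.Agent.R347

theorem link_finP_nonneg {φ : ℕ → ℝ} (h : FinP φ) {j : ℕ} (hj : 1 ≤ j) : 0 ≤ φ j := by
  obtain ⟨ι, inst, x, hx, e⟩ := h
  rw [e j hj]
  exact Finset.sum_nonneg fun k _ => pow_nonneg (hx k) _

theorem link_choose {α : Type*} [Inhabited α] {p : ℕ → α → Prop} (h : ∀ i, 1 ≤ i → ∃ X, p i X) :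
    ∃ F : ℕ → α, ∀ i, 1 ≤ i → p i (F i) := by
  have : ∀ i, ∃ X, 1 ≤ i → p i X := fun i => by
    by_cases hi : 1 ≤ i
    · obtain ⟨X, hX⟩ := h i hi
      exact ⟨X, fun _ => hX⟩
    · exact ⟨default, fun h' => absurd h' hi⟩
  choose F hF using this
  exact ⟨F, hF⟩

theorem link_limP {m : ℕ → ℝ} (h : LimP m) : ∃ X, Top (fun i => m (2 * i)) X := by
  obtain ⟨x, hx, -⟩ := h.top
  exact ⟨_, hx⟩

theorem link_limW {m a : ℕ → ℝ} (h : LimW m a) : ∃ p : ℝ × ℝ, WSpec m a p.1 p.2 := by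
  obtain ⟨x, ω, hx⟩ := h.top
  exact ⟨(x, ω), hx⟩

/-- Recipe.  Choose the tops with `FinP.top`, `LimP.top`, `LimW.top` (`choose`, after turning
`∀ i, 1 ≤ i → ∃ X, …` into `∀ i, ∃ X, 1 ≤ i → …`).  `A j = x j ^ 2`, `A1 j = x1 j ^ 2` where `(x1, ω1)`
come from `lS1`.  `Bo (2n) ≥ ω1 x1^(2n) ≥ 0`; `B_anti` from `rest_anti`; `rest_odd` gives
`|Bo (2n+1)| ≤ |x1| Bo (2n)`, and `|x1| ≤ |x|` because `x1^2 ≤ x^2` (`Top.mono`:
`S0 - S1 = Zb = Q0 + Qz + 2 Qx ≥ 0`).  `Ao + Bo = Zpm`, `Ao - Bo = Zpp`. -/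
theorem Model.exists_osys (M : Model) : ∃ O : OSys, Link M O := by
  have h2 : ∀ i : ℕ, 1 ≤ i → 2 ≤ 2 * i := fun i hi => by omega
  obtain ⟨C, hC⟩ := link_choose fun i hi => (M.hP0 (2 * i) (h2 i hi)).top
  obtain ⟨C1, hC1⟩ := link_choose fun i hi => (M.hP1 (2 * i) (h2 i hi)).top
  obtain ⟨D0, hD0⟩ := link_choose fun i hi => (M.hQ0 (2 * i) (h2 i hi)).top
  obtain ⟨D, hD⟩ := link_choose fun i hi => (M.hQz (2 * i) (h2 i hi)).top
  obtain ⟨Dx, hDx⟩ := link_choose fun i hi => (M.hQx (2 * i) (h2 i hi)).top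
  obtain ⟨p, hp⟩ := link_choose fun j hj => link_limW (M.lS0 j hj)
  obtain ⟨q, hq⟩ := link_choose fun j hj => link_limW (M.lS1 j hj)
  obtain ⟨B0, hB0⟩ := link_choose fun j hj => link_limP (M.lR0 j hj)
  obtain ⟨B, hB⟩ := link_choose fun j hj => link_limP (M.lRz j hj)
  obtain ⟨Bx, hBx⟩ := link_choose fun j hj => link_limP (M.lRx j hj)
  choose Co hCo using fun n => (M.hpm (2 * n)).top
  choose Cp hCp using fun n => (M.hpp (2 * n + 1)).top
  have hqp : ∀ j, 1 ≤ j → |(q j).1| ≤ |(p j).1| := by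
    intro j hj
    refine sq_le_sq.1 ((hq j hj).top.mono (hp j hj).top fun i hi => ?_)
    have a1 := link_finP_nonneg (M.hQ0 (2 * i) (h2 i hi)) hj
    have a2 := link_finP_nonneg (M.hQz (2 * i) (h2 i hi)) hj
    have a3 := link_finP_nonneg (M.hQx (2 * i) (h2 i hi)) hj
    simp only [ev] at a1 a2 a3 ⊢
    linarith
  have hB0' : ∀ j, 1 ≤ j → ∀ n : ℕ, 0 ≤ (M.Zpm (2 * n) j - M.Zpp (2 * n) j) / 2 := by
    intro j hj n
    refine le_trans ?_ ((hq j hj).top_le n)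
    rw [pow_mul]
    exact mul_nonneg (hq j hj).w_nonneg (pow_nonneg (sq_nonneg _) _)
  refine ⟨{
    Za := fun i j => M.Za (2 * i) j
    Zb := fun i j => M.Zb (2 * i) j
    Zc := fun i j => M.Zc (2 * i) j
    Zd := fun i j => M.Zd (2 * i) j
    Ze := fun i j => M.Ze (2 * i) j
    C := C
    C1 := C1
    D0 := D0
    D := D
    Dx := Dx
    A := fun j => (p j).1 ^ 2
    A1 := fun j => (q j).1 ^ 2
    B0 := B0
    B := B
    Bx := Bx
    pos := fun i j hi hj => M.pos (2 * i) j (h2 i hi) hj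
    tP0 := hC
    tP1 := hC1
    tQ0 := hD0
    tQz := hD
    tQx := hDx
    tS0 := fun j hj => (hp j hj).top
    tS1 := fun j hj => (hq j hj).top
    tR0 := hB0
    tRz := hB
    tRx := hBx
    Ao := fun k j => (M.Zpm k j + M.Zpp k j) / 2
    Bo := fun k j => (M.Zpm k j - M.Zpp k j) / 2
    x := fun j => (p j).1
    ω := fun j => (p j).2
    Co := Co
    Cp := Cp
    x_sq := fun _ _ => rfl
    w_nonneg := fun j hj => (hp j hj).w_nonneg
    top_le := fun j hj n => ?_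
    rest_pow := fun j hj n i hi => ?_
    rest_anti := fun j hj n => ?_
    rest_odd := fun j hj n => ?_
    B_nonneg := hB0'
    B_anti := fun j hj n => ?_
    B_odd := fun j hj n => ?_
    topo := fun n => (hCo n).congr fun j _ => by ring
    topp := fun n => (hCp n).congr fun j _ => by ring
    posp := fun n j hj => ?_ }, ?_⟩
  · simpa only [← pow_mul] using (hp j hj).top_le n
  · simpa only [← pow_mul, mul_add 2 n 1, mul_one] using (hp j hj).rest_pow n i hi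
  · simpa only [← pow_mul, mul_add 2 n 1, mul_one] using (hp j hj).rest_anti n
  · simpa only [← pow_mul, ← pow_succ] using (hp j hj).rest_odd n
  · have h := (hq j hj).rest_anti n
    have e : (q j).1 ^ (2 * n + 2) = (q j).1 ^ 2 * (q j).1 ^ (2 * n) := by ring
    rw [e] at h
    linarith
  · have h := (hq j hj).rest_odd n
    have e : |(q j).2 * (q j).1 ^ (2 * n + 1)| = |(q j).1| * ((q j).2 * (q j).1 ^ (2 * n)) := by
      rw [pow_succ, ← mul_assoc, abs_mul, mul_comm, abs_of_nonneg (a := (q j).2 * _)]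
      rw [pow_mul]
      exact mul_nonneg (hq j hj).w_nonneg (pow_nonneg (sq_nonneg _) _)
    have h1 := abs_sub_abs_le_abs_sub ((M.Zpm (2 * n + 1) j - M.Zpp (2 * n + 1) j) / 2)
      ((q j).2 * (q j).1 ^ (2 * n + 1))
    have h3 := mul_le_mul_of_nonneg_right (hqp j hj) (hB0' j hj n)
    linarith
  · have := M.pospp (2 * n + 1) j hj
    linarith
  · exact ⟨fun _ _ => rfl, fun _ _ => rfl, fun _ _ => rfl, fun _ _ => rfl, fun _ _ => rfl,
      fun _ _ => rfl, fun _ _ => rfl, hp⟩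

namespace Link

variable {M : Model} {O : OSys} (hL : Link M O) {j : ℕ} {d : Dat} (hd : M.Has j d)
include hL hd

theorem upA (r u v u' v' : ℚ) {R : ℚ} (hc : UpOK d.s0 d.δ r u v u' v' R) : O.A j ≤ (R : ℝ) := by
  refine (M.lS0 j hd.one_le).limP.top_le ((O.tS0 j hd.one_le).congr fun i _ => ?_)
    (hd.a.comb13 hd.b) r u v u' v' hc
  simp only [ev, hL.a, hL.b]

theorem upA1 (r u v u' v' : ℚ) {R : ℚ} (hc : UpOK d.s1 d.δ r u v u' v' R) : O.A1 j ≤ (R : ℝ) := by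
  refine (M.lS1 j hd.one_le).limP.top_le ((O.tS1 j hd.one_le).congr fun i _ => ?_)
    (hd.a.comb11 hd.b) r u v u' v' hc
  simp only [ev, hL.a, hL.b]

theorem upB0 (r u v u' v' : ℚ) {R : ℚ} (hc : UpOK d.r0 d.δ r u v u' v' R) : O.B0 j ≤ (R : ℝ) := by
  refine (M.lR0 j hd.one_le).top_le ((O.tR0 j hd.one_le).congr fun i _ => ?_)
    (hd.c.comb112' hd.dd hd.e) r u v u' v' hc
  simp only [ev, hL.c, hL.d, hL.e]

theorem upB (r u v u' v' : ℚ) {R : ℚ} (hc : UpOK d.rz d.δ r u v u' v' R) : O.B j ≤ (R : ℝ) := by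
  refine (M.lRz j hd.one_le).top_le ((O.tRz j hd.one_le).congr fun i _ => ?_)
    (hd.c.comb112 hd.dd hd.e) r u v u' v' hc
  simp only [ev, hL.c, hL.d, hL.e]

theorem upBx (r u v u' v' : ℚ) {R : ℚ} (hc : UpOK d.rx d.δ r u v u' v' R) : O.Bx j ≤ (R : ℝ) := by
  refine (M.lRx j hd.one_le).top_le ((O.tRx j hd.one_le).congr fun i _ => ?_)
    (hd.c.comb11 hd.dd) r u v u' v' hc
  simp only [ev, hL.c, hL.d]

theorem hiS0 {m : ℚ} (hc : d.s0 10 + d.δ ≤ m) : O.S0 5 j ≤ (m : ℝ) := by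
  have := (hd.a.comb13 hd.b).le 10 ⟨by norm_num, le_rfl, hc⟩
  simpa only [Sys.S0, hL.a, hL.b] using this

theorem hiS1 {m : ℚ} (hc : d.s1 10 + d.δ ≤ m) : O.S1 5 j ≤ (m : ℝ) := by
  have := (hd.a.comb11 hd.b).le 10 ⟨by norm_num, le_rfl, hc⟩
  simpa only [Sys.S1, hL.a, hL.b] using this

theorem hiR0 {m : ℚ} (hc : d.r0 10 + d.δ ≤ m) : O.R0 5 j ≤ (m : ℝ) := by
  have := (hd.c.comb112' hd.dd hd.e).le 10 ⟨by norm_num, le_rfl, hc⟩
  simpa only [Sys.R0, hL.c, hL.d, hL.e] using this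

theorem hiRz {m : ℚ} (hc : d.rz 10 + d.δ ≤ m) : O.Rz 5 j ≤ (m : ℝ) := by
  have := (hd.c.comb112 hd.dd hd.e).le 10 ⟨by norm_num, le_rfl, hc⟩
  simpa only [Sys.Rz, hL.c, hL.d, hL.e] using this

theorem hiRx {m : ℚ} (hc : d.rx 10 + d.δ ≤ m) : O.Rx 5 j ≤ (m : ℝ) := by
  have := (hd.c.comb11 hd.dd).le 10 ⟨by norm_num, le_rfl, hc⟩
  simpa only [Sys.Rx, hL.c, hL.d] using this

theorem hiAo {m : ℚ} (hc : d.ao 4 + d.δo ≤ m) : O.Ao 4 j ≤ (m : ℝ) := by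
  have := (hd.pm.half hd.pp).le 4 ⟨by norm_num, by norm_num, hc⟩
  simpa only [hL.ao] using this

theorem hiBo {m : ℚ} (hc : d.bo 4 + d.δo ≤ m) : O.Bo 4 j ≤ (m : ℝ) := by
  have := (hd.pm.half' hd.pp).le 4 ⟨by norm_num, by norm_num, hc⟩
  simpa only [hL.bo] using this

theorem upW {al : ℚ} (hal : (al : ℝ) ≤ O.A j) (c u' v' xl u v : ℚ) {wb : ℚ}
    (hc : 0 < c ∧ 0 < c ^ 2 - u' * c + v' ∧ 0 ≤ 2 * c - u' ∧
      filtUp d.s0 d.δ u' v' < c ^ 6 * (c ^ 2 - u' * c + v') ^ 2 ∧ c ^ 2 < al ∧ 0 ≤ xl ∧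
      xl ^ 2 ≤ al ∧ 0 < xl ^ 2 + u * xl + v ∧ 0 ≤ 2 * xl + u ∧
      wfiltUp d.ao d.δo c u v ≤ wb * ((xl + c) * (xl ^ 2 + u * xl + v) ^ 2)) :
    O.ω j ≤ (wb : ℝ) := by
  rw [← O.x_sq j hd.one_le] at hal
  exact (hL.spec j hd.one_le).omega_le (hd.a.comb13 hd.b) (hd.pm.half hd.pp) hal c u' v' xl u v hc

end Link

end Crest.Agent.R347
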