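import Crest.Agent.R347.ORules

/-!
# Row 347: the rules O3, O4 for the chains with two ends   (task R347/ORules2)

You may use `TopBasic`, `TopPsi`, `SysBasic`, `ORules` (other tasks).  Notation: `T n = ω A^n`,
`Ze2 n = T n + R n` with `R n ≥ 0`.
-/

set_option autoImplicit false

namespace Crest.Agent.R347

namespace OSys

variable {O : OSys} {n j : ℕ}

/-- `Δ = n - n0`.  `Ze2 n j ≤ A_j^Δ (1+t) Co(n0)^j`, `Co(n0)^q ≤ Ze2 n0 q ≤ (1+s) ω_q A_q^n0`,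
`A_j^Δ = (a j)^(jΔ) ≤ Q (a q)^(jΔ)`, `ω_q A_q^n ≤ Ze2 n q`.  So
`(Ze2 n j)^q ≤ (Q (1+t))^q (1+s)^j (Ze2 n q)^j`; apply `Top.psi` to `topo n`. -/
theorem O3 {n0 q : ℕ} {t s d z : ℚ} (h1 : O.To n0 j t) (h2 : O.So n0 q s)
    (h3 : LeQ (O.a j) d (O.a q)) (Q K z' : ℚ)
    (hc : n0 ≤ n ∧ 1 ≤ j ∧ j < q ∧ 0 ≤ t ∧ 0 ≤ s ∧ 0 ≤ d ∧ d ^ (j * (n - n0)) ≤ Q ∧
      (Q * (1 + t)) ^ q * (1 + s) ^ j ≤ K ∧
      0 ≤ z ∧ 0 ≤ z' ∧ z ^ q ≤ z' ^ j ∧ K * (1 + z') ^ j < (1 + z) ^ q ∧ K < 2 ^ (q - j)) :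
    O.To n j z := by
  obtain ⟨hn, hj, hjq, ht, hs, hd, hQ, hK, hz, hz', hzz, hK1, hK2⟩ := hc
  obtain ⟨Δ, rfl⟩ := Nat.exists_eq_add_of_le hn
  rw [Nat.add_sub_cancel_left] at hQ
  have hq : 1 ≤ q := by omega
  have ht' : (0 : ℝ) ≤ t := by exact_mod_cast ht
  have hs' : (0 : ℝ) ≤ s := by exact_mod_cast hs
  have hd' : (0 : ℝ) ≤ d := by exact_mod_cast hd
  have hQ' : (d : ℝ) ^ (j * Δ) ≤ Q := by exact_mod_cast hQ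
  have hK' : ((Q : ℝ) * (1 + t)) ^ q * (1 + s) ^ j ≤ K := by exact_mod_cast hK
  have hQ0 : (0 : ℝ) ≤ Q := (pow_nonneg hd' _).trans hQ'
  have hC0 : 0 ≤ O.Co n0 := (O.topo n0).nonneg
  have ha := O.a_nonneg hj
  have ha' := O.a_nonneg hq
  have hAq := (O.A_pos hq).le
  have hAj := (O.A_pos hj).le
  have e1 : O.A j ^ Δ ≤ Q * (O.a q ^ Δ) ^ j := by
    rw [← O.a_pow hj, ← pow_mul, ← pow_mul, mul_comm Δ j]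
    calc O.a j ^ (j * Δ) ≤ (d * O.a q) ^ (j * Δ) := pow_le_pow_left₀ ha h3.2 _
      _ = d ^ (j * Δ) * O.a q ^ (j * Δ) := mul_pow _ _ _
      _ ≤ _ := mul_le_mul_of_nonneg_right hQ' (pow_nonneg ha' _)
  have e2 : O.Ze2 (n0 + Δ) j ≤ Q * (1 + t) * (O.a q ^ Δ * O.Co n0) ^ j :=
    calc O.Ze2 (n0 + Δ) j ≤ O.A j ^ Δ * O.Ze2 n0 j := Ze2_growth hj n0 Δ
      _ ≤ O.A j ^ Δ * ((1 + t) * O.Co n0 ^ j) := mul_le_mul_of_nonneg_left h1 (pow_nonneg hAj _)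
      _ ≤ Q * (O.a q ^ Δ) ^ j * ((1 + t) * O.Co n0 ^ j) :=
        mul_le_mul_of_nonneg_right e1 (by positivity)
      _ = _ := by rw [mul_pow]; ring
  have e3 : (O.a q ^ Δ * O.Co n0) ^ q ≤ (1 + s) * O.Ze2 (n0 + Δ) q :=
    calc (O.a q ^ Δ * O.Co n0) ^ q = O.A q ^ Δ * O.Co n0 ^ q := by
          rw [mul_pow, ← pow_mul, mul_comm Δ q, pow_mul, O.a_pow hq]
      _ ≤ O.A q ^ Δ * ((1 + s) * (O.ω q * O.A q ^ n0)) :=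
        mul_le_mul_of_nonneg_left (((O.topo n0).pow_le hq).trans h2) (pow_nonneg hAq _)
      _ = (1 + s) * (O.ω q * O.A q ^ (n0 + Δ)) := by rw [pow_add]; ring
      _ ≤ _ := mul_le_mul_of_nonneg_left (top_le_Ze2 hq _) (by positivity)
  have hZj : 0 ≤ O.Ze2 (n0 + Δ) j := (O.topo (n0 + Δ)).toPow.1 j hj
  have hZq : 0 ≤ O.Ze2 (n0 + Δ) q := (O.topo (n0 + Δ)).toPow.1 q hq
  have e4 : O.Ze2 (n0 + Δ) j ^ q ≤ K * O.Ze2 (n0 + Δ) q ^ j :=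
    calc O.Ze2 (n0 + Δ) j ^ q ≤ (Q * (1 + t) * (O.a q ^ Δ * O.Co n0) ^ j) ^ q :=
          pow_le_pow_left₀ hZj e2 _
      _ = (Q * (1 + t)) ^ q * ((O.a q ^ Δ * O.Co n0) ^ q) ^ j := by
          rw [mul_pow (Q * (1 + t) : ℝ), ← pow_mul, ← pow_mul, mul_comm j q]
      _ ≤ (Q * (1 + t)) ^ q * ((1 + s) * O.Ze2 (n0 + Δ) q) ^ j :=
          mul_le_mul_of_nonneg_left (pow_le_pow_left₀ (by positivity) e3 _) (by positivity)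
      _ = (Q * (1 + t)) ^ q * (1 + s) ^ j * O.Ze2 (n0 + Δ) q ^ j := by rw [mul_pow (1 + s : ℝ)]; ring
      _ ≤ _ := mul_le_mul_of_nonneg_right hK' (pow_nonneg hZq _)
  exact (O.topo (n0 + Δ)).psi hj hjq (K := K) (z := z) (z' := z') e4 (by exact_mod_cast hz)
    (by exact_mod_cast hz') (by exact_mod_cast hzz) (by exact_mod_cast hK1) (by exact_mod_cast hK2)

/-- real form of `O4`.  `Δ = n2 - n`.  `(Ze2 n j)^j0 ≤ (Ze2 n j0)^j ≤ ((1+s) ω0 A0^n)^j` (`toPow`),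
`A_j^j0 ≤ A0^j` (`A_pow_le`), `ω0 A0^n2 ≤ Ze2 n2 j0 ≤ (1+t) Co(n2)^j0`, `Co(n2)^j ≤ Ze2 n2 j`.  So
`(Ze2 n j * A_j^Δ)^j0 ≤ ((1+s)(1+t))^j (Ze2 n2 j)^j0 ≤ (E * Ze2 n2 j)^j0`.  With `T = ω A^n`,
`R = Ze2 n j - T` and `Ze2_decay`: `T + R ≤ E (T + ρ^Δ R)`, so `R (1 - E ρ^Δ) ≤ (E-1) T`. -/
theorem O4r {n2 j0 i : ℕ} {s t ρ E s' : ℝ} (hn : n ≤ n2) (h0 : 1 ≤ j0) (hj : j0 ≤ j) (hi : 1 ≤ i)
    (h1 : O.Ze2 n j0 ≤ (1 + s) * (O.ω j0 * O.A j0 ^ n)) (h2 : O.Ze2 n2 j0 ≤ (1 + t) * O.Co n2 ^ j0)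
    (hρ : 0 ≤ ρ) (h3 : O.S0 i j - O.A j ^ i ≤ (ρ * O.A j) ^ i) (h4 : O.A1 j ≤ ρ * O.A j)
    (hs : 0 ≤ s) (ht : 0 ≤ t) (hE : 0 ≤ E) (hE1 : ((1 + s) * (1 + t)) ^ j ≤ E ^ j0)
    (hE2 : E * ρ ^ (n2 - n) < 1) (hE3 : E - 1 ≤ s' * (1 - E * ρ ^ (n2 - n))) :
    O.Ze2 n j ≤ (1 + s') * (O.ω j * O.A j ^ n) := by
  obtain ⟨Δ, rfl⟩ := Nat.exists_eq_add_of_le hn
  rw [Nat.add_sub_cancel_left] at hE2 hE3
  have hj1 : 1 ≤ j := h0.trans hj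
  have hA := O.A_pos hj1
  have hA0 := O.A_pos h0
  have hω := O.w_nonneg j hj1
  have hω0 := O.w_nonneg j0 h0
  have hC : 0 ≤ O.Co (n + Δ) := (O.topo _).nonneg
  have hZ : 0 ≤ O.Ze2 n j := (O.topo n).toPow.1 j hj1
  have hZ0 : 0 ≤ O.Ze2 n j0 := (O.topo n).toPow.1 j0 h0
  have hZ2 : 0 ≤ O.Ze2 (n + Δ) j := (O.topo _).toPow.1 j hj1
  have e1 : O.Ze2 n j ^ j0 ≤ ((1 + s) * (O.ω j0 * O.A j0 ^ n)) ^ j :=
    ((O.topo n).toPow.2 j0 j h0 hj).trans (pow_le_pow_left₀ hZ0 h1 _)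
  have e2 : (O.A j ^ Δ) ^ j0 ≤ (O.A j0 ^ Δ) ^ j := by
    rw [← pow_mul, ← pow_mul, mul_comm Δ, mul_comm Δ, pow_mul, pow_mul]
    exact pow_le_pow_left₀ (by positivity) (O.A_pow_le h0 hj) _
  have e3 : (O.Ze2 n j * O.A j ^ Δ) ^ j0 ≤ (E * O.Ze2 (n + Δ) j) ^ j0 :=
    calc (O.Ze2 n j * O.A j ^ Δ) ^ j0 = O.Ze2 n j ^ j0 * (O.A j ^ Δ) ^ j0 := mul_pow _ _ _
      _ ≤ ((1 + s) * (O.ω j0 * O.A j0 ^ n)) ^ j * (O.A j0 ^ Δ) ^ j :=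
          mul_le_mul e1 e2 (by positivity) (by positivity)
      _ = ((1 + s) * (O.ω j0 * O.A j0 ^ (n + Δ))) ^ j := by
          rw [← mul_pow, pow_add]; congr 1; ring
      _ ≤ ((1 + s) * ((1 + t) * O.Co (n + Δ) ^ j0)) ^ j :=
          pow_le_pow_left₀ (by positivity)
            (mul_le_mul_of_nonneg_left ((top_le_Ze2 h0 _).trans h2) (by positivity)) _
      _ = ((1 + s) * (1 + t)) ^ j * (O.Co (n + Δ) ^ j) ^ j0 := by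
          rw [← mul_assoc, mul_pow, ← pow_mul, ← pow_mul, mul_comm j0 j]
      _ ≤ E ^ j0 * O.Ze2 (n + Δ) j ^ j0 :=
          mul_le_mul hE1 (pow_le_pow_left₀ (by positivity) ((O.topo _).pow_le hj1) _)
            (by positivity) (by positivity)
      _ = _ := (mul_pow _ _ _).symm
  have e4 : O.Ze2 n j * O.A j ^ Δ ≤ E * O.Ze2 (n + Δ) j :=
    (pow_le_pow_iff_left₀ (by positivity) (by positivity) (by omega)).1 e3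
  have e5 := Ze2_decay hj1 hρ hi h3 h4 n Δ
  set T := O.ω j * O.A j ^ n with hT
  have hT0 : 0 ≤ T := by positivity
  have e6 : O.Ze2 n j * O.A j ^ Δ ≤ E * (T + ρ ^ Δ * (O.Ze2 n j - T)) * O.A j ^ Δ := by
    refine e4.trans ?_
    rw [mul_assoc]
    refine mul_le_mul_of_nonneg_left ?_ hE
    rw [pow_add, ← mul_assoc, ← hT, mul_pow] at e5
    linarith
  have e7 : O.Ze2 n j ≤ E * (T + ρ ^ Δ * (O.Ze2 n j - T)) :=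
    le_of_mul_le_mul_right e6 (by positivity)
  have e8 : (O.Ze2 n j - T) * (1 - E * ρ ^ Δ) ≤ s' * T * (1 - E * ρ ^ Δ) := by
    nlinarith [mul_le_mul_of_nonneg_right hE3 hT0]
  have e9 := le_of_mul_le_mul_right e8 (by linarith)
  linarith

theorem O4 {n2 j0 : ℕ} {s t ρ0 ρ1 s' : ℚ} (h1 : O.So n j0 s) (h2 : O.To n2 j0 t) (h3 : O.Rh0 j ρ0)
    (h4 : O.Rh1 j ρ1) (ρ E : ℚ)
    (hc : n ≤ n2 ∧ 1 ≤ j0 ∧ j0 ≤ j ∧ ρ0 ≤ ρ ∧ ρ1 ≤ ρ ∧ 0 ≤ s ∧ 0 ≤ t ∧ 0 ≤ E ∧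
      ((1 + s) * (1 + t)) ^ j ≤ E ^ j0 ∧ E * ρ ^ (n2 - n) < 1 ∧
      E - 1 ≤ s' * (1 - E * ρ ^ (n2 - n))) : O.So n j s' := by
  obtain ⟨hn, h0, hj, hρ0, hρ1, hs, ht, hE, hE1, hE2, hE3⟩ := hc
  obtain ⟨hρ, i, hi, h5⟩ := h3
  have hA := (O.A_pos (h0.trans hj)).le
  have hρ' : (0 : ℝ) ≤ ρ0 := by exact_mod_cast hρ
  have hρ0' : (ρ0 : ℝ) ≤ ρ := by exact_mod_cast hρ0
  have hρ1' : (ρ1 : ℝ) ≤ ρ := by exact_mod_cast hρ1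
  exact O4r (ρ := ρ) (E := E) hn h0 hj hi h1 h2 (hρ'.trans hρ0')
    (h5.trans (pow_le_pow_left₀ (by positivity) (mul_le_mul_of_nonneg_right hρ0' hA) _))
    (le_trans h4 (mul_le_mul_of_nonneg_right hρ1' hA)) (by exact_mod_cast hs) (by exact_mod_cast ht)
    (by exact_mod_cast hE) (by exact_mod_cast hE1) (by exact_mod_cast hE2) (by exact_mod_cast hE3)

end OSys

end Crest.Agent.R347
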