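import Crest.Agent.R347.SysBasic

/-!
# Row 347: rules that start the bootstrap from numerical data   (task R347/SysInit)

You may use `TopBasic`, `TopPsi`, `SysBasic` (other tasks); see the identities in the header of
`SysBasic.lean`.
-/

set_option autoImplicit false

namespace Crest.Agent.R347

namespace Sys

variable {S : Sys} {i j : ℕ}

private theorem ini_growth {φ : ℕ → ℝ} {X r m : ℝ} (h : Top φ X) {i0 i : ℕ} (h0 : 1 ≤ i0) (hi : i0 ≤ i)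
    (hr : X ≤ r) (hm : φ i0 ≤ m) : φ i ≤ m * r ^ (i - i0) := by
  have h1 := h.toPow.1 i0 h0
  refine (h.growth h0 hi).trans ?_
  rw [mul_comm]
  exact mul_le_mul hm (pow_le_pow_left₀ h.nonneg hr _) (pow_nonneg h.nonneg _) (h1.trans hm)

private theorem ini_lo {c d : ℝ} (hi : 1 ≤ i) (hj : 1 ≤ j) (hc : 0 ≤ c) (hd : 0 ≤ d) (hC : c ≤ S.C i)
    (hD : d ≤ S.D i) : c ^ j + 3 * d ^ j ≤ S.S0 i j + 3 * S.Rz i j := by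
  have h1 : S.C i ^ j ≤ S.P0 i j := (S.topP0 hi).pow_le hj
  have h2 : S.D i ^ j ≤ S.Qz i j := (S.topQz hi).pow_le hj
  have h3 := pow_le_pow_left₀ hc hC j
  have h4 := pow_le_pow_left₀ hd hD j
  have e : S.S0 i j + 3 * S.Rz i j = S.P0 i j + 3 * S.Qz i j := by unfold S0 Rz P0 Qz; ring
  linarith

/-- `4 Q0 i j0 ≤ S0 + 3 R0 ≤ m0 r0^(i-i0) + 3 m3 r3^(i-i0)` (growth), so `D0 < d`; likewise `Dx < d`.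
If also `D < d`, then `d^j ≤ Zb = Q0+Qz+2Qx ≤ K Y^(j-1)` with `Y = max D (max D0 Dx) < d`, against
`le_of_growth`. -/
theorem DLo {d : ℚ} (h : ∀ j, 1 ≤ j → (d : ℝ) ^ j ≤ S.Zb i j) {i0 j0 : ℕ} {m0 r0 m3 r3 m4 r4 : ℚ}
    (hm0 : S.S0 i0 j0 ≤ (m0 : ℝ)) (hr0 : S.A j0 ≤ (r0 : ℝ)) (hm3 : S.R0 i0 j0 ≤ (m3 : ℝ))
    (hr3 : S.B0 j0 ≤ (r3 : ℝ)) (hm4 : S.Rx i0 j0 ≤ (m4 : ℝ)) (hr4 : S.Bx j0 ≤ (r4 : ℝ))
    (hc : 1 ≤ i0 ∧ i0 ≤ i ∧ 1 ≤ j0 ∧ 0 ≤ d ∧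
      m0 * r0 ^ (i - i0) + 3 * (m3 * r3 ^ (i - i0)) < 4 * d ^ j0 ∧
      m0 * r0 ^ (i - i0) + 2 * (m4 * r4 ^ (i - i0)) < 4 * d ^ j0) : (d : ℝ) ≤ S.D i := by
  obtain ⟨h0, hi0, hj0, hd, c1, c2⟩ := hc
  have hi : 1 ≤ i := h0.trans hi0
  have hd' : (0 : ℝ) ≤ d := by exact_mod_cast hd
  have c1' : (m0 : ℝ) * r0 ^ (i - i0) + 3 * (m3 * r3 ^ (i - i0)) < 4 * d ^ j0 := by exact_mod_cast c1
  have c2' : (m0 : ℝ) * r0 ^ (i - i0) + 2 * (m4 * r4 ^ (i - i0)) < 4 * d ^ j0 := by exact_mod_cast c2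
  have g0 : S.S0 i j0 ≤ _ := ini_growth (S.topS0 hj0) h0 hi0 hr0 hm0
  have g3 : S.R0 i j0 ≤ _ := ini_growth (S.topR0 hj0) h0 hi0 hr3 hm3
  have g4 : S.Rx i j0 ≤ _ := ini_growth (S.topRx hj0) h0 hi0 hr4 hm4
  obtain ⟨-, n0, n1, n2, n3, n4⟩ := S.sec_nonneg hi hj0
  have e0 : 4 * S.Q0 i j0 = S.S0 i j0 - S.S1 i j0 + 3 * S.R0 i j0 - S.Rz i j0 - 2 * S.Rx i j0 := by
    unfold S0 S1 R0 Rz Rx Q0; ring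
  have ex : 4 * S.Qx i j0 = S.S0 i j0 - S.S1 i j0 - S.R0 i j0 - S.Rz i j0 + 2 * S.Rx i j0 := by
    unfold S0 S1 R0 Rz Rx Qx; ring
  have p0 : S.D0 i ^ j0 ≤ S.Q0 i j0 := (S.topQ0 hi).pow_le hj0
  have px : S.Dx i ^ j0 ≤ S.Qx i j0 := (S.topQx hi).pow_le hj0
  have l0 : S.D0 i < d := lt_of_pow_lt_pow_left₀ j0 hd' (by linarith)
  have lx : S.Dx i < d := lt_of_pow_lt_pow_left₀ j0 hd' (by linarith)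
  by_contra hlt
  push Not at hlt
  set Y := max (S.D i) (max (S.D0 i) (S.Dx i)) with hY
  have hYd : Y < d := max_lt hlt (max_lt l0 lx)
  have hY0 : 0 ≤ Y := (S.topQz hi).nonneg.trans (le_max_left _ _)
  refine absurd (le_of_growth (K := S.Q0 i 1 + S.Qz i 1 + 2 * S.Qx i 1) hY0 fun j hj => ?_) hYd.not_ge
  have a0 : S.Q0 i j ≤ _ := ini_growth (S.topQ0 hi) le_rfl hj
    ((le_max_left _ _).trans (le_max_right _ _) : S.D0 i ≤ Y) le_rfl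
  have az : S.Qz i j ≤ _ := ini_growth (S.topQz hi) le_rfl hj (le_max_left _ _ : S.D i ≤ Y) le_rfl
  have ax : S.Qx i j ≤ _ := ini_growth (S.topQx hi) le_rfl hj
    ((le_max_right _ _).trans (le_max_right _ _) : S.Dx i ≤ Y) le_rfl
  have eb : S.Zb i j = S.Q0 i j + S.Qz i j + 2 * S.Qx i j := by unfold Q0 Qz Qx; ring
  have := h j hj
  linarith

/-- `4 S0 ≥ S0 + 3 Rz = P0 + 3 Qz ≥ c^j + 3 d^j`, then `Top.lower` -/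
theorem ALo {i0 : ℕ} {m c d a : ℚ} (hm : S.S0 i0 j ≤ (m : ℝ)) (hC : (c : ℝ) ≤ S.C i)
    (hD : (d : ℝ) ≤ S.D i) (x0 e : ℚ)
    (hc : 1 ≤ i0 ∧ i0 < i ∧ 1 ≤ j ∧ 0 ≤ c ∧ 0 ≤ d ∧ 0 < m ∧ 0 ≤ x0 ∧
      x0 ^ (i - i0) * m ≤ (c ^ j + 3 * d ^ j) / 4 ∧ 0 ≤ e ∧ (m - x0 ^ i0) ^ i ≤ e ^ i0 ∧
      a ^ i ≤ (c ^ j + 3 * d ^ j) / 4 - e) : (a : ℝ) ≤ S.A j := by
  obtain ⟨h0, hi0, hj, hc0, hd0, hm0, hx0, c1, he, c2, c3⟩ := hc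
  have hi : 1 ≤ i := h0.trans hi0.le
  have h1 := ini_lo hi hj (by exact_mod_cast hc0) (by exact_mod_cast hd0) hC hD
  obtain ⟨⟨-, n1, n2, -, n4⟩, -⟩ := S.sec_nonneg hi hj
  have e' : S.S0 i j - S.Rz i j = S.P1 i j + S.Q0 i j + 2 * S.Qx i j := by
    unfold S0 Rz P1 Q0 Qx; ring
  refine (S.topS0 hj).lower h0 hi0 (Y := ((c : ℝ) ^ j + 3 * d ^ j) / 4) (x0 := x0) (e := e) hm
    (by linarith) (by exact_mod_cast hm0) (by exact_mod_cast hx0) (by exact_mod_cast c1)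
    (by exact_mod_cast he) (by exact_mod_cast c2) (by exact_mod_cast c3)

/-- `S0 i j ≤ r^i + e0` (`Top.tail_lo`), `3 Rz = P0 + 3Qz - S0 ≥ c^j+3d^j - r^i - e0`, `Top.lower` -/
theorem BLo {i0 : ℕ} {m0 m1 a r c d b : ℚ} (hm0 : S.S0 i0 j ≤ (m0 : ℝ)) (ha : (a : ℝ) ≤ S.A j)
    (hr : S.A j ≤ (r : ℝ)) (hm1 : S.Rz i0 j ≤ (m1 : ℝ)) (hC : (c : ℝ) ≤ S.C i)
    (hD : (d : ℝ) ≤ S.D i) (e0 Y x0 e : ℚ)
    (hc : 1 ≤ i0 ∧ i0 < i ∧ 1 ≤ j ∧ 0 ≤ c ∧ 0 ≤ d ∧ 0 ≤ a ∧ 0 ≤ e0 ∧ (m0 - a ^ i0) ^ i ≤ e0 ^ i0 ∧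
      3 * Y ≤ c ^ j + 3 * d ^ j - r ^ i - e0 ∧ 0 < m1 ∧ 0 ≤ x0 ∧ x0 ^ (i - i0) * m1 ≤ Y ∧ 0 ≤ e ∧
      (m1 - x0 ^ i0) ^ i ≤ e ^ i0 ∧ b ^ i ≤ Y - e) : (b : ℝ) ≤ S.B j := by
  obtain ⟨h0, hi0, hj, hc0, hd0, ha0, he0, c0, cY, hm, hx0, c1, he, c2, c3⟩ := hc
  have hi : 1 ≤ i := h0.trans hi0.le
  have h1 := ini_lo hi hj (by exact_mod_cast hc0) (by exact_mod_cast hd0) hC hD
  have h2 : S.S0 i j ≤ (r : ℝ) ^ i + e0 := (S.topS0 hj).tail_lo h0 hi0.le (by exact_mod_cast ha0) ha hr hm0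
    (by exact_mod_cast he0) (by exact_mod_cast c0)
  have cY' : 3 * (Y : ℝ) ≤ c ^ j + 3 * d ^ j - r ^ i - e0 := by exact_mod_cast cY
  refine (S.topRz hj).lower h0 hi0 (Y := (Y : ℝ)) (x0 := x0) (e := e) hm1
    (by linarith) (by exact_mod_cast hm) (by exact_mod_cast hx0) (by exact_mod_cast c1)
    (by exact_mod_cast he) (by exact_mod_cast c2) (by exact_mod_cast c3)

theorem SZI {m0 m1 a b w : ℚ} (hm0 : S.S0 i j ≤ (m0 : ℝ)) (hm1 : S.Rz i j ≤ (m1 : ℝ))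
    (ha : (a : ℝ) ≤ S.A j) (hb : (b : ℝ) ≤ S.B j)
    (hc : 0 ≤ a ∧ 0 ≤ b ∧ 0 ≤ w ∧ m0 ≤ (1 + w) * a ^ i ∧ m1 ≤ (1 + w) * b ^ i) : S.SZ i j w := by
  obtain ⟨ha0, hb0, hw, c1, c2⟩ := hc
  have hw' : (0 : ℝ) ≤ 1 + w := by have : (0 : ℝ) ≤ w := by exact_mod_cast hw
                                   linarith
  have c1' : (m0 : ℝ) ≤ (1 + w) * a ^ i := by exact_mod_cast c1
  have c2' : (m1 : ℝ) ≤ (1 + w) * b ^ i := by exact_mod_cast c2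
  rw [SZ_iff]
  exact ⟨hm0.trans (c1'.trans (mul_le_mul_of_nonneg_left
      (pow_le_pow_left₀ (by exact_mod_cast ha0) ha i) hw')),
    hm1.trans (c2'.trans (mul_le_mul_of_nonneg_left
      (pow_le_pow_left₀ (by exact_mod_cast hb0) hb i) hw'))⟩

/-- three times `Top.tail` -/
theorem SXI {i0 : ℕ} {m2 r2 m3 r3 m4 r4 a b y : ℚ} (hm2 : S.S1 i0 j ≤ (m2 : ℝ))
    (hr2 : S.A1 j ≤ (r2 : ℝ)) (hm3 : S.R0 i0 j ≤ (m3 : ℝ)) (hr3 : S.B0 j ≤ (r3 : ℝ))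
    (hm4 : S.Rx i0 j ≤ (m4 : ℝ)) (hr4 : S.Bx j ≤ (r4 : ℝ)) (ha : (a : ℝ) ≤ S.A j)
    (hb : (b : ℝ) ≤ S.B j) (e2 e3 e4 : ℚ)
    (hc : 1 ≤ i0 ∧ i0 ≤ i ∧ 1 ≤ j ∧ 0 ≤ a ∧ 0 ≤ b ∧ 0 ≤ y ∧
      (r2 ^ i0 ≤ m2 ∧ m2 ≤ 2 * r2 ^ i0 ∧ 0 ≤ e2 ∧ (m2 - r2 ^ i0) ^ i ≤ e2 ^ i0) ∧
      (r3 ^ i0 ≤ m3 ∧ m3 ≤ 2 * r3 ^ i0 ∧ 0 ≤ e3 ∧ (m3 - r3 ^ i0) ^ i ≤ e3 ^ i0) ∧
      (r4 ^ i0 ≤ m4 ∧ m4 ≤ 2 * r4 ^ i0 ∧ 0 ≤ e4 ∧ (m4 - r4 ^ i0) ^ i ≤ e4 ^ i0) ∧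
      r2 ^ i + e2 ≤ y * a ^ i ∧ r3 ^ i + e3 ≤ y * b ^ i ∧ r4 ^ i + e4 ≤ y * b ^ i) :
    S.SX i j y := by
  obtain ⟨h0, hi0, hj, ha0, hb0, hy, ⟨a1, a2, a3, a4⟩, ⟨b1, b2, b3, b4⟩, ⟨d1, d2, d3, d4⟩, c1, c2, c3⟩ := hc
  have hy' : (0 : ℝ) ≤ y := by exact_mod_cast hy
  have t2 : S.S1 i j ≤ (r2 : ℝ) ^ i + e2 := (S.topS1 hj).tail h0 hi0 hr2 hm2 (by exact_mod_cast a1)
    (by exact_mod_cast a2) (by exact_mod_cast a3) (by exact_mod_cast a4)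
  have t3 : S.R0 i j ≤ (r3 : ℝ) ^ i + e3 := (S.topR0 hj).tail h0 hi0 hr3 hm3 (by exact_mod_cast b1)
    (by exact_mod_cast b2) (by exact_mod_cast b3) (by exact_mod_cast b4)
  have t4 : S.Rx i j ≤ (r4 : ℝ) ^ i + e4 := (S.topRx hj).tail h0 hi0 hr4 hm4 (by exact_mod_cast d1)
    (by exact_mod_cast d2) (by exact_mod_cast d3) (by exact_mod_cast d4)
  have c1' : (r2 : ℝ) ^ i + e2 ≤ y * a ^ i := by exact_mod_cast c1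
  have c2' : (r3 : ℝ) ^ i + e3 ≤ y * b ^ i := by exact_mod_cast c2
  have c3' : (r4 : ℝ) ^ i + e4 ≤ y * b ^ i := by exact_mod_cast c3
  have pa := mul_le_mul_of_nonneg_left (pow_le_pow_left₀ (by exact_mod_cast ha0) ha i) hy'
  have pb := mul_le_mul_of_nonneg_left (pow_le_pow_left₀ (by exact_mod_cast hb0) hb i) hy'
  rw [SX_iff]
  exact ⟨by linarith, by linarith, by linarith⟩

/-- `4 P0 = S0+3Rz+3S1+3R0+6Rx`, `4 Qz ≤ S0 + 3 Rz`, each sector bounded through `SZ`, `SX` -/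
theorem TZI {w y r0 r1 c d z : ℚ} (h1 : S.SZ i j w) (h2 : S.SX i j y) (hr0 : S.A j ≤ (r0 : ℝ))
    (hr1 : S.B j ≤ (r1 : ℝ)) (hC : (c : ℝ) ≤ S.C i) (hD : (d : ℝ) ≤ S.D i)
    (hc : 1 ≤ i ∧ 1 ≤ j ∧ 0 ≤ w ∧ 0 ≤ y ∧ 0 ≤ c ∧ 0 ≤ d ∧ 0 ≤ z ∧
      (1 + w + 3 * y) * (r0 ^ i + 3 * r1 ^ i) ≤ 4 * ((1 + z) * c ^ j) ∧
      (1 + w) * (r0 ^ i + 3 * r1 ^ i) ≤ 4 * ((1 + z) * d ^ j)) : S.TZ i j z := by
  obtain ⟨hi, hj, hw, hy, hc0, hd0, hz, c1, c2⟩ := hc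
  have hw' : (0 : ℝ) ≤ w := by exact_mod_cast hw
  have hy' : (0 : ℝ) ≤ y := by exact_mod_cast hy
  have hz' : (0 : ℝ) ≤ z := by exact_mod_cast hz
  have c1' : (1 + (w : ℝ) + 3 * y) * (r0 ^ i + 3 * r1 ^ i) ≤ 4 * ((1 + z) * c ^ j) := by exact_mod_cast c1
  have c2' : (1 + (w : ℝ)) * (r0 ^ i + 3 * r1 ^ i) ≤ 4 * ((1 + z) * d ^ j) := by exact_mod_cast c2
  rw [SZ_iff] at h1
  rw [SX_iff] at h2
  obtain ⟨s0, sz⟩ := h1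
  obtain ⟨s1, s2, sx⟩ := h2
  have pa := pow_le_pow_left₀ (S.topS0 hj).nonneg hr0 i
  have pb := pow_le_pow_left₀ (S.topRz hj).nonneg hr1 i
  have pa1 := mul_le_mul_of_nonneg_left pa hw'
  have pa2 := mul_le_mul_of_nonneg_left pa hy'
  have pb1 := mul_le_mul_of_nonneg_left pb hw'
  have pb2 := mul_le_mul_of_nonneg_left pb hy'
  have pc := mul_le_mul_of_nonneg_left (pow_le_pow_left₀ (by exact_mod_cast hc0) hC j)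
    (by linarith : (0 : ℝ) ≤ 1 + z)
  have pd := mul_le_mul_of_nonneg_left (pow_le_pow_left₀ (by exact_mod_cast hd0) hD j)
    (by linarith : (0 : ℝ) ≤ 1 + z)
  obtain ⟨-, n0, n1, n2, n3, n4⟩ := S.sec_nonneg hi hj
  have e0 : 4 * S.P0 i j = S.S0 i j + 3 * S.S1 i j + 3 * S.R0 i j + 3 * S.Rz i j + 6 * S.Rx i j := by
    unfold S0 S1 R0 Rz Rx P0; ring
  have ez : 4 * S.Qz i j = S.S0 i j - S.S1 i j + 3 * S.Rz i j - S.R0 i j - 2 * S.Rx i j := by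
    unfold S0 S1 R0 Rz Rx Qz; ring
  exact ⟨by linarith, by linarith⟩

/-- `rl ≤ Rz` from `b^i ≤ B^i ≤ Rz` or `3 Rz = P0+3Qz-S0 ≥ c^j+3d^j-(1+w) r0^i`;
`4 P1 ≤ S0+3S1-Rz`, `4 Q0 ≤ S0+3R0-Rz`, `4 Qx ≤ S0+2Rx-Rz`. -/
theorem TXI {w y r0 r1 b c d x : ℚ} (h1 : S.SZ i j w) (h2 : S.SX i j y) (hr0 : S.A j ≤ (r0 : ℝ))
    (hr1 : S.B j ≤ (r1 : ℝ)) (hb : (b : ℝ) ≤ S.B j) (hC : (c : ℝ) ≤ S.C i) (hD : (d : ℝ) ≤ S.D i)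
    (rl : ℚ) (hc : 1 ≤ i ∧ 1 ≤ j ∧ 0 ≤ w ∧ 0 ≤ y ∧ 0 ≤ b ∧ 0 ≤ c ∧ 0 ≤ d ∧ 0 ≤ x ∧
      (rl ≤ b ^ i ∨ 3 * rl ≤ c ^ j + 3 * d ^ j - (1 + w) * r0 ^ i) ∧
      (1 + w + 3 * y) * r0 ^ i - rl ≤ 4 * (x * c ^ j) ∧
      (1 + w) * r0 ^ i + 3 * (y * r1 ^ i) - rl ≤ 4 * (x * d ^ j)) : S.TX i j x := by
  obtain ⟨hi, hj, hw, hy, hb0, hc0, hd0, hx, crl, c1, c2⟩ := hc
  have hw' : (0 : ℝ) ≤ w := by exact_mod_cast hw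
  have hy' : (0 : ℝ) ≤ y := by exact_mod_cast hy
  have hx' : (0 : ℝ) ≤ x := by exact_mod_cast hx
  have hc0' : (0 : ℝ) ≤ c := by exact_mod_cast hc0
  have hd0' : (0 : ℝ) ≤ d := by exact_mod_cast hd0
  have c1' : (1 + (w : ℝ) + 3 * y) * r0 ^ i - rl ≤ 4 * (x * c ^ j) := by exact_mod_cast c1
  have c2' : (1 + (w : ℝ)) * r0 ^ i + 3 * (y * r1 ^ i) - rl ≤ 4 * (x * d ^ j) := by exact_mod_cast c2
  rw [SZ_iff] at h1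
  rw [SX_iff] at h2
  obtain ⟨s0, sz⟩ := h1
  obtain ⟨s1, s2, sx⟩ := h2
  have pa := pow_le_pow_left₀ (S.topS0 hj).nonneg hr0 i
  have pb := pow_le_pow_left₀ (S.topRz hj).nonneg hr1 i
  have pa1 := mul_le_mul_of_nonneg_left pa hw'
  have pa2 := mul_le_mul_of_nonneg_left pa hy'
  have pb2 := mul_le_mul_of_nonneg_left pb hy'
  have pb0 := mul_nonneg hy' (pow_nonneg (S.topRz hj).nonneg i)
  have pc := mul_le_mul_of_nonneg_left (pow_le_pow_left₀ hc0' hC j) hx'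
  have pd := mul_le_mul_of_nonneg_left (pow_le_pow_left₀ hd0' hD j) hx'
  obtain ⟨-, n0, n1, n2, n3, n4⟩ := S.sec_nonneg hi hj
  have hrl : (rl : ℝ) ≤ S.Rz i j := by
    rcases crl with crl | crl
    · have crl' : (rl : ℝ) ≤ b ^ i := by exact_mod_cast crl
      exact crl'.trans ((pow_le_pow_left₀ (by exact_mod_cast hb0) hb i).trans ((S.topRz hj).pow_le hi))
    · have crl' : 3 * (rl : ℝ) ≤ c ^ j + 3 * d ^ j - (1 + w) * r0 ^ i := by exact_mod_cast crl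
      have := ini_lo hi hj hc0' hd0' hC hD
      linarith
  have e1 : 4 * S.P1 i j = S.S0 i j + 3 * S.S1 i j - S.R0 i j - S.Rz i j - 2 * S.Rx i j := by
    unfold S0 S1 R0 Rz Rx P1; ring
  have e0 : 4 * S.Q0 i j = S.S0 i j - S.S1 i j + 3 * S.R0 i j - S.Rz i j - 2 * S.Rx i j := by
    unfold S0 S1 R0 Rz Rx Q0; ring
  have ex : 4 * S.Qx i j = S.S0 i j - S.S1 i j - S.R0 i j - S.Rz i j + 2 * S.Rx i j := by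
    unfold S0 S1 R0 Rz Rx Qx; ring
  exact ⟨by linarith, by linarith, by linarith⟩

end Sys

end Crest.Agent.R347
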