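import Crest.Agent.R347.SysBasic

/-!
# Row 347: the bootstrap rules R2, R3, R4   (task R347/SysRules)

You may use `TopBasic`, `TopPsi`, `SysBasic` (other tasks); see the identities in the header of
`SysBasic.lean`, and `SZ_iff`, `SX_iff`, `SF_iff`, `Nu_iff` in `Sys.lean`.
-/

set_option autoImplicit false

namespace Crest.Agent.R347

namespace Sys

variable {S : Sys} {i j : ℕ}

/-- `S0 - Rz = P1+Q0+2Qx ≤ x (C^j+3D^j) ≤ x (P0+3Qz) = x (S0+3Rz)`, so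
`(1-x) A^i ≤ (1-x) S0 ≤ (1+3x) Rz ≤ (1+3x)(1+w) B^i ≤ (1-x) (m B)^i`. -/
theorem R2 {x w m : ℚ} (h1 : S.TX i j x) (h2 : S.SZ i j w)
    (hc : 1 ≤ i ∧ 1 ≤ j ∧ 0 ≤ x ∧ x < 1 ∧ 0 ≤ m ∧ (1 + w) * (1 + 3 * x) ≤ (1 - x) * m ^ i) :
    S.Mu j m := by
  obtain ⟨hi, hj, hx0, hx1, hm, hc⟩ := hc
  have hx0' : (0 : ℝ) ≤ x := by exact_mod_cast hx0
  have hx1' : (x : ℝ) < 1 := by exact_mod_cast hx1
  have hm' : (0 : ℝ) ≤ m := by exact_mod_cast hm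
  have hc' : (1 + (w : ℝ)) * (1 + 3 * x) ≤ (1 - x) * (m : ℝ) ^ i := by exact_mod_cast hc
  obtain ⟨hP1, hQ0, hQx⟩ := h1
  obtain ⟨-, hRz⟩ := (S.SZ_iff i j w).1 h2
  have hC : S.C i ^ j ≤ S.P0 i j := (S.topP0 hi).pow_le hj
  have hD : S.D i ^ j ≤ S.Qz i j := (S.topQz hi).pow_le hj
  have hA : S.A j ^ i ≤ S.S0 i j := (S.topS0 hj).pow_le hi
  have hB0 : 0 ≤ S.B j := (S.topRz hj).nonneg
  have hBi : 0 ≤ S.B j ^ i := pow_nonneg hB0 i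
  have e1 : S.S0 i j - S.Rz i j = S.P1 i j + S.Q0 i j + 2 * S.Qx i j := by
    unfold S0 Rz P1 Q0 Qx; ring
  have e2 : S.S0 i j + 3 * S.Rz i j = S.P0 i j + 3 * S.Qz i j := by
    unfold S0 Rz P0 Qz; ring
  have k1 : (x : ℝ) * S.C i ^ j ≤ x * S.P0 i j := mul_le_mul_of_nonneg_left hC hx0'
  have k2 : (x : ℝ) * S.D i ^ j ≤ x * S.Qz i j := mul_le_mul_of_nonneg_left hD hx0'
  have k3 : (1 - (x : ℝ)) * S.S0 i j ≤ (1 + 3 * x) * S.Rz i j := by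
    have : (x : ℝ) * (S.S0 i j + 3 * S.Rz i j) = x * S.P0 i j + 3 * (x * S.Qz i j) := by
      rw [e2]; ring
    linarith
  have k4 : (1 - (x : ℝ)) * S.A j ^ i ≤ (1 - x) * S.S0 i j :=
    mul_le_mul_of_nonneg_left hA (by linarith)
  have k5 : (1 + 3 * (x : ℝ)) * S.Rz i j ≤ (1 + 3 * x) * ((1 + w) * S.B j ^ i) :=
    mul_le_mul_of_nonneg_left hRz (by linarith)
  have k6 : (1 + (w : ℝ)) * (1 + 3 * x) * S.B j ^ i ≤ (1 - x) * (m : ℝ) ^ i * S.B j ^ i :=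
    mul_le_mul_of_nonneg_right hc' hBi
  have k7 : (1 - (x : ℝ)) * S.A j ^ i ≤ (1 - x) * ((m : ℝ) * S.B j) ^ i := by
    rw [mul_pow]; linarith
  have k8 : S.A j ^ i ≤ ((m : ℝ) * S.B j) ^ i := le_of_mul_le_mul_left k7 (by linarith)
  exact le_of_pow_le_pow_left₀ (by omega) (mul_nonneg hm' hB0) k8

/-- `A^i ≤ M B^i ≤ M Rz`.  With `u = M (1+w)`: `S0 ≤ u Rz`, `S0 + 3 S1 ≤ (u + 3 M y) Rz`,
`R0, Rx ≤ y Rz`.  Show `(1+z) P1 ≤ x' P0`, `(1+z) Q0 ≤ x' Qz`, `(1+z) Qx ≤ x' Qz` (each is linear in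
the sectors `S0 S1 R0 Rz Rx ≥ 0`; use `x' ≤ 1 ≤ 1 + z`), then divide by `1+z` using `TZ`. -/
theorem R3 {z w y m x' : ℚ} (h1 : S.TZ i j z) (h2 : S.SZ i j w) (h3 : S.SX i j y) (h4 : S.Mu j m)
    (M : ℚ) (hc : 1 ≤ i ∧ 1 ≤ j ∧ 0 ≤ z ∧ 0 ≤ w ∧ 0 ≤ y ∧ 0 ≤ m ∧ m ^ i ≤ M ∧ 0 ≤ x' ∧ x' ≤ 1 ∧
      (1 + z) * (M * (1 + w) - 1 + 3 * M * y) ≤ x' * (M * (1 + w) + 3 + 3 * M * y) ∧
      (1 + z) * (M * (1 + w) - 1 + 3 * y) ≤ x' * (M * (1 + w) + 3 - y) ∧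
      (1 + z) * (M * (1 + w) - 1 + 2 * y) ≤ x' * (M * (1 + w) + 3 - 2 * y)) : S.TX i j x' := by
  obtain ⟨hi, hj, hz, hw, hy, hm, hM, hx0, hx1, c1, c2, c3⟩ := hc
  have hz' : (0 : ℝ) ≤ z := by exact_mod_cast hz
  have hw' : (0 : ℝ) ≤ w := by exact_mod_cast hw
  have hy' : (0 : ℝ) ≤ y := by exact_mod_cast hy
  have hm' : (0 : ℝ) ≤ m := by exact_mod_cast hm
  have hM' : (m : ℝ) ^ i ≤ M := by exact_mod_cast hM
  have hx0' : (0 : ℝ) ≤ x' := by exact_mod_cast hx0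
  have hx1' : (x' : ℝ) ≤ 1 := by exact_mod_cast hx1
  have c1' : (1 + (z : ℝ)) * (M * (1 + w) - 1 + 3 * M * y) ≤
      x' * (M * (1 + w) + 3 + 3 * M * y) := by exact_mod_cast c1
  have c2' : (1 + (z : ℝ)) * (M * (1 + w) - 1 + 3 * y) ≤ x' * (M * (1 + w) + 3 - y) := by
    exact_mod_cast c2
  have c3' : (1 + (z : ℝ)) * (M * (1 + w) - 1 + 2 * y) ≤ x' * (M * (1 + w) + 3 - 2 * y) := by
    exact_mod_cast c3
  obtain ⟨hP0, hQz⟩ := h1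
  obtain ⟨hS0, -⟩ := (S.SZ_iff i j w).1 h2
  obtain ⟨hS1, hR0, hRx⟩ := (S.SX_iff i j y).1 h3
  obtain ⟨-, -, nS1, nR0, nRz, nRx⟩ := S.sec_nonneg hi hj
  have hA0 : 0 ≤ S.A j := (S.topS0 hj).nonneg
  have hB0 : 0 ≤ S.B j := (S.topRz hj).nonneg
  have hBi : 0 ≤ S.B j ^ i := pow_nonneg hB0 i
  have hB : S.B j ^ i ≤ S.Rz i j := (S.topRz hj).pow_le hi
  have hM0 : (0 : ℝ) ≤ M := (pow_nonneg hm' i).trans hM'
  have hA : S.A j ^ i ≤ M * S.Rz i j := by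
    calc S.A j ^ i ≤ ((m : ℝ) * S.B j) ^ i := pow_le_pow_left₀ hA0 h4 i
      _ = (m : ℝ) ^ i * S.B j ^ i := mul_pow _ _ _
      _ ≤ M * S.Rz i j := mul_le_mul hM' hB hBi hM0
  have a0 : S.S0 i j ≤ M * (1 + w) * S.Rz i j := by
    have := mul_le_mul_of_nonneg_left hA (show (0 : ℝ) ≤ 1 + w by linarith)
    linarith
  have a1 : S.S1 i j ≤ M * y * S.Rz i j := by
    have := mul_le_mul_of_nonneg_left hA hy'
    linarith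
  have a2 : S.R0 i j ≤ y * S.Rz i j := hR0.trans (mul_le_mul_of_nonneg_left hB hy')
  have a3 : S.Rx i j ≤ y * S.Rz i j := hRx.trans (mul_le_mul_of_nonneg_left hB hy')
  have eP0 : S.P0 i j = (S.S0 i j + 3 * S.S1 i j + 3 * S.R0 i j + 3 * S.Rz i j + 6 * S.Rx i j) / 4 := by
    unfold P0 S0 S1 R0 Rz Rx; ring
  have eP1 : S.P1 i j = (S.S0 i j + 3 * S.S1 i j - S.R0 i j - S.Rz i j - 2 * S.Rx i j) / 4 := by
    unfold P1 S0 S1 R0 Rz Rx; ring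
  have eQz : S.Qz i j = (S.S0 i j - S.S1 i j + 3 * S.Rz i j - S.R0 i j - 2 * S.Rx i j) / 4 := by
    unfold Qz S0 S1 R0 Rz Rx; ring
  have eQ0 : S.Q0 i j = (S.S0 i j - S.S1 i j + 3 * S.R0 i j - S.Rz i j - 2 * S.Rx i j) / 4 := by
    unfold Q0 S0 S1 R0 Rz Rx; ring
  have eQx : S.Qx i j = (S.S0 i j - S.S1 i j - S.R0 i j - S.Rz i j + 2 * S.Rx i j) / 4 := by
    unfold Qx S0 S1 R0 Rz Rx; ring
  generalize S.S0 i j = s0 at *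
  generalize S.S1 i j = s1 at *
  generalize S.R0 i j = r0 at *
  generalize S.Rz i j = rz at *
  generalize S.Rx i j = rx at *
  have hg : (0 : ℝ) ≤ 1 + z - x' := by linarith
  have hz1 : (0 : ℝ) < 1 + z := by linarith
  have b1 : (1 + (z : ℝ)) * S.P1 i j ≤ x' * S.P0 i j := by
    rw [eP0, eP1]
    have t1 := mul_le_mul_of_nonneg_left a0 hg
    have t2 := mul_le_mul_of_nonneg_left a1 hg
    have t3 := mul_le_mul_of_nonneg_right c1' nRz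
    have t4 := mul_nonneg (show (0 : ℝ) ≤ 1 + z + 3 * x' by linarith) nR0
    have t5 := mul_nonneg (show (0 : ℝ) ≤ 1 + z + 3 * x' by linarith) nRx
    linarith
  have b2 : (1 + (z : ℝ)) * S.Q0 i j ≤ x' * S.Qz i j := by
    rw [eQ0, eQz]
    have t1 := mul_le_mul_of_nonneg_left a0 hg
    have t2 := mul_le_mul_of_nonneg_left a2 (show (0 : ℝ) ≤ 3 * (1 + z) + x' by linarith)
    have t3 := mul_le_mul_of_nonneg_right c2' nRz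
    have t4 := mul_nonneg hg nS1
    have t5 := mul_nonneg hg nRx
    linarith
  have b3 : (1 + (z : ℝ)) * S.Qx i j ≤ x' * S.Qz i j := by
    rw [eQx, eQz]
    have t1 := mul_le_mul_of_nonneg_left a0 hg
    have t2 := mul_le_mul_of_nonneg_left a3 (show (0 : ℝ) ≤ 2 * (1 + z) + 2 * x' by linarith)
    have t3 := mul_le_mul_of_nonneg_right c3' nRz
    have t4 := mul_nonneg hg nS1
    have t5 := mul_nonneg hg nR0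
    linarith
  have d1 := mul_le_mul_of_nonneg_left hP0 hx0'
  have d2 := mul_le_mul_of_nonneg_left hQz hx0'
  refine ⟨le_of_mul_le_mul_left ?_ hz1, le_of_mul_le_mul_left ?_ hz1,
    le_of_mul_le_mul_left ?_ hz1⟩ <;> linarith

/-- `256 u^(4ij) = 256 (A B^3)^i ≤ (A^i+3B^i)^4 ≤ (S0+3Rz)^4 = (P0+3Qz)^4 ≤ (1+z)^4 (C^j+3D^j)^4` and
`amgm_up` with `a = C^j ≤ N D^j`. -/
theorem R4 {z n q : ℚ} (h1 : S.TZ i j z) (h2 : S.Nu i n) (N : ℚ)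
    (hc : 1 ≤ i ∧ 1 ≤ j ∧ 0 ≤ z ∧ 0 ≤ n ∧ n ^ j ≤ N ∧ 1 ≤ N ∧ 0 ≤ q ∧
      (1 + z) ^ 4 * (N + 3) ^ 4 ≤ 256 * N * q ^ (4 * i * j)) : LeQ (S.u j) q (S.w i) := by
  obtain ⟨hi, hj, hz, hn, hN, hN1, hq, hc⟩ := hc
  have hz' : (0 : ℝ) ≤ z := by exact_mod_cast hz
  have hn' : (0 : ℝ) ≤ n := by exact_mod_cast hn
  have hN' : (n : ℝ) ^ j ≤ N := by exact_mod_cast hN
  have hN1' : (1 : ℝ) ≤ N := by exact_mod_cast hN1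
  have hq' : (0 : ℝ) ≤ q := by exact_mod_cast hq
  have hc' : (1 + (z : ℝ)) ^ 4 * (N + 3) ^ 4 ≤ 256 * N * (q : ℝ) ^ (4 * i * j) := by
    exact_mod_cast hc
  obtain ⟨hP0, hQz⟩ := h1
  have h2' : S.C i ≤ (n : ℝ) * S.D i := h2
  have hA0 : 0 ≤ S.A j := (S.topS0 hj).nonneg
  have hB0 : 0 ≤ S.B j := (S.topRz hj).nonneg
  have hC0 : 0 ≤ S.C i := (S.topP0 hi).nonneg
  have hD0 : 0 ≤ S.D i := (S.topQz hi).nonneg
  have hA : S.A j ^ i ≤ S.S0 i j := (S.topS0 hj).pow_le hi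
  have hB : S.B j ^ i ≤ S.Rz i j := (S.topRz hj).pow_le hi
  have hw0 : 0 ≤ S.w i := S.dual.u_nonneg hi
  have hwp : S.w i ^ (4 * i) = S.C i * S.D i ^ 3 := S.dual.u_pow hi
  have hup : S.u j ^ (4 * j) = S.A j * S.B j ^ 3 := S.u_pow hj
  have e2 : S.S0 i j + 3 * S.Rz i j = S.P0 i j + 3 * S.Qz i j := by
    unfold S0 Rz P0 Qz; ring
  have hAi := pow_nonneg hA0 i
  have hBi := pow_nonneg hB0 i
  have hCj := pow_nonneg hC0 j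
  have hDj := pow_nonneg hD0 j
  have k1 := amgm_lo hAi hBi
  have k2 : S.A j ^ i + 3 * S.B j ^ i ≤ (1 + z) * (S.C i ^ j + 3 * S.D i ^ j) := by linarith
  have k3 : (S.A j ^ i + 3 * S.B j ^ i) ^ 4 ≤ (1 + z) ^ 4 * (S.C i ^ j + 3 * S.D i ^ j) ^ 4 := by
    rw [← mul_pow]
    exact pow_le_pow_left₀ (by linarith) k2 4
  have k4 : S.C i ^ j ≤ N * S.D i ^ j := by
    calc S.C i ^ j ≤ ((n : ℝ) * S.D i) ^ j := pow_le_pow_left₀ hC0 h2' j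
      _ = (n : ℝ) ^ j * S.D i ^ j := mul_pow _ _ _
      _ ≤ N * S.D i ^ j := mul_le_mul_of_nonneg_right hN' hDj
  have k5 := amgm_up hDj (pow_le_pow_left₀ hD0 (S.D_le_C hi) j) k4 hN1'
  have eu : S.u j ^ (4 * i * j) = S.A j ^ i * (S.B j ^ i) ^ 3 := by
    rw [show 4 * i * j = 4 * j * i by ring, pow_mul, hup, mul_pow, ← pow_mul, ← pow_mul,
      mul_comm 3 i]
  have ew : S.w i ^ (4 * i * j) = S.C i ^ j * (S.D i ^ j) ^ 3 := by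
    rw [pow_mul, hwp, mul_pow, ← pow_mul, ← pow_mul, mul_comm 3 j]
  have hN0 : (0 : ℝ) < 256 * N := by linarith
  have k6 : 256 * (N : ℝ) * S.u j ^ (4 * i * j) ≤ 256 * N * ((q : ℝ) * S.w i) ^ (4 * i * j) := by
    rw [mul_pow, eu, ew]
    have hW : 0 ≤ S.C i ^ j * (S.D i ^ j) ^ 3 := mul_nonneg hCj (pow_nonneg hDj 3)
    calc 256 * (N : ℝ) * (S.A j ^ i * (S.B j ^ i) ^ 3)
        = 256 * (S.A j ^ i * (S.B j ^ i) ^ 3) * N := by ring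
      _ ≤ (1 + z) ^ 4 * (S.C i ^ j + 3 * S.D i ^ j) ^ 4 * N :=
          mul_le_mul_of_nonneg_right (k1.trans k3) (by linarith)
      _ = (1 + z) ^ 4 * ((S.C i ^ j + 3 * S.D i ^ j) ^ 4 * N) := by ring
      _ ≤ (1 + z) ^ 4 * ((N + 3) ^ 4 * (S.C i ^ j * (S.D i ^ j) ^ 3)) :=
          mul_le_mul_of_nonneg_left k5 (by positivity)
      _ = (1 + z) ^ 4 * (N + 3) ^ 4 * (S.C i ^ j * (S.D i ^ j) ^ 3) := by ring
      _ ≤ 256 * N * (q : ℝ) ^ (4 * i * j) * (S.C i ^ j * (S.D i ^ j) ^ 3) :=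
          mul_le_mul_of_nonneg_right hc' hW
      _ = _ := by ring
  refine ⟨hw0, le_of_pow_le_pow_left₀ (n := 4 * i * j) ?_ (mul_nonneg hq' hw0)
    (le_of_mul_le_mul_left k6 hN0)⟩
  have : 0 < 4 * i * j := by positivity
  omega

/-! dual forms -/

theorem R2' {x w m : ℚ} (h1 : S.SX i j x) (h2 : S.TZ i j w)
    (hc : 1 ≤ j ∧ 1 ≤ i ∧ 0 ≤ x ∧ x < 1 ∧ 0 ≤ m ∧ (1 + w) * (1 + 3 * x) ≤ (1 - x) * m ^ j) :
    S.Nu i m := R2 (S := S.dual) h1 h2 hc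

theorem R3' {z w y m x' : ℚ} (h1 : S.SZ i j z) (h2 : S.TZ i j w) (h3 : S.TX i j y) (h4 : S.Nu i m)
    (M : ℚ) (hc : 1 ≤ j ∧ 1 ≤ i ∧ 0 ≤ z ∧ 0 ≤ w ∧ 0 ≤ y ∧ 0 ≤ m ∧ m ^ j ≤ M ∧ 0 ≤ x' ∧ x' ≤ 1 ∧
      (1 + z) * (M * (1 + w) - 1 + 3 * M * y) ≤ x' * (M * (1 + w) + 3 + 3 * M * y) ∧
      (1 + z) * (M * (1 + w) - 1 + 3 * y) ≤ x' * (M * (1 + w) + 3 - y) ∧
      (1 + z) * (M * (1 + w) - 1 + 2 * y) ≤ x' * (M * (1 + w) + 3 - 2 * y)) : S.SX i j x' :=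
  R3 (S := S.dual) h1 h2 h3 h4 M hc

theorem R4' {z n q : ℚ} (h1 : S.SZ i j z) (h2 : S.Mu j n) (N : ℚ)
    (hc : 1 ≤ j ∧ 1 ≤ i ∧ 0 ≤ z ∧ 0 ≤ n ∧ n ^ i ≤ N ∧ 1 ≤ N ∧ 0 ≤ q ∧
      (1 + z) ^ 4 * (N + 3) ^ 4 ≤ 256 * N * q ^ (4 * j * i)) : LeQ (S.w i) q (S.u j) :=
  R4 (S := S.dual) h1 h2 N hc

end Sys

end Crest.Agent.R347
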