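import Crest.Agent.R347.SysBasic

/-!
# Row 347: the bootstrap rules R6 and Range   (task R347/SysRules2)

You may use `TopBasic`, `TopPsi`, `SysBasic` (other tasks); see the identities in the header of
`SysBasic.lean`, and `SZ_iff`, `SX_iff`, `SF_iff` in `Sys.lean`.
-/

set_option autoImplicit false

namespace Crest.Agent.R347

namespace Sys

variable {S : Sys} {i j : ℕ}

theorem SR2.U_pow (S : Sys) (hj : 1 ≤ j) (i : ℕ) :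
    (S.u j ^ (i * j)) ^ 4 = S.A j ^ i * (S.B j ^ i) ^ 3 := by
  have h := S.u_pow hj
  calc (S.u j ^ (i * j)) ^ 4 = (S.u j ^ (4 * j)) ^ i := by
        rw [← pow_mul, ← pow_mul]; congr 1; ring
    _ = (S.A j * S.B j ^ 3) ^ i := by rw [h]
    _ = S.A j ^ i * (S.B j ^ i) ^ 3 := by
        rw [mul_pow, ← pow_mul, ← pow_mul, mul_comm 3 i]

theorem SR2.U_le (S : Sys) (hj : 1 ≤ j) (i : ℕ) :
    4 * S.u j ^ (i * j) ≤ S.A j ^ i + 3 * S.B j ^ i := by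
  have hA : 0 ≤ S.A j ^ i := pow_nonneg (S.A_pos hj).le _
  have hB : 0 ≤ S.B j ^ i := pow_nonneg (S.topRz hj).nonneg _
  refine le_of_pow_le_pow_left₀ (n := 4) (by norm_num) (by positivity) ?_
  have h := amgm_lo hA hB
  calc (4 * S.u j ^ (i * j)) ^ 4 = 256 * (S.u j ^ (i * j)) ^ 4 := by ring
    _ = 256 * (S.A j ^ i * (S.B j ^ i) ^ 3) := by rw [SR2.U_pow S hj i]
    _ ≤ _ := h

theorem SR2.le_U (S : Sys) (hj : 1 ≤ j) (i : ℕ) {m M g : ℝ} (h3 : S.A j ≤ m * S.B j)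
    (hmM : m ^ i ≤ M) (hM : 1 ≤ M) (hg : 0 ≤ g) (hMg : (M + 3) ^ 4 ≤ 256 * M * g ^ 4) :
    S.A j ^ i + 3 * S.B j ^ i ≤ 4 * g * S.u j ^ (i * j) := by
  have hA0 := (S.A_pos hj).le
  have hB0 := (S.topRz hj).nonneg
  have hA : 0 ≤ S.A j ^ i := pow_nonneg hA0 _
  have hB : 0 ≤ S.B j ^ i := pow_nonneg hB0 _
  have hu : 0 ≤ S.u j ^ (i * j) := pow_nonneg (S.u_nonneg hj) _
  have hBA : S.B j ^ i ≤ S.A j ^ i := pow_le_pow_left₀ hB0 (S.B_le_A hj) _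
  have hAM : S.A j ^ i ≤ M * S.B j ^ i := by
    calc S.A j ^ i ≤ (m * S.B j) ^ i := pow_le_pow_left₀ hA0 h3 _
      _ = m ^ i * S.B j ^ i := mul_pow _ _ _
      _ ≤ M * S.B j ^ i := mul_le_mul_of_nonneg_right hmM hB
  have h := amgm_up hB hBA hAM hM
  refine le_of_pow_le_pow_left₀ (n := 4) (by norm_num) (by positivity) ?_
  have hM0 : 0 < M := by linarith
  refine le_of_mul_le_mul_right ?_ hM0
  calc (S.A j ^ i + 3 * S.B j ^ i) ^ 4 * M ≤ (M + 3) ^ 4 * (S.A j ^ i * (S.B j ^ i) ^ 3) := h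
    _ ≤ (256 * M * g ^ 4) * (S.A j ^ i * (S.B j ^ i) ^ 3) :=
        mul_le_mul_of_nonneg_right hMg (by positivity)
    _ = (256 * M * g ^ 4) * (S.u j ^ (i * j)) ^ 4 := by rw [SR2.U_pow S hj i]
    _ = (4 * g * S.u j ^ (i * j)) ^ 4 * M := by ring

/-- raising to the powers `j2` and `j` -/
theorem SR2.cross {p p2 c d K v : ℝ} {i j j2 : ℕ} (hp : 0 ≤ p) (hv : 0 ≤ v) (hd : 0 ≤ d)
    (hK : 0 ≤ K) (h1 : p ≤ c * v ^ (i * j)) (h2 : d * v ^ (i * j2) ≤ p2)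
    (h3 : c ^ j2 ≤ K * d ^ j) : p ^ j2 ≤ K * p2 ^ j := by
  calc p ^ j2 ≤ (c * v ^ (i * j)) ^ j2 := pow_le_pow_left₀ hp h1 _
    _ = c ^ j2 * (v ^ (i * j)) ^ j2 := mul_pow _ _ _
    _ ≤ (K * d ^ j) * (v ^ (i * j)) ^ j2 := mul_le_mul_of_nonneg_right h3 (by positivity)
    _ = K * (d * v ^ (i * j2)) ^ j := by
        rw [mul_pow, ← pow_mul, ← pow_mul, mul_assoc, mul_assoc i j j2, mul_assoc i j2 j,
          mul_comm j j2]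
    _ ≤ K * p2 ^ j := mul_le_mul_of_nonneg_left (pow_le_pow_left₀ (by positivity) h2 _) hK

/-- Write `U j = (u j)^(i j)`, so `4 U j ≤ A^i+3B^i` (`amgm_lo`) and `A^i+3B^i ≤ 4 g U j1` at `j1`
(`amgm_up`), and `U j1 ≤ Q (u j2)^(i j1)`.
`P0 j1 ≤ (1+w+3y)(A^i+3B^i)/4 ≤ (1+w+3y) g Q (u j2)^(i j1)` and `U j2 ≤ (S0+3Rz)/4 ≤ P0 j2`;
`Qz j1 ≤ (S0+3Rz)/4 ≤ (1+w) g Q (u j2)^(i j1)` and `(1-y2) U j2 ≤ Qz j2`.  Raise to the powers `j2`,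
`j1` and apply `Top.psi` twice. -/
theorem R6 {j2 : ℕ} {w y m q y2 z : ℚ} (h1 : S.SZ i j w) (h2 : S.SX i j y) (h3 : S.Mu j m)
    (h4 : LeQ (S.u j) q (S.u j2)) (h5 : S.SX i j2 y2) (M g Q K z' : ℚ)
    (hc : 1 ≤ i ∧ 1 ≤ j ∧ j < j2 ∧ 0 ≤ w ∧ 0 ≤ y ∧ 0 ≤ m ∧ m ^ i ≤ M ∧ 1 ≤ M ∧ 0 ≤ g ∧
      (M + 3) ^ 4 ≤ 256 * M * g ^ 4 ∧ 0 ≤ q ∧ q ^ (i * j) ≤ Q ∧ 0 ≤ y2 ∧ y2 < 1 ∧
      ((1 + w + 3 * y) * g * Q) ^ j2 ≤ K ∧ ((1 + w) * g * Q) ^ j2 ≤ K * (1 - y2) ^ j ∧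
      0 ≤ z ∧ 0 ≤ z' ∧ z ^ j2 ≤ z' ^ j ∧ K * (1 + z') ^ j < (1 + z) ^ j2 ∧ K < 2 ^ (j2 - j)) :
    S.TZ i j z := by
  obtain ⟨hi, hj, hjj, hw, hy, -, hmM, hM, hg, hMg, hq, hqQ, hy2, hy21, hK1, hK2, hz, hz', hzz,
    hc1, hc2⟩ := hc
  have hj2 : 1 ≤ j2 := by omega
  have hw' : (0 : ℝ) ≤ w := by exact_mod_cast hw
  have hy' : (0 : ℝ) ≤ y := by exact_mod_cast hy
  have hmM' : (m : ℝ) ^ i ≤ M := by exact_mod_cast hmM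
  have hM' : (1 : ℝ) ≤ M := by exact_mod_cast hM
  have hg' : (0 : ℝ) ≤ g := by exact_mod_cast hg
  have hMg' : ((M : ℝ) + 3) ^ 4 ≤ 256 * M * g ^ 4 := by exact_mod_cast hMg
  have hq' : (0 : ℝ) ≤ q := by exact_mod_cast hq
  have hqQ' : (q : ℝ) ^ (i * j) ≤ Q := by exact_mod_cast hqQ
  have hy21' : (y2 : ℝ) < 1 := by exact_mod_cast hy21
  have hK1' : ((1 + (w : ℝ) + 3 * y) * g * Q) ^ j2 ≤ K := by exact_mod_cast hK1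
  have hK2' : ((1 + (w : ℝ)) * g * Q) ^ j2 ≤ K * (1 - y2) ^ j := by exact_mod_cast hK2
  have hz1 : (0 : ℝ) ≤ z := by exact_mod_cast hz
  have hz1' : (0 : ℝ) ≤ z' := by exact_mod_cast hz'
  have hzz' : (z : ℝ) ^ j2 ≤ z' ^ j := by exact_mod_cast hzz
  have hc1' : (K : ℝ) * (1 + z') ^ j < (1 + z) ^ j2 := by exact_mod_cast hc1
  have hc2' : (K : ℝ) < 2 ^ (j2 - j) := by exact_mod_cast hc2
  have hQ : (0 : ℝ) ≤ Q := le_trans (pow_nonneg hq' _) hqQ'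
  have hK : (0 : ℝ) ≤ K := le_trans (by positivity) hK1'
  obtain ⟨hS0, hRz⟩ := (S.SZ_iff i j w).1 h1
  obtain ⟨hS1, hR0, hRx⟩ := (S.SX_iff i j y).1 h2
  obtain ⟨gS1, gR0, gRx⟩ := (S.SX_iff i j2 y2).1 h5
  obtain ⟨⟨nP0, -, -, nQz, -⟩, -, nS1, nR0, -, nRx⟩ := S.sec_nonneg hi hj
  obtain ⟨-, -, mS1, mR0, -, mRx⟩ := S.sec_nonneg hi hj2
  have hv : 0 ≤ S.u j2 := h4.1
  have hV : 0 ≤ S.u j2 ^ (i * j) := pow_nonneg hv _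
  have hUV : S.u j ^ (i * j) ≤ Q * S.u j2 ^ (i * j) := by
    calc S.u j ^ (i * j) ≤ (q * S.u j2) ^ (i * j) := pow_le_pow_left₀ (S.u_nonneg hj) h4.2 _
      _ = (q : ℝ) ^ (i * j) * S.u j2 ^ (i * j) := mul_pow _ _ _
      _ ≤ _ := mul_le_mul_of_nonneg_right hqQ' hV
  have hAB : S.A j ^ i + 3 * S.B j ^ i ≤ 4 * (g * Q * S.u j2 ^ (i * j)) := by
    calc S.A j ^ i + 3 * S.B j ^ i ≤ 4 * g * S.u j ^ (i * j) :=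
          SR2.le_U S hj i h3 hmM' hM' hg' hMg'
      _ ≤ 4 * g * (Q * S.u j2 ^ (i * j)) := mul_le_mul_of_nonneg_left hUV (by positivity)
      _ = _ := by ring
  have hU2 := SR2.U_le S hj2 i
  have tS0 : S.A j2 ^ i ≤ S.S0 i j2 := (S.topS0 hj2).pow_le hi
  have tRz : S.B j2 ^ i ≤ S.Rz i j2 := (S.topRz hj2).pow_le hi
  have eP : ∀ k, 4 * S.P0 i k =
      S.S0 i k + 3 * S.S1 i k + 3 * S.R0 i k + 3 * S.Rz i k + 6 * S.Rx i k := by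
    intro k; unfold P0 S0 S1 R0 Rz Rx; ring
  have eQ : ∀ k, 4 * S.Qz i k =
      S.S0 i k - S.S1 i k + 3 * S.Rz i k - S.R0 i k - 2 * S.Rx i k := by
    intro k; unfold Qz S0 S1 R0 Rz Rx; ring
  have p1 : S.P0 i j ≤ ((1 + (w : ℝ) + 3 * y) * g * Q) * S.u j2 ^ (i * j) := by
    have a1 : 4 * S.P0 i j ≤ (1 + (w : ℝ) + 3 * y) * (S.A j ^ i + 3 * S.B j ^ i) := by
      rw [eP j]; linarith
    have a2 := mul_le_mul_of_nonneg_left hAB (by positivity : (0 : ℝ) ≤ 1 + w + 3 * y)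
    linarith
  have p2 : 1 * S.u j2 ^ (i * j2) ≤ S.P0 i j2 := by
    have := eP j2
    linarith
  have q1 : S.Qz i j ≤ ((1 + (w : ℝ)) * g * Q) * S.u j2 ^ (i * j) := by
    have a1 : 4 * S.Qz i j ≤ (1 + (w : ℝ)) * (S.A j ^ i + 3 * S.B j ^ i) := by
      rw [eQ j]; linarith
    have a2 := mul_le_mul_of_nonneg_left hAB (by positivity : (0 : ℝ) ≤ 1 + w)
    linarith
  have q2 : (1 - (y2 : ℝ)) * S.u j2 ^ (i * j2) ≤ S.Qz i j2 := by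
    have a1 : (1 - (y2 : ℝ)) * (S.A j2 ^ i + 3 * S.B j2 ^ i) ≤ 4 * S.Qz i j2 := by
      rw [eQ j2]; linarith
    have a2 := mul_le_mul_of_nonneg_left hU2 (by linarith : (0 : ℝ) ≤ 1 - y2)
    linarith
  refine ⟨(S.topP0 hi).psi hj hjj ?_ hz1 hz1' hzz' hc1' hc2',
    (S.topQz hi).psi hj hjj ?_ hz1 hz1' hzz' hc1' hc2'⟩
  · exact SR2.cross nP0 hv zero_le_one hK p1 p2 (by simpa using hK1')
  · exact SR2.cross nQz hv (by linarith) hK q1 q2 hK2'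

/-- For `i1 ≤ i ≤ i2`: `SF i j s` (`Top.ratio`, `s ≤ 1`), so
`Za i j ≤ (1+s) (a j)^(i j) ≤ (1+s) Q (a j2)^(i j)` and `(a j2)^(i j2) = A j2 ^ i ≤ Za i j2`;
then `Top.psi` for `topZa'`. -/
theorem Range {i1 j2 : ℕ} {s q z : ℚ} (h1 : S.SF i1 j s) (h2 : LeQ (S.a j) q (S.a j2)) (i2 : ℕ)
    (Q K z' : ℚ) (hc : 1 ≤ i1 ∧ 1 ≤ j ∧ j < j2 ∧ 0 ≤ s ∧ s ≤ 1 ∧ 0 ≤ q ∧ 1 ≤ Q ∧ q ^ (i2 * j) ≤ Q ∧
      ((1 + s) * Q) ^ j2 ≤ K ∧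
      0 ≤ z ∧ 0 ≤ z' ∧ z ^ j2 ≤ z' ^ j ∧ K * (1 + z') ^ j < (1 + z) ^ j2 ∧ K < 2 ^ (j2 - j)) :
    ∀ i, i1 ≤ i → i ≤ i2 → S.TF i j z := by
  obtain ⟨hi1, hj, hjj, hs, hs1, hq, hQ, hqQ, hK1, hz, hz', hzz, hc1, hc2⟩ := hc
  intro i hi hi2
  have hi0 : 1 ≤ i := by omega
  have hj2 : 1 ≤ j2 := by omega
  have hs' : (0 : ℝ) ≤ s := by exact_mod_cast hs
  have hs1' : (s : ℝ) ≤ 1 := by exact_mod_cast hs1
  have hq' : (0 : ℝ) ≤ q := by exact_mod_cast hq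
  have hQ' : (1 : ℝ) ≤ Q := by exact_mod_cast hQ
  have hqQ' : (q : ℝ) ^ (i2 * j) ≤ Q := by exact_mod_cast hqQ
  have hK1' : ((1 + (s : ℝ)) * Q) ^ j2 ≤ K := by exact_mod_cast hK1
  have hz1 : (0 : ℝ) ≤ z := by exact_mod_cast hz
  have hz1' : (0 : ℝ) ≤ z' := by exact_mod_cast hz'
  have hzz' : (z : ℝ) ^ j2 ≤ z' ^ j := by exact_mod_cast hzz
  have hc1' : (K : ℝ) * (1 + z') ^ j < (1 + z) ^ j2 := by exact_mod_cast hc1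
  have hc2' : (K : ℝ) < 2 ^ (j2 - j) := by exact_mod_cast hc2
  have hK : (0 : ℝ) ≤ K := le_trans (by positivity) hK1'
  have hqi : (q : ℝ) ^ (i * j) ≤ Q := by
    rcases le_total (q : ℝ) 1 with h | h
    · exact le_trans (pow_le_one₀ hq' h) hQ'
    · exact le_trans (pow_le_pow_right₀ h (Nat.mul_le_mul_right j hi2)) hqQ'
  have hZ1 : S.Za i1 j ≤ (1 + (s : ℝ)) * S.A j ^ i1 := (S.SF_iff i1 j s).1 h1
  have hZ : S.Za i j ≤ (1 + (s : ℝ)) * S.A j ^ i :=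
    (S.topZa hj).ratio hi1 hi hZ1 hs' (pow_le_pow_of_le_one hs' hs1' hi)
  have ea : ∀ k, 1 ≤ k → S.a k ^ (i * k) = S.A k ^ i := by
    intro k hk
    rw [mul_comm, pow_mul, S.a_pow hk]
  have hv : 0 ≤ S.a j2 := h2.1
  have hV : 0 ≤ S.a j2 ^ (i * j) := pow_nonneg hv _
  have hUV : S.a j ^ (i * j) ≤ Q * S.a j2 ^ (i * j) := by
    calc S.a j ^ (i * j) ≤ (q * S.a j2) ^ (i * j) := pow_le_pow_left₀ (S.a_nonneg hj) h2.2 _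
      _ = (q : ℝ) ^ (i * j) * S.a j2 ^ (i * j) := mul_pow _ _ _
      _ ≤ _ := mul_le_mul_of_nonneg_right hqi hV
  have p1 : S.Za i j ≤ ((1 + (s : ℝ)) * Q) * S.a j2 ^ (i * j) := by
    calc S.Za i j ≤ (1 + (s : ℝ)) * S.a j ^ (i * j) := by rw [ea j hj]; exact hZ
      _ ≤ (1 + (s : ℝ)) * (Q * S.a j2 ^ (i * j)) :=
          mul_le_mul_of_nonneg_left hUV (by positivity)
      _ = _ := by ring
  have p2 : 1 * S.a j2 ^ (i * j2) ≤ S.Za i j2 := by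
    rw [one_mul, ea j2 hj2]
    exact (S.topZa hj2).pow_le hi0
  refine (S.topZa' hi0).psi hj hjj ?_ hz1 hz1' hzz' hc1' hc2'
  exact SR2.cross (S.pos i j hi0 hj).le hv zero_le_one hK p1 p2 (by simpa using hK1')

/-! dual form -/

theorem R6' {i2 : ℕ} {w y m q y2 z : ℚ} (h1 : S.TZ i j w) (h2 : S.TX i j y) (h3 : S.Nu i m)
    (h4 : LeQ (S.w i) q (S.w i2)) (h5 : S.TX i2 j y2) (M g Q K z' : ℚ)
    (hc : 1 ≤ j ∧ 1 ≤ i ∧ i < i2 ∧ 0 ≤ w ∧ 0 ≤ y ∧ 0 ≤ m ∧ m ^ j ≤ M ∧ 1 ≤ M ∧ 0 ≤ g ∧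
      (M + 3) ^ 4 ≤ 256 * M * g ^ 4 ∧ 0 ≤ q ∧ q ^ (j * i) ≤ Q ∧ 0 ≤ y2 ∧ y2 < 1 ∧
      ((1 + w + 3 * y) * g * Q) ^ i2 ≤ K ∧ ((1 + w) * g * Q) ^ i2 ≤ K * (1 - y2) ^ i ∧
      0 ≤ z ∧ 0 ≤ z' ∧ z ^ i2 ≤ z' ^ i ∧ K * (1 + z') ^ i < (1 + z) ^ i2 ∧ K < 2 ^ (i2 - i)) :
    S.SZ i j z := R6 (S := S.dual) h1 h2 h3 h4 h5 M g Q K z' hc

end Sys

end Crest.Agent.R347
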