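import Crest.Agent.R347.PS

/-!
# Row 347: basic facts on `Pow` and `Top`   (task R347/TopBasic)

Elementary real inequalities.  Do not change statements; add any helper lemmas you like.
-/

set_option autoImplicit false

namespace Crest.Agent.R347

variable {φ ψ : ℕ → ℝ} {X Y : ℝ}

theorem Pow.congr (h : Pow φ) (e : ∀ i, 1 ≤ i → φ i = ψ i) : Pow ψ := by
  refine ⟨fun i hi => e i hi ▸ h.1 i hi, fun i i' hi hii => ?_⟩
  rw [← e i hi, ← e i' (hi.trans hii)]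
  exact h.2 i i' hi hii

theorem Top.congr (h : Top φ X) (e : ∀ i, 1 ≤ i → φ i = ψ i) : Top ψ X := by
  refine ⟨h.nonneg, h.rest.congr fun i hi => by rw [e i hi], fun i hi => ?_⟩
  rw [← e i hi, ← e (i + 1) (by omega)]
  exact h.step i hi

theorem pow_geom (hX : 0 ≤ X) : Pow (fun i => X ^ i) := by
  refine ⟨fun i _ => pow_nonneg hX i, fun i i' _ _ => le_of_eq ?_⟩
  rw [← pow_mul, ← pow_mul, mul_comm]

/-- With `k = i'/i ≥ 1` (real): `φ i' ≤ (φ i)^k`, `ψ i' ≤ (ψ i)^k` and `a^k + b^k ≤ (a+b)^k`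
(`Real.add_rpow_le_rpow_add`). -/
theorem Pow.add (h : Pow φ) (h' : Pow ψ) : Pow (fun i => φ i + ψ i) := by
  refine ⟨fun i hi => add_nonneg (h.1 i hi) (h'.1 i hi), fun i i' hi hii => ?_⟩
  have hi0 : (0 : ℝ) < i := by exact_mod_cast hi
  have e : ∀ a : ℝ, 0 ≤ a → (a ^ ((i' : ℝ) / i)) ^ i = a ^ i' := fun a ha => by
    rw [← Real.rpow_natCast, ← Real.rpow_mul ha, div_mul_cancel₀ _ hi0.ne', Real.rpow_natCast]
  have key : ∀ {f : ℕ → ℝ}, Pow f → f i' ≤ f i ^ ((i' : ℝ) / i) := fun {f} hf => by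
    refine le_of_pow_le_pow_left₀ (n := i) (by omega) (Real.rpow_nonneg (hf.1 i hi) _) ?_
    rw [e _ (hf.1 i hi)]
    exact hf.2 i i' hi hii
  have hk : (1 : ℝ) ≤ (i' : ℝ) / i := by
    rw [le_div_iff₀ hi0, one_mul]
    exact_mod_cast hii
  have h1 := (add_le_add (key h) (key h')).trans
    (Real.add_rpow_le_rpow_add (h.1 i hi) (h'.1 i hi) hk)
  rw [← e _ (add_nonneg (h.1 i hi) (h'.1 i hi))]
  exact pow_le_pow_left₀ (add_nonneg (h.1 i' (hi.trans hii)) (h'.1 i' (hi.trans hii))) h1 i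

theorem Pow.smul (h : Pow φ) {c : ℝ} (hc : 1 ≤ c) : Pow (fun i => c * φ i) := by
  have hc0 : 0 ≤ c := zero_le_one.trans hc
  refine ⟨fun i hi => mul_nonneg hc0 (h.1 i hi), fun i i' hi hii => ?_⟩
  rw [mul_pow, mul_pow]
  exact mul_le_mul (pow_le_pow_right₀ hc hii) (h.2 i i' hi hii)
    (pow_nonneg (h.1 i' (hi.trans hii)) _) (pow_nonneg hc0 _)

/-- finite power sums (induction on the `Finset` with `Pow.add`, `pow_geom`) -/
theorem pow_sum {ι : Type*} (s : Finset ι) (x : ι → ℝ) (hx : ∀ k ∈ s, 0 ≤ x k) :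
    Pow (fun i => ∑ k ∈ s, x k ^ i) := by
  classical
  induction s using Finset.induction_on with
  | empty => exact (pow_geom le_rfl).congr fun i hi => by simp [show i ≠ 0 by omega]
  | insert k s hk ih =>
    simp only [Finset.sum_insert hk]
    exact (pow_geom (hx k (Finset.mem_insert_self _ _))).add
      (ih fun k' hk' => hx k' (Finset.mem_insert_of_mem hk'))

theorem top_sum {ι : Type*} [Fintype ι] (x : ι → ℝ) (hx : ∀ k, 0 ≤ x k) (k0 : ι)
    (h0 : ∀ k, x k ≤ x k0) : Top (fun j => ∑ k, x k ^ j) (x k0) := by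
  classical
  refine ⟨hx k0, (pow_sum (Finset.univ.erase k0) x fun k _ => hx k).congr fun i _ => ?_,
    fun i _ => ?_⟩
  · rw [← Finset.add_sum_erase _ _ (Finset.mem_univ k0), add_sub_cancel_left]
  · rw [Finset.mul_sum]
    refine Finset.sum_le_sum fun k _ => ?_
    rw [pow_succ']
    exact mul_le_mul_of_nonneg_right (h0 k) (pow_nonneg (hx k) i)

/-- (for an empty index type take `X = 0`) -/
theorem FinP.top (h : FinP φ) : ∃ X, Top φ X := by
  obtain ⟨ι, _, x, hx, e⟩ := h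
  rcases isEmpty_or_nonempty ι with hι | hι
  · have e0 : ∀ j, 1 ≤ j → φ j = 0 := fun j hj => by rw [e j hj]; simp
    refine ⟨0, le_rfl, (pow_geom le_rfl).congr fun i hi => ?_, fun i hi => ?_⟩
    · rw [e0 i hi]
      simp [show i ≠ 0 by omega]
    · rw [e0 (i + 1) (by omega), zero_mul]
  · obtain ⟨k0, hk0⟩ := Finite.exists_max x
    exact ⟨x k0, (top_sum x hx k0 hk0).congr fun i hi => (e i hi).symm⟩

theorem Top.pow_le (h : Top φ X) {i : ℕ} (hi : 1 ≤ i) : X ^ i ≤ φ i := by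
  exact sub_nonneg.1 (h.rest.1 i hi)

theorem Top.toPow (h : Top φ X) : Pow φ := by
  exact (h.rest.add (pow_geom h.nonneg)).congr fun i _ => sub_add_cancel _ _

theorem Top.growth (h : Top φ X) {i i' : ℕ} (hi : 1 ≤ i) (hii : i ≤ i') :
    φ i' ≤ X ^ (i' - i) * φ i := by
  induction i', hii using Nat.le_induction with
  | base => simp
  | succ j hj ih =>
    rw [show j + 1 - i = j - i + 1 by omega, pow_succ', mul_assoc]
    exact (h.step j (hi.trans hj)).trans (mul_le_mul_of_nonneg_left ih h.nonneg)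

/-- if `Y > X` then `(Y/X)^i` would be bounded (treat `X = 0` with `i = 2`) -/
theorem le_of_growth {K : ℝ} (hX : 0 ≤ X) (h : ∀ i, 1 ≤ i → Y ^ i ≤ K * X ^ (i - 1)) : Y ≤ X := by
  by_contra hYX
  have hYX' : X < Y := not_le.1 hYX
  have hY : 0 < Y := hX.trans_lt hYX'
  have ht := (tendsto_pow_atTop_nhds_zero_of_lt_one (div_nonneg hX hY.le)
    ((div_lt_one hY).2 hYX')).const_mul K
  rw [mul_zero] at ht
  refine absurd (ge_of_tendsto' ht fun j => ?_) (not_le.2 hY)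
  have := h (j + 1) (by omega)
  rw [Nat.add_sub_cancel, pow_succ'] at this
  rw [div_pow, mul_div_assoc', le_div_iff₀ (pow_pos hY j)]
  exact this

theorem Top.le_of (h : Top φ X) {c : ℝ} (hc : 0 ≤ c) (hY : ∀ i, 1 ≤ i → Y ^ i ≤ c * φ i) :
    Y ≤ X := by
  refine le_of_growth (K := c * φ 1) h.nonneg fun i hi => (hY i hi).trans ?_
  rw [mul_assoc, mul_comm (φ 1)]
  exact mul_le_mul_of_nonneg_left (h.growth le_rfl hi) hc

theorem Top.unique (h : Top φ X) (h' : Top φ Y) : X = Y := by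
  exact le_antisymm (h'.le_of zero_le_one fun i hi => by rw [one_mul]; exact h.pow_le hi)
    (h.le_of zero_le_one fun i hi => by rw [one_mul]; exact h'.pow_le hi)

theorem Top.mono (h : Top φ X) (h' : Top ψ Y) (hle : ∀ i, 1 ≤ i → φ i ≤ ψ i) : X ≤ Y := by
  exact h'.le_of zero_le_one fun i hi => by rw [one_mul]; exact (h.pow_le hi).trans (hle i hi)

theorem Top.pos (h : Top φ X) (h2 : 0 < φ 2) : 0 < X := by
  refine lt_of_le_of_ne h.nonneg fun e => ?_
  have := h.step 1 le_rfl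
  rw [← e, zero_mul] at this
  exact absurd this (not_le.2 h2)

theorem Top.add (h : Top φ X) (h' : Top ψ Y) (hYX : Y ≤ X) {c : ℝ} (hc : 1 ≤ c) :
    Top (fun i => φ i + c * ψ i) X := by
  have hc0 : 0 ≤ c := zero_le_one.trans hc
  refine ⟨h.nonneg, (h.rest.add (h'.toPow.smul hc)).congr fun i _ => by ring, fun i hi => ?_⟩
  have h1 := h.step i hi
  have h2 := mul_le_mul_of_nonneg_left ((h'.step i hi).trans
    (mul_le_mul_of_nonneg_right hYX (h'.toPow.1 i hi))) hc0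
  linarith

theorem Pow.ratio (h : Pow φ) (hX : 0 ≤ X) {i i' : ℕ} (hi : 1 ≤ i) (hii : i ≤ i') {t t' : ℝ}
    (h1 : φ i ≤ t * X ^ i) (ht' : 0 ≤ t') (h2 : t ^ i' ≤ t' ^ i) : φ i' ≤ t' * X ^ i' := by
  refine le_of_pow_le_pow_left₀ (n := i) (by omega) (mul_nonneg ht' (pow_nonneg hX _)) ?_
  refine ((h.2 i i' hi hii).trans (pow_le_pow_left₀ (h.1 i hi) h1 i')).trans ?_
  rw [mul_pow, mul_pow, ← pow_mul, ← pow_mul, mul_comm i' i]
  exact mul_le_mul_of_nonneg_right h2 (pow_nonneg hX _)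

theorem Top.ratio (h : Top φ X) {i i' : ℕ} (hi : 1 ≤ i) (hii : i ≤ i') {t t' : ℝ}
    (h1 : φ i ≤ (1 + t) * X ^ i) (ht' : 0 ≤ t') (h2 : t ^ i' ≤ t' ^ i) :
    φ i' ≤ (1 + t') * X ^ i' := by
  have := h.rest.ratio h.nonneg hi hii (t := t) (by linarith) ht' h2
  linarith

/-- AM-GM for `a, b, b, b` -/
theorem amgm_lo {a b : ℝ} (ha : 0 ≤ a) (hb : 0 ≤ b) : 256 * (a * b ^ 3) ≤ (a + 3 * b) ^ 4 := by
  have e : (a + 3 * b) ^ 4 - 256 * (a * b ^ 3) = (a - b) ^ 2 * (a ^ 2 + 14 * a * b + 81 * b ^ 2) := by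
    ring
  have : 0 ≤ (a - b) ^ 2 * (a ^ 2 + 14 * a * b + 81 * b ^ 2) := by positivity
  linarith

/-- `t ↦ (t+3)^4 / t` increases on `[1, ∞)`; here `t = a / b ∈ [1, N]` (trivial if `b = 0`).
One way: `(N+3)^4 t - (t+3)^4 N = (N - t) * (stuff ≥ 0)` with
`stuff = N t (N^2 + N t + t^2 + 12 (N + t) + 54) - 81`. -/
theorem amgm_up {a b N : ℝ} (hb : 0 ≤ b) (hba : b ≤ a) (haN : a ≤ N * b) (hN : 1 ≤ N) :
    (a + 3 * b) ^ 4 * N ≤ (N + 3) ^ 4 * (a * b ^ 3) := by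
  have ha : 0 ≤ a := hb.trans hba
  have hN0 : 0 ≤ N := zero_le_one.trans hN
  have e : (N + 3) ^ 4 * (a * b ^ 3) - (a + 3 * b) ^ 4 * N = (N * b - a) *
      (N * a * (N ^ 2 * b ^ 2 + N * a * b + a ^ 2 + 12 * (N * b + a) * b + 54 * b ^ 2) -
        81 * b ^ 3) := by ring
  have h1 : b ≤ N * b := le_mul_of_one_le_left hb hN
  have h2 : b ≤ N * a := hba.trans (le_mul_of_one_le_left ha hN)
  have h3 : 81 * b ^ 2 ≤ N ^ 2 * b ^ 2 + N * a * b + a ^ 2 + 12 * (N * b + a) * b + 54 * b ^ 2 := by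
    have q1 : b ^ 2 ≤ (N * b) ^ 2 := pow_le_pow_left₀ hb h1 2
    have q2 : b * b ≤ N * a * b := mul_le_mul_of_nonneg_right h2 hb
    have q3 : b ^ 2 ≤ a ^ 2 := pow_le_pow_left₀ hb hba 2
    have q4 : (b + b) * b ≤ (N * b + a) * b := mul_le_mul_of_nonneg_right (add_le_add h1 hba) hb
    nlinarith
  have h4 := mul_le_mul h2 h3 (by positivity) (by positivity)
  have h5 : 0 ≤ (N * b - a) *
      (N * a * (N ^ 2 * b ^ 2 + N * a * b + a ^ 2 + 12 * (N * b + a) * b + 54 * b ^ 2) -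
        81 * b ^ 3) := mul_nonneg (by linarith) (by nlinarith)
  linarith

end Crest.Agent.R347
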