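import Crest.Agent.R347.Sector
import Crest.Agent.R347.TopBasic

/-!
# Row 347: from purity to the gap, from trial states to lower bounds   (task R347/Gap)

You may use `Sector`, `TopBasic` (other tasks).
-/

set_option autoImplicit false
set_option linter.unusedSectionVars false

namespace Crest.Agent.R347

open Crest.MathPhysics.SpinChain Matrix

variable {n : Type} [Fintype n] [DecidableEq n]

theorem gp_quad_conj (U D : Matrix n n ℂ) (ψ : n → ℂ) :
    star ψ ⬝ᵥ (U * D * star U) *ᵥ ψ = star (star U *ᵥ ψ) ⬝ᵥ D *ᵥ (star U *ᵥ ψ) := by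
  rw [← mulVec_mulVec, ← mulVec_mulVec, dotProduct_mulVec, star_mulVec, star_eq_conjTranspose,
    conjTranspose_conjTranspose]

theorem gp_quad_diag (d : n → ℝ) (a : n → ℂ) :
    (star a ⬝ᵥ (diagonal fun k => (d k : ℂ)) *ᵥ a).re = ∑ k, d k * Complex.normSq (a k) := by
  simp only [dotProduct, mulVec_diagonal, Complex.re_sum, Pi.star_apply]
  refine Finset.sum_congr rfl fun k _ => ?_
  simp [Complex.normSq_apply]
  ring

/-- expansion of a vector in the eigenbasis -/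
theorem gp_eig_expand {H : Matrix n n ℂ} (hH : H.IsHermitian) (ψ : n → ℂ) :
    ∃ w : n → ℝ, (∀ k, 0 ≤ w k) ∧ (star ψ ⬝ᵥ ψ).re = ∑ k, w k ∧
      (star ψ ⬝ᵥ H *ᵥ ψ).re = ∑ k, hH.eigenvalues k * w k ∧
      ∀ k, star (⇑(hH.eigenvectorBasis k) : n → ℂ) ⬝ᵥ ψ = 0 → w k = 0 := by
  set U : Matrix n n ℂ := (hH.eigenvectorUnitary : Matrix n n ℂ) with hU
  refine ⟨fun k => Complex.normSq ((star U *ᵥ ψ) k), fun k => Complex.normSq_nonneg _, ?_, ?_, ?_⟩
  · have h1 : U * (diagonal fun _ => ((1 : ℝ) : ℂ)) * star U = 1 := by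
      simp [hU]
    have h2 := gp_quad_conj U (diagonal fun _ => ((1 : ℝ) : ℂ)) ψ
    rw [h1, one_mulVec] at h2
    rw [h2, gp_quad_diag (fun _ => 1)]
    simp
  · have h1 : H = U * (diagonal fun k => (hH.eigenvalues k : ℂ)) * star U := by
      conv_lhs => rw [hH.spectral_theorem, Unitary.conjStarAlgAut_apply]
      rfl
    conv_lhs => rw [h1]
    rw [gp_quad_conj, gp_quad_diag]
  · intro k hk
    have : (star U *ᵥ ψ) k = star (⇑(hH.eigenvectorBasis k) : n → ℂ) ⬝ᵥ ψ := rfl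
    simp only [this, hk, map_zero]

theorem gp_re_self_pos {ψ : n → ℂ} (h : ψ ≠ 0) : 0 < (star ψ ⬝ᵥ ψ).re := by
  have h1 : (star ψ ⬝ᵥ ψ).re = ∑ k, Complex.normSq (ψ k) := by
    simp [dotProduct, Complex.normSq_apply]
  obtain ⟨k, hk⟩ := Function.ne_iff.1 h
  rw [h1]
  exact Finset.sum_pos' (fun i _ => Complex.normSq_nonneg _)
    ⟨k, Finset.mem_univ _, Complex.normSq_pos.2 hk⟩

theorem gap_of_eigenvalues {H : Matrix n n ℂ} (hH : H.IsHermitian) {k0 : n} {γ : ℝ}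
    (h : ∀ k, k ≠ k0 → hH.eigenvalues k0 + γ < hH.eigenvalues k) :
    HasSimpleGroundStateWithGap H γ := by
  refine ⟨hH.eigenvalues k0, ⇑(hH.eigenvectorBasis k0), ?_, ?_, fun ψ hψ h0 => ?_⟩
  · intro e
    have h1 := hH.star_eigenvectorUnitary_mulVec k0
    rw [e, mulVec_zero] at h1
    have := congrFun h1 k0
    simp at this
  · rw [hH.mulVec_eigenvectorBasis]
    rfl
  · obtain ⟨w, hw, h1, h2, h3⟩ := gp_eig_expand hH ψ
    have hpos := gp_re_self_pos hψ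
    rw [h1] at hpos
    rw [h1, h2, Finset.mul_sum]
    have h4 := h3 k0 h0
    obtain ⟨k, -, hk⟩ := Finset.exists_ne_zero_of_sum_ne_zero hpos.ne'
    refine Finset.sum_lt_sum (fun i _ => ?_) ⟨k, Finset.mem_univ _, ?_⟩
    · by_cases hi : i = k0
      · simp [hi, h4]
      · exact mul_le_mul_of_nonneg_right (h i hi).le (hw i)
    · exact mul_lt_mul_of_pos_right (h k fun e => hk (e ▸ h4)) (lt_of_le_of_ne (hw k) hk.symm)

/-- Let `λ k = κ exp (-(E k + c)/2)` (`boltz_trace`: `φ j = ∑ λ k ^ j`), `k0` minimise `E`.  `top_sum` and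
`Top.unique` give `X = λ k0`, so `λ k ^ J ≤ t X^J` and `E k - E k0 ≥ -(2/J) log t > γ` for `k ≠ k0`.
Take `ψ₀` the eigenvector `k0` and expand `ψ ⟂ ψ₀` in the eigenbasis. -/
theorem gap_of_top [Nonempty n] {H : Matrix n n ℂ} (hH : H.IsHermitian) (c : ℝ) {κ X : ℝ}
    (hκ : 0 < κ) (hX : Top (fun j => κ ^ j * (boltz H c ((j : ℝ) / 2)).trace.re) X) {J : ℕ}
    {t γ : ℝ} (hJ : 1 ≤ J) (ht : 0 < t)
    (h : κ ^ J * (boltz H c ((J : ℝ) / 2)).trace.re ≤ (1 + t) * X ^ J)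
    (hγ : γ < -(2 / (J : ℝ)) * Real.log t) : HasSimpleGroundStateWithGap H γ := by
  set x : n → ℝ := fun k => κ * Real.exp (-(hH.eigenvalues k + c) / 2) with hx
  have hxpos : ∀ k, 0 < x k := fun k => mul_pos hκ (Real.exp_pos _)
  have hφ : ∀ j : ℕ, κ ^ j * (boltz H c ((j : ℝ) / 2)).trace.re = ∑ k, x k ^ j := by
    intro j
    rw [boltz_trace hH, Finset.mul_sum]
    refine Finset.sum_congr rfl fun k _ => ?_
    simp only [hx]
    rw [mul_pow, ← Real.exp_nat_mul]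
    congr 2
    ring
  obtain ⟨k0, -, hk0⟩ := Finset.exists_max_image Finset.univ x Finset.univ_nonempty
  have htop := top_sum x (fun k => (hxpos k).le) k0 fun k => hk0 k (Finset.mem_univ _)
  have hXe : X = x k0 := (hX.congr fun i _ => hφ i).unique htop
  refine gap_of_eigenvalues hH (k0 := k0) fun k hk => ?_
  rw [hφ, hXe] at h
  have h1 : x k ^ J + x k0 ^ J ≤ ∑ i, x i ^ J := by
    rw [← Finset.sum_pair (f := fun i => x i ^ J) hk]
    exact Finset.sum_le_sum_of_subset_of_nonneg (Finset.subset_univ _)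
      fun i _ _ => (pow_pos (hxpos i) J).le
  have h2 : x k ^ J ≤ t * x k0 ^ J := by linarith
  have h3 := Real.log_le_log (pow_pos (hxpos k) J) h2
  rw [Real.log_mul ht.ne' (pow_pos (hxpos k0) J).ne', Real.log_pow, Real.log_pow] at h3
  simp only [hx] at h3
  rw [Real.log_mul hκ.ne' (Real.exp_pos _).ne', Real.log_mul hκ.ne' (Real.exp_pos _).ne',
    Real.log_exp, Real.log_exp] at h3
  have hJ' : (0 : ℝ) < J := by exact_mod_cast hJ
  have h4 : -(2 / (J : ℝ)) * Real.log t ≤ hH.eigenvalues k - hH.eigenvalues k0 := by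
    rw [neg_mul, div_mul_eq_mul_div, ← neg_div, div_le_iff₀ hJ']
    linarith
  linarith

theorem gap_mono {H : Matrix n n ℂ} {γ γ' : ℝ} (h : HasSimpleGroundStateWithGap H γ)
    (hγ : γ' ≤ γ) : HasSimpleGroundStateWithGap H γ' := by
  obtain ⟨E, ψ₀, h0, h1, h2⟩ := h
  refine ⟨E, ψ₀, h0, h1, fun ψ hψ ho => lt_of_le_of_lt ?_ (h2 ψ hψ ho)⟩
  exact mul_le_mul_of_nonneg_right (by linarith) (gp_re_self_pos hψ).le

/-- some eigenvalue is `≤ E` -/
theorem trace_ge_of_energy {H : Matrix n n ℂ} (hH : H.IsHermitian) (c : ℝ) (ψ : n → ℂ)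
    (hψ : 0 < (star ψ ⬝ᵥ ψ).re) {E : ℝ} (hE : (star ψ ⬝ᵥ H *ᵥ ψ).re ≤ E * (star ψ ⬝ᵥ ψ).re)
    {β : ℝ} (hβ : 0 ≤ β) : Real.exp (-β * (E + c)) ≤ (boltz H c β).trace.re := by
  obtain ⟨w, hw, h1, h2, -⟩ := gp_eig_expand hH ψ
  have hex : ∃ k, hH.eigenvalues k ≤ E := by
    by_contra hc
    push Not at hc
    rw [h1] at hψ
    rw [h1, h2, Finset.mul_sum] at hE
    obtain ⟨k, -, hk⟩ := Finset.exists_ne_zero_of_sum_ne_zero hψ.ne'
    refine absurd hE (not_le.2 (Finset.sum_lt_sum (fun i _ => ?_) ⟨k, Finset.mem_univ _, ?_⟩))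
    · exact mul_le_mul_of_nonneg_right (hc i).le (hw i)
    · exact mul_lt_mul_of_pos_right (hc k) (lt_of_le_of_ne (hw k) hk.symm)
  obtain ⟨k, hk⟩ := hex
  rw [boltz_trace hH]
  refine le_trans ?_ (Finset.single_le_sum (f := fun k => Real.exp (-β * (hH.eigenvalues k + c)))
    (fun i _ => (Real.exp_pos _).le) (Finset.mem_univ k))
  rw [Real.exp_le_exp]
  nlinarith

theorem log_gap3 {J : ℕ} {t : ℝ} (hJ : 1 ≤ J) (ht : 0 < t) (h : t ^ 784 * 10 ^ J < 1) :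
    Real.log 10 / 392 < -(2 / (J : ℝ)) * Real.log t := by
  have hJ' : (0 : ℝ) < J := by exact_mod_cast hJ
  have h1 := Real.log_neg (by positivity) h
  rw [Real.log_mul (by positivity) (by positivity), Real.log_pow, Real.log_pow] at h1
  rw [neg_mul, div_mul_eq_mul_div, ← neg_div, lt_div_iff₀ hJ']
  push_cast at h1
  linarith

theorem log_gap1 {J : ℕ} {t : ℝ} (hJ : 1 ≤ J) (ht : 0 < t) (h : t ^ 105 < (79 / 80) ^ (2 * J)) :
    4 / 105 * Real.log (80 / 79) < -(2 / (J : ℝ)) * Real.log t := by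
  have hJ' : (0 : ℝ) < J := by exact_mod_cast hJ
  have h1 := Real.log_lt_log (by positivity) h
  have h2 : Real.log (79 / 80) = -Real.log (80 / 79) := by
    rw [← Real.log_inv]
    norm_num
  rw [Real.log_pow, Real.log_pow, h2] at h1
  rw [neg_mul, div_mul_eq_mul_div 2, ← neg_div, lt_div_iff₀ hJ']
  push_cast at h1
  linarith

theorem gap2_le_gap3 : Real.log 20 / 784 ≤ Real.log 10 / 392 := by
  have h1 : Real.log 20 ≤ Real.log (10 ^ 2) := Real.log_le_log (by norm_num) (by norm_num)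
  rw [Real.log_pow] at h1
  push_cast at h1
  linarith

theorem gap1_le_gap3 : 4 / 105 * Real.log (80 / 79) ≤ Real.log 10 / 392 := by
  have h1 := Real.log_le_sub_one_of_pos (x := 80 / 79) (by norm_num)
  have h2 := Real.one_sub_inv_le_log_of_pos (x := 10) (by norm_num)
  linarith

/-- rational upper bound for `exp x`, `0 ≤ x ≤ 8` -/
def expUp (x : ℚ) : ℚ :=
  ((∑ k ∈ Finset.range 12, (x / 8) ^ k / (k.factorial : ℚ)) +
    (x / 8) ^ 12 * 13 / ((Nat.factorial 12 : ℚ) * 12)) ^ 8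

/-- `Real.exp_bound'` at `x / 8` -/
theorem exp_le_expUp {x : ℚ} (h0 : 0 ≤ x) (h8 : x ≤ 8) : Real.exp x ≤ (expUp x : ℝ) := by
  have h0' : (0 : ℝ) ≤ x := by exact_mod_cast h0
  have h8' : (x : ℝ) ≤ 8 := by exact_mod_cast h8
  have h1 := Real.exp_bound' (x := (x : ℝ) / 8) (by linarith) (by linarith) (n := 12) (by norm_num)
  have h2 : Real.exp x = Real.exp ((x : ℝ) / 8) ^ 8 := by
    rw [← Real.exp_nat_mul]
    congr 1
    push_cast
    ring
  rw [h2, expUp]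
  push_cast
  refine pow_le_pow_left₀ (Real.exp_pos _).le (h1.trans_eq ?_) 8
  norm_num

/-- a trial state gives `c^j ≤` partition function -/
theorem var_bound {H : Matrix n n ℂ} (hH : H.IsHermitian) (ψ : n → ℂ)
    (hψ : 0 < (star ψ ⬝ᵥ ψ).re) {E sh κ c : ℚ}
    (hE : (star ψ ⬝ᵥ H *ᵥ ψ).re ≤ (E : ℝ) * (star ψ ⬝ᵥ ψ).re)
    (hc : 0 ≤ c ∧ 0 ≤ (E + sh) / 2 ∧ (E + sh) / 2 ≤ 8 ∧ c * expUp ((E + sh) / 2) ≤ κ) (j : ℕ) :
    (c : ℝ) ^ j ≤ (κ : ℝ) ^ j * (boltz H sh ((j : ℝ) / 2)).trace.re := by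
  obtain ⟨hc0, h0, h8, hk⟩ := hc
  have h1 := trace_ge_of_energy hH sh ψ hψ hE (β := (j : ℝ) / 2) (by positivity)
  have h2 := exp_le_expUp h0 h8
  have hc0' : (0 : ℝ) ≤ c := by exact_mod_cast hc0
  have hk' : (c : ℝ) * (expUp ((E + sh) / 2) : ℝ) ≤ κ := by exact_mod_cast hk
  have h3 : (c : ℝ) * Real.exp (((E : ℝ) + sh) / 2) ≤ κ := by
    refine le_trans (mul_le_mul_of_nonneg_left ?_ hc0') hk'
    simpa using h2
  have hκ : (0 : ℝ) ≤ κ := le_trans (by positivity) h3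
  have h4 : (c : ℝ) ≤ κ * Real.exp (-(((E : ℝ) + sh) / 2)) := by
    rw [Real.exp_neg, ← div_eq_mul_inv, le_div_iff₀ (Real.exp_pos _)]
    exact h3
  refine (pow_le_pow_left₀ hc0' h4 j).trans ?_
  rw [mul_pow, ← Real.exp_nat_mul]
  refine mul_le_mul_of_nonneg_left (le_trans (le_of_eq ?_) h1) (pow_nonneg hκ j)
  congr 1
  ring

end Crest.Agent.R347
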