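import Crest.Agent.R347.TopBasic

/-!
# Row 347: purity, tail and lower bounds for `Top`   (task R347/TopPsi)

You may use everything in `TopBasic.lean` (proved in another task).
-/

set_option autoImplicit false

namespace Crest.Agent.R347

variable {φ : ℕ → ℝ} {X : ℝ}

theorem pos_of_mul_pos_of_pos {a b : ℝ} (h : 0 < a * b) (hb : 0 < b) : 0 < a := by
  by_contra hc
  push Not at hc
  nlinarith

theorem psi_conv {a b s k : ℝ} (hk : 1 ≤ k) (ha : 0 ≤ a) (has : a ≤ s) (hsb : s ≤ b) :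
    s ^ k + (a + b - s) ^ k ≤ a ^ k + b ^ k := by
  have hb : 0 ≤ b := by linarith
  rcases (has.trans hsb).eq_or_lt with hab | hab
  · have : s = a := le_antisymm (hab ▸ hsb) has
    rw [this, add_sub_cancel_left, ← hab]
  · have hd : 0 < b - a := by linarith
    set θ := (b - s) / (b - a) with hθ
    have h0 : 0 ≤ θ := div_nonneg (by linarith) hd.le
    have h1 : 0 ≤ 1 - θ := by rw [sub_nonneg, hθ, div_le_one hd]; linarith
    have e : θ * (b - a) = b - s := div_mul_cancel₀ _ hd.ne'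
    have c1 := (convexOn_rpow hk).2 (Set.mem_Ici.2 ha) (Set.mem_Ici.2 hb) h0 h1 (by ring)
    have c2 := (convexOn_rpow hk).2 (Set.mem_Ici.2 ha) (Set.mem_Ici.2 hb) h1 h0 (by ring)
    simp only [smul_eq_mul] at c1 c2
    rw [show θ * a + (1 - θ) * b = s by linarith] at c1
    rw [show (1 - θ) * a + θ * b = a + b - s by linarith] at c2
    linarith

theorem psi_rpow_pow {x : ℝ} (hx : 0 ≤ x) {i j : ℕ} (hi : 1 ≤ i) :
    (x ^ ((j : ℝ) / i)) ^ i = x ^ j := by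
  have : (i : ℝ) ≠ 0 := by positivity
  rw [← Real.rpow_natCast, ← Real.rpow_mul hx, div_mul_cancel₀ _ this, Real.rpow_natCast]

theorem psi_pow_rpow {x : ℝ} (hx : 0 ≤ x) {i j : ℕ} (hi : 1 ≤ i) :
    (x ^ i) ^ ((j : ℝ) / i) = x ^ j := by
  have : (i : ℝ) ≠ 0 := by positivity
  rw [← Real.rpow_natCast, ← Real.rpow_mul hx, mul_div_cancel₀ _ this, Real.rpow_natCast]

theorem psi_one_le {i j : ℕ} (hi : 1 ≤ i) (hij : i ≤ j) : (1 : ℝ) ≤ (j : ℝ) / i := by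
  have : (0 : ℝ) < i := by positivity
  rw [one_le_div this]
  exact_mod_cast hij

theorem psi_mono {z t k : ℝ} (hk : 1 ≤ k) (hz : 0 ≤ z) (hzt : z ≤ t) (ht : t ≤ 1) :
    (1 + z) ^ k * (1 + t ^ k) ≤ (1 + t) ^ k * (1 + z ^ k) := by
  have ht0 : 0 ≤ t := hz.trans hzt
  have := psi_conv (a := z * (1 + t)) (b := 1 + t) (s := 1 + z) hk (by positivity)
    (by nlinarith) (by linarith)
  rw [show z * (1 + t) + (1 + t) - (1 + z) = t * (1 + z) by ring,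
    Real.mul_rpow ht0 (by positivity), Real.mul_rpow hz (by positivity)] at this
  linarith

/-- Recipe. If `X = 0` then `φ j2 = 0` (growth), so `φ j1 = 0`.  Else put `φ j1 = (1+t) X^j1`,
`t ≥ 0`, and note `K > 0`.  Growth gives `(1+t)^j2 ≤ K (1+t)^j1`, so `t < 1` by `hK2`.  `h.rest` gives
`φ j2 ≤ (1 + t^k) X^j2` with the real `k = j2/j1 ≥ 1`, so `(1+t)^j2 ≤ K (1+t^k)^j1`.  The function
`s ↦ k log(1+s) - log(1+s^k)` is monotone on `[0,1]` (derivative `≥ 0` iff `s^(k-1) ≤ 1`), so `t > z`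
would give `(1+z)^j2 ≤ K (1+z^k)^j1 ≤ K (1+z')^j1`, contradicting `hc`. -/
theorem Top.psi (h : Top φ X) {j1 j2 : ℕ} (h1 : 1 ≤ j1) (h12 : j1 < j2) {K z z' : ℝ}
    (hK : φ j1 ^ j2 ≤ K * φ j2 ^ j1) (hz : 0 ≤ z) (hz' : 0 ≤ z') (hzz : z ^ j2 ≤ z' ^ j1)
    (hc : K * (1 + z') ^ j1 < (1 + z) ^ j2) (hK2 : K < 2 ^ (j2 - j1)) :
    φ j1 ≤ (1 + z) * X ^ j1 := by
  have h2 : 1 ≤ j2 := by omega
  have hg := h.growth h1 h12.le
  have p1 := h.pow_le h1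
  have p2 := h.pow_le h2
  rcases h.nonneg.eq_or_lt with hX | hX
  · subst hX
    rw [zero_pow (by omega), zero_mul] at hg
    rw [zero_pow (by omega)] at p1 p2 ⊢
    rw [le_antisymm hg p2, zero_pow (by omega), mul_zero] at hK
    have : φ j1 ^ j2 = 0 := le_antisymm hK (pow_nonneg p1 _)
    rw [pow_eq_zero_iff (by omega)] at this
    rw [this, mul_zero]
  have hX1 : 0 < X ^ j1 := pow_pos hX _
  have hX2 : 0 < X ^ j2 := pow_pos hX _
  obtain ⟨t, ht⟩ : ∃ t, φ j1 = (1 + t) * X ^ j1 :=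
    ⟨φ j1 / X ^ j1 - 1, by field_simp; ring⟩
  have ht0 : 0 ≤ t := by
    rw [ht] at p1
    nlinarith
  by_contra hcon
  have hzt : z < t := by
    rw [ht, not_le] at hcon
    linarith [lt_of_mul_lt_mul_right hcon hX1.le]
  have hφ2 : 0 < φ j2 := hX2.trans_le p2
  have hK0 : 0 < K := by
    have a1 : 0 < φ j1 ^ j2 := pow_pos (hX1.trans_le p1) _
    exact pos_of_mul_pos_of_pos (a1.trans_le hK) (pow_pos hφ2 _)
  have key : ∀ u : ℝ, φ j2 ≤ (1 + u) * X ^ j2 → (1 + t) ^ j2 ≤ K * (1 + u) ^ j1 := by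
    intro u hu
    have a1 : φ j2 ^ j1 ≤ ((1 + u) * X ^ j2) ^ j1 := pow_le_pow_left₀ hφ2.le hu _
    have a2 := hK.trans (mul_le_mul_of_nonneg_left a1 hK0.le)
    rw [ht, mul_pow, mul_pow, ← pow_mul, ← pow_mul, mul_comm j2 j1, ← mul_assoc] at a2
    exact le_of_mul_le_mul_right a2 (pow_pos hX _)
  have ht1 : t ≤ 1 := by
    have a1 := key t (by
      rw [ht, mul_left_comm, ← pow_add, Nat.sub_add_cancel h12.le] at hg
      exact hg)
    have a2 : (1 + t) ^ j2 = (1 + t) ^ (j2 - j1) * (1 + t) ^ j1 := by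
      rw [← pow_add, Nat.sub_add_cancel h12.le]
    rw [a2] at a1
    have a3 := (le_of_mul_le_mul_right a1 (by positivity)).trans_lt hK2
    have := lt_of_pow_lt_pow_left₀ _ (by norm_num) a3
    linarith
  set k : ℝ := (j2 : ℝ) / j1 with hk
  have a1 := key (t ^ k) (h.ratio h1 h12.le ht.le (by positivity) (psi_rpow_pow ht0 h1).ge)
  have hzk : z ^ k ≤ z' :=
    le_of_pow_le_pow_left₀ (n := j1) (by omega) hz' (by rwa [psi_rpow_pow hz h1])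
  have a2 : (1 + z) ^ k * (1 + t ^ k) ≤ (1 + t) ^ k * (1 + z') :=
    (psi_mono (psi_one_le h1 h12.le) hz hzt.le ht1).trans (by gcongr)
  have a3 := pow_le_pow_left₀ (by positivity) a2 j1
  rw [mul_pow, mul_pow, psi_rpow_pow (by positivity) h1, psi_rpow_pow (by positivity) h1] at a3
  have a4 : (1 + t) ^ j2 * (1 + z') ^ j1 ≤ K * (1 + z') ^ j1 * (1 + t ^ k) ^ j1 := by
    calc (1 + t) ^ j2 * (1 + z') ^ j1 ≤ K * (1 + t ^ k) ^ j1 * (1 + z') ^ j1 := by gcongr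
      _ = _ := by ring
  have a5 := le_of_mul_le_mul_right (a3.trans a4) (by positivity)
  linarith

/-- The case `j2 = 2 j1` directly: `(1+t)^2 ≤ K (1+t)` gives `t < 1`, `(1+t)^2 ≤ K (1+t^2)`, and
`(1+t)^2/(1+t^2)` increases on `[0,1]`. -/
theorem Top.psi2 (h : Top φ X) {j : ℕ} (h1 : 1 ≤ j) {K z : ℝ} (hK : φ j ^ 2 ≤ K * φ (2 * j))
    (hz : 0 ≤ z) (hc : K * (1 + z ^ 2) < (1 + z) ^ 2) (hK2 : K < 2) :
    φ j ≤ (1 + z) * X ^ j := by
  have hX := h.nonneg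
  have p2 : 0 ≤ φ (2 * j) := (pow_nonneg hX _).trans (h.pow_le (by omega))
  rcases lt_or_ge K 0 with hK0 | hK0
  · have a1 : φ j ^ 2 ≤ 0 := hK.trans (mul_nonpos_of_nonpos_of_nonneg hK0.le p2)
    have : φ j = 0 := by nlinarith [sq_nonneg (φ j)]
    rw [this]; positivity
  refine h.psi (j2 := 2 * j) (K := K ^ j) (z' := z ^ 2) h1 (by omega) ?_ hz (by positivity)
    (by rw [← pow_mul]) ?_ ?_
  · rw [pow_mul, ← mul_pow]
    exact pow_le_pow_left₀ (by positivity) hK _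
  · rw [pow_mul, ← mul_pow]
    exact pow_lt_pow_left₀ hc (by positivity) (by omega)
  · rw [show 2 * j - j = j by omega]
    exact pow_lt_pow_left₀ hK2 hK0 (by omega)

/-- Recipe. `Y = X^i0 ≤ y = r^i0`, `k = i/i0` real.  If `m - y ≤ Y`:
`φ i ≤ Y^k + (m-Y)^k ≤ y^k + (m-y)^k` (convexity of `s ↦ s^k + (m-s)^k`, symmetric, on `[m-y, y]`).
If `Y ≤ m - y`: `φ i ≤ X^(i-i0) m ≤ (m-y)^(k-1) m = (m-y)^k + y (m-y)^(k-1) ≤ (m-y)^k + y^k`. -/
theorem Top.tail (h : Top φ X) {i0 i : ℕ} (h0 : 1 ≤ i0) (hi : i0 ≤ i) {r m e : ℝ} (hr : X ≤ r)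
    (hm : φ i0 ≤ m) (h1 : r ^ i0 ≤ m) (h2 : m ≤ 2 * r ^ i0) (he : 0 ≤ e)
    (h3 : (m - r ^ i0) ^ i ≤ e ^ i0) : φ i ≤ r ^ i + e := by
  have hX := h.nonneg
  have hr0 : 0 ≤ r := hX.trans hr
  have hmy : 0 ≤ m - r ^ i0 := by linarith
  have hYy : X ^ i0 ≤ r ^ i0 := pow_le_pow_left₀ hX hr _
  rcases le_total (m - r ^ i0) (X ^ i0) with hc | hc
  · set k : ℝ := (i : ℝ) / i0 with hk
    have a1 := psi_conv (psi_one_le h0 hi) hmy hc hYy
    rw [psi_pow_rpow hX h0, psi_pow_rpow hr0 h0, sub_add_cancel] at a1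
    have a2 : (m - r ^ i0) ^ k ≤ e :=
      le_of_pow_le_pow_left₀ (n := i0) (by omega) he (by rwa [psi_rpow_pow hmy h0])
    have b0 : 0 ≤ φ i0 - X ^ i0 := h.rest.1 i0 h0
    have b1 : (φ i - X ^ i) ^ i0 ≤ (φ i0 - X ^ i0) ^ i := h.rest.2 i0 i h0 hi
    have b2 : 0 ≤ m - X ^ i0 := by linarith
    have a3 : φ i - X ^ i ≤ (m - X ^ i0) ^ k := by
      refine le_of_pow_le_pow_left₀ (n := i0) (by omega) (by positivity) ?_
      rw [psi_rpow_pow b2 h0]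
      exact b1.trans (pow_le_pow_left₀ b0 (by linarith) _)
    linarith
  · obtain ⟨w, hw0, hw⟩ : ∃ w : ℝ, 0 ≤ w ∧ w ^ i0 = m - r ^ i0 :=
      ⟨(m - r ^ i0) ^ (((1 : ℕ) : ℝ) / i0), by positivity, by rw [psi_rpow_pow hmy h0, pow_one]⟩
    have hXw : X ≤ w := le_of_pow_le_pow_left₀ (n := i0) (by omega) hw0 (by rwa [hw])
    have hwr : w ≤ r := le_of_pow_le_pow_left₀ (n := i0) (by omega) hr0 (by rw [hw]; linarith)
    have hwe : w ^ i ≤ e := by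
      refine le_of_pow_le_pow_left₀ (n := i0) (by omega) he ?_
      rwa [← pow_mul, mul_comm, pow_mul, hw]
    have hm0 : 0 ≤ m := (pow_nonneg hr0 _).trans h1
    have e1 : ∀ v : ℝ, v ^ i = v ^ (i - i0) * v ^ i0 := fun v => by
      rw [← pow_add, Nat.sub_add_cancel hi]
    calc φ i ≤ X ^ (i - i0) * φ i0 := h.growth h0 hi
      _ ≤ w ^ (i - i0) * m := by
        refine (mul_le_mul_of_nonneg_left hm (pow_nonneg hX _)).trans ?_
        gcongr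
      _ = w ^ (i - i0) * r ^ i0 + w ^ i := by rw [e1 w, hw]; ring
      _ ≤ r ^ (i - i0) * r ^ i0 + e := by gcongr
      _ = _ := by rw [← e1]

/-- `(φ i - X^i)^i0 ≤ (φ i0 - X^i0)^i ≤ (m - a^i0)^i ≤ e^i0` -/
theorem Top.tail_lo (h : Top φ X) {i0 i : ℕ} (h0 : 1 ≤ i0) (hi : i0 ≤ i) {a r m e : ℝ}
    (ha0 : 0 ≤ a) (ha : a ≤ X) (hr : X ≤ r) (hm : φ i0 ≤ m) (he : 0 ≤ e)
    (h3 : (m - a ^ i0) ^ i ≤ e ^ i0) : φ i ≤ r ^ i + e := by
  have b0 : 0 ≤ φ i0 - X ^ i0 := h.rest.1 i0 h0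
  have b1 : (φ i - X ^ i) ^ i0 ≤ (φ i0 - X ^ i0) ^ i := h.rest.2 i0 i h0 hi
  have b2 : a ^ i0 ≤ X ^ i0 := pow_le_pow_left₀ ha0 ha _
  have b3 : X ^ i ≤ r ^ i := pow_le_pow_left₀ h.nonneg hr _
  have b4 : φ i - X ^ i ≤ e := le_of_pow_le_pow_left₀ (n := i0) (by omega) he
    (b1.trans ((pow_le_pow_left₀ b0 (by linarith) _).trans h3))
  linarith

/-- growth gives `x0 ≤ X`; then `tail_lo` with `r = X` gives `Y ≤ X^i + e` -/
theorem Top.lower (h : Top φ X) {i0 i : ℕ} (h0 : 1 ≤ i0) (hi : i0 < i) {m Y x0 e a : ℝ}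
    (hm : φ i0 ≤ m) (hY : Y ≤ φ i) (hm0 : 0 < m) (hx0 : 0 ≤ x0) (h1 : x0 ^ (i - i0) * m ≤ Y)
    (he : 0 ≤ e) (h2 : (m - x0 ^ i0) ^ i ≤ e ^ i0) (h3 : a ^ i ≤ Y - e) : a ≤ X := by
  have hX := h.nonneg
  have a1 : x0 ^ (i - i0) * m ≤ X ^ (i - i0) * m :=
    h1.trans (hY.trans ((h.growth h0 hi.le).trans
      (mul_le_mul_of_nonneg_left hm (pow_nonneg hX _))))
  have a2 : x0 ≤ X :=
    le_of_pow_le_pow_left₀ (n := i - i0) (by omega) hX (le_of_mul_le_mul_right a1 hm0)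
  have a3 := h.tail_lo h0 hi.le hx0 a2 le_rfl hm he h2
  exact le_of_pow_le_pow_left₀ (n := i) (by omega) hX (by linarith)

end Crest.Agent.R347
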