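import Crest.Agent.R347.Sys
import Crest.Agent.R347.TopPsi

/-!
# Row 347: basic facts and simple rules of `Sys`   (task R347/SysBasic)

You may use `TopBasic.lean`, `TopPsi.lean` (other tasks).  Hypotheses `hc` are conjunctions over `ℚ`/`ℕ`
(checked later by `decide`); move them to `ℝ` with `exact_mod_cast`.
Linear identities between the sectors (all by `unfold …; ring`):
`Za = P0+3P1 = S0+3S1`, `S0+3Rz = P0+3Qz`, `S0-Rz = P1+Q0+2Qx`, `S0 - S1 = Zb = Q0+Qz+2Qx`,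
`4P0 = S0+3S1+3R0+3Rz+6Rx`, `4P1 = S0+3S1-R0-Rz-2Rx`, `4Qz = S0-S1+3Rz-R0-2Rx`,
`4Q0 = S0-S1+3R0-Rz-2Rx`, `4Qx = S0-S1-R0-Rz+2Rx`.  All ten sectors are `≥ 0` (`Top.toPow`).
-/

set_option autoImplicit false

namespace Crest.Agent.R347

theorem LeQ.trans {x y z : ℝ} {q q' q'' : ℚ} (h : LeQ x q y) (h' : LeQ y q' z)
    (hc : 0 ≤ q ∧ q * q' ≤ q'') : LeQ x q'' z := by
  obtain ⟨h1, h2⟩ := hc
  have h1' : (0 : ℝ) ≤ q := by exact_mod_cast h1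
  have h2' : (q : ℝ) * q' ≤ q'' := by exact_mod_cast h2
  refine ⟨h'.1, h.2.trans ?_⟩
  calc (q : ℝ) * y ≤ q * (q' * z) := mul_le_mul_of_nonneg_left h'.2 h1'
    _ = (q * q') * z := by ring
    _ ≤ q'' * z := mul_le_mul_of_nonneg_right h2' h'.1

namespace Sys

variable (S : Sys) {i j : ℕ}

theorem sec_nonneg (hi : 1 ≤ i) (hj : 1 ≤ j) :
    (0 ≤ S.P0 i j ∧ 0 ≤ S.P1 i j ∧ 0 ≤ S.Q0 i j ∧ 0 ≤ S.Qz i j ∧ 0 ≤ S.Qx i j) ∧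
    (0 ≤ S.S0 i j ∧ 0 ≤ S.S1 i j ∧ 0 ≤ S.R0 i j ∧ 0 ≤ S.Rz i j ∧ 0 ≤ S.Rx i j) := by
  exact ⟨⟨(S.topP0 hi).toPow.1 j hj, (S.topP1 hi).toPow.1 j hj, (S.topQ0 hi).toPow.1 j hj,
    (S.topQz hi).toPow.1 j hj, (S.topQx hi).toPow.1 j hj⟩,
    (S.topS0 hj).toPow.1 i hi, (S.topS1 hj).toPow.1 i hi, (S.topR0 hj).toPow.1 i hi,
    (S.topRz hj).toPow.1 i hi, (S.topRx hj).toPow.1 i hi⟩

/-- `Rz ≤ S0` and `Top.mono` -/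
theorem B_le_A (hj : 1 ≤ j) : S.B j ≤ S.A j := by
  refine (S.topRz hj).mono (S.topS0 hj) fun i hi => ?_
  obtain ⟨⟨-, h1, h2, -, h3⟩, -⟩ := S.sec_nonneg hi hj
  simp only [P1, Q0, Qx, S0, Rz] at h1 h2 h3 ⊢
  linarith

/-- `S1 ≤ S0` and `Top.mono` -/
theorem A1_le_A (hj : 1 ≤ j) : S.A1 j ≤ S.A j := by
  refine (S.topS1 hj).mono (S.topS0 hj) fun i hi => ?_
  obtain ⟨⟨-, -, h1, h2, h3⟩, -⟩ := S.sec_nonneg hi hj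
  simp only [Qz, Q0, Qx, S0, S1] at h1 h2 h3 ⊢
  linarith

/-- `Za = S0 + 3 S1` and `Top.add` -/
theorem topZa (hj : 1 ≤ j) : Top (fun i => S.Za i j) (S.A j) := by
  refine ((S.topS0 hj).add (S.topS1 hj) (S.A1_le_A hj) (c := 3) (by norm_num)).congr
    fun i _ => ?_
  simp only [S0, S1]
  ring

theorem topZa' (hi : 1 ≤ i) : Top (fun j => S.Za i j) (S.C i) := S.dual.topZa hi

theorem A_pos (hj : 1 ≤ j) : 0 < S.A j := by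
  exact (S.topZa hj).pos (S.pos 2 j (by norm_num) hj)

theorem D_le_C (hi : 1 ≤ i) : S.D i ≤ S.C i := S.dual.B_le_A hi

theorem C_pos (hi : 1 ≤ i) : 0 < S.C i := S.dual.A_pos hi

/-- `(A j ^ j0)^i ≤ Za i j ^ j0 ≤ Za i j0 ^ j ≤ (A j0 ^ (i-1) * Za 1 j0)^j` and `le_of_growth` -/
theorem A_pow_le {j0 : ℕ} (h0 : 1 ≤ j0) (h : j0 ≤ j) : S.A j ^ j0 ≤ S.A j0 ^ j := by
  have hj : 1 ≤ j := h0.trans h
  refine le_of_growth (K := S.Za 1 j0 ^ j) (pow_nonneg (S.A_pos h0).le _) fun i hi => ?_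
  calc (S.A j ^ j0) ^ i = (S.A j ^ i) ^ j0 := by rw [← pow_mul, ← pow_mul, mul_comm]
    _ ≤ S.Za i j ^ j0 :=
        pow_le_pow_left₀ (pow_nonneg (S.A_pos hj).le _) ((S.topZa hj).pow_le hi) _
    _ ≤ S.Za i j0 ^ j := (S.topZa' hi).toPow.2 j0 j h0 h
    _ ≤ (S.A j0 ^ (i - 1) * S.Za 1 j0) ^ j :=
        pow_le_pow_left₀ (S.pos i j0 hi h0).le ((S.topZa h0).growth le_rfl hi) _
    _ = _ := by rw [mul_pow, ← pow_mul, ← pow_mul, mul_comm j, mul_comm]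

theorem basic_B_nonneg (hj : 1 ≤ j) : 0 ≤ S.B j := (S.topRz hj).nonneg

theorem u_nonneg (hj : 1 ≤ j) : 0 ≤ S.u j := by
  exact Real.rpow_nonneg (mul_nonneg (S.A_pos hj).le (pow_nonneg (S.basic_B_nonneg hj) _)) _

theorem u_pow (hj : 1 ≤ j) : S.u j ^ (4 * j) = S.A j * S.B j ^ 3 := by
  have := Real.rpow_inv_natCast_pow (n := 4 * j)
    (mul_nonneg (S.A_pos hj).le (pow_nonneg (S.basic_B_nonneg hj) 3)) (by omega)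
  rw [← this]
  simp only [u, one_div, Nat.cast_mul, Nat.cast_ofNat]

theorem a_nonneg (hj : 1 ≤ j) : 0 ≤ S.a j := by
  exact Real.rpow_nonneg (S.A_pos hj).le _

theorem a_pow (hj : 1 ≤ j) : S.a j ^ j = S.A j := by
  have := Real.rpow_inv_natCast_pow (n := j) (S.A_pos hj).le (by omega)
  rw [← this]
  simp only [a, one_div]

theorem basic_a_pow4 (hj : 1 ≤ j) : S.a j ^ (4 * j) = S.A j ^ 4 := by
  rw [mul_comm, pow_mul, S.a_pow hj]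

variable {S}

theorem TZ.pow {j' : ℕ} {z z' : ℚ} (h : S.TZ i j z)
    (hc : 1 ≤ i ∧ 1 ≤ j ∧ j ≤ j' ∧ 0 ≤ z' ∧ z ^ j' ≤ z' ^ j) : S.TZ i j' z' := by
  obtain ⟨hi, hj, hjj, h0, h1⟩ := hc
  have h0' : (0 : ℝ) ≤ z' := by exact_mod_cast h0
  have h1' : (z : ℝ) ^ j' ≤ (z' : ℝ) ^ j := by exact_mod_cast h1
  exact ⟨(S.topP0 hi).ratio hj hjj h.1 h0' h1', (S.topQz hi).ratio hj hjj h.2 h0' h1'⟩

theorem TX.pow {j' : ℕ} {x x' : ℚ} (h : S.TX i j x)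
    (hc : 1 ≤ i ∧ 1 ≤ j ∧ j ≤ j' ∧ 0 ≤ x' ∧ x ^ j' ≤ x' ^ j) : S.TX i j' x' := by
  obtain ⟨hi, hj, hjj, h0, h1⟩ := hc
  have h0' : (0 : ℝ) ≤ x' := by exact_mod_cast h0
  have h1' : (x : ℝ) ^ j' ≤ (x' : ℝ) ^ j := by exact_mod_cast h1
  exact ⟨(S.topP1 hi).toPow.ratio (S.topP0 hi).nonneg hj hjj h.1 h0' h1',
    (S.topQ0 hi).toPow.ratio (S.topQz hi).nonneg hj hjj h.2.1 h0' h1',
    (S.topQx hi).toPow.ratio (S.topQz hi).nonneg hj hjj h.2.2 h0' h1'⟩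

theorem TF.pow {j' : ℕ} {t t' : ℚ} (h : S.TF i j t)
    (hc : 1 ≤ i ∧ 1 ≤ j ∧ j ≤ j' ∧ 0 ≤ t' ∧ t ^ j' ≤ t' ^ j) : S.TF i j' t' := by
  obtain ⟨hi, hj, hjj, h0, h1⟩ := hc
  have h0' : (0 : ℝ) ≤ t' := by exact_mod_cast h0
  have h1' : (t : ℝ) ^ j' ≤ (t' : ℝ) ^ j := by exact_mod_cast h1
  exact (S.topZa' hi).ratio hj hjj h h0' h1'

theorem TF_of {z x t : ℚ} (h : S.TZ i j z) (h' : S.TX i j x) (hc : 1 ≤ i ∧ z + 3 * x ≤ t) :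
    S.TF i j t := by
  obtain ⟨hi, h1⟩ := hc
  have h1' : (z : ℝ) + 3 * x ≤ t := by exact_mod_cast h1
  have hC : 0 ≤ S.C i ^ j := pow_nonneg (S.C_pos hi).le _
  have e1 := h.1
  have e2 := h'.1
  simp only [P0, P1] at e1 e2
  unfold TF
  nlinarith [mul_le_mul_of_nonneg_right h1' hC]

theorem Pua (hc : 1 ≤ j) : LeQ (S.u j) 1 (S.a j) := by
  refine ⟨S.a_nonneg hc, ?_⟩
  rw [Rat.cast_one, one_mul]
  refine le_of_pow_le_pow_left₀ (n := 4 * j) (by omega) (S.a_nonneg hc) ?_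
  rw [S.u_pow hc, S.basic_a_pow4 hc]
  calc S.A j * S.B j ^ 3 ≤ S.A j * S.A j ^ 3 := mul_le_mul_of_nonneg_left
        (pow_le_pow_left₀ (S.basic_B_nonneg hc) (S.B_le_A hc) _) (S.A_pos hc).le
    _ = _ := by ring

/-- `a^(4j) = A^4 ≤ m^3 A B^3 ≤ (q u)^(4j)` -/
theorem Pau {m q : ℚ} (h : S.Mu j m) (hc : 1 ≤ j ∧ 0 ≤ m ∧ 0 ≤ q ∧ m ^ 3 ≤ q ^ (4 * j)) :
    LeQ (S.a j) q (S.u j) := by
  obtain ⟨hj, -, h1, h2⟩ := hc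
  have h1' : (0 : ℝ) ≤ q := by exact_mod_cast h1
  have h2' : (m : ℝ) ^ 3 ≤ (q : ℝ) ^ (4 * j) := by exact_mod_cast h2
  refine ⟨S.u_nonneg hj, ?_⟩
  refine le_of_pow_le_pow_left₀ (n := 4 * j) (by omega) (mul_nonneg h1' (S.u_nonneg hj)) ?_
  rw [mul_pow, S.u_pow hj, S.basic_a_pow4 hj]
  have hA := (S.A_pos hj).le
  calc S.A j ^ 4 = S.A j * S.A j ^ 3 := by ring
    _ ≤ S.A j * ((m : ℝ) * S.B j) ^ 3 := mul_le_mul_of_nonneg_left (pow_le_pow_left₀ hA h _) hA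
    _ = (m : ℝ) ^ 3 * (S.A j * S.B j ^ 3) := by ring
    _ ≤ _ := mul_le_mul_of_nonneg_right h2' (mul_nonneg hA (pow_nonneg (S.basic_B_nonneg hj) _))

theorem PuUp {r0 r1 q : ℚ} (h0 : S.A j ≤ (r0 : ℝ)) (h1 : S.B j ≤ (r1 : ℝ))
    (hc : 1 ≤ j ∧ 0 ≤ q ∧ r0 * r1 ^ 3 ≤ q ^ (4 * j)) : LeQ (S.u j) q 1 := by
  obtain ⟨hj, h2, h3⟩ := hc
  have h2' : (0 : ℝ) ≤ q := by exact_mod_cast h2
  have h3' : (r0 : ℝ) * (r1 : ℝ) ^ 3 ≤ (q : ℝ) ^ (4 * j) := by exact_mod_cast h3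
  refine ⟨zero_le_one, ?_⟩
  rw [mul_one]
  refine le_of_pow_le_pow_left₀ (n := 4 * j) (by omega) h2' ?_
  rw [S.u_pow hj]
  exact (mul_le_mul h0 (pow_le_pow_left₀ (S.basic_B_nonneg hj) h1 _) (pow_nonneg (S.basic_B_nonneg hj) _)
    ((S.A_pos hj).le.trans h0)).trans h3'

theorem PuLo {a b q : ℚ} (h0 : (a : ℝ) ≤ S.A j) (h1 : (b : ℝ) ≤ S.B j)
    (hc : 1 ≤ j ∧ 0 ≤ a ∧ 0 ≤ b ∧ 0 ≤ q ∧ 1 ≤ q ^ (4 * j) * (a * b ^ 3)) : LeQ 1 q (S.u j) := by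
  obtain ⟨hj, -, hb, hq, h3⟩ := hc
  have hb' : (0 : ℝ) ≤ b := by exact_mod_cast hb
  have hq' : (0 : ℝ) ≤ q := by exact_mod_cast hq
  have h3' : (1 : ℝ) ≤ (q : ℝ) ^ (4 * j) * (a * (b : ℝ) ^ 3) := by exact_mod_cast h3
  refine ⟨S.u_nonneg hj, ?_⟩
  refine le_of_pow_le_pow_left₀ (n := 4 * j) (by omega) (mul_nonneg hq' (S.u_nonneg hj)) ?_
  rw [one_pow, mul_pow, S.u_pow hj]
  exact h3'.trans (mul_le_mul_of_nonneg_left (mul_le_mul h0 (pow_le_pow_left₀ hb' h1 _)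
    (pow_nonneg hb' _) (S.A_pos hj).le) (pow_nonneg hq' _))

theorem PaUp {r q : ℚ} (h0 : S.A j ≤ (r : ℝ)) (hc : 1 ≤ j ∧ 0 ≤ q ∧ r ≤ q ^ j) :
    LeQ (S.a j) q 1 := by
  obtain ⟨hj, hq, h3⟩ := hc
  have hq' : (0 : ℝ) ≤ q := by exact_mod_cast hq
  have h3' : (r : ℝ) ≤ (q : ℝ) ^ j := by exact_mod_cast h3
  refine ⟨zero_le_one, ?_⟩
  rw [mul_one]
  refine le_of_pow_le_pow_left₀ (n := j) (by omega) hq' ?_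
  rw [S.a_pow hj]
  exact h0.trans h3'

theorem PaLo {a q : ℚ} (h0 : (a : ℝ) ≤ S.A j) (hc : 1 ≤ j ∧ 0 ≤ q ∧ 1 ≤ q ^ j * a) :
    LeQ 1 q (S.a j) := by
  obtain ⟨hj, hq, h3⟩ := hc
  have hq' : (0 : ℝ) ≤ q := by exact_mod_cast hq
  have h3' : (1 : ℝ) ≤ (q : ℝ) ^ j * a := by exact_mod_cast h3
  refine ⟨S.a_nonneg hj, ?_⟩
  refine le_of_pow_le_pow_left₀ (n := j) (by omega) (mul_nonneg hq' (S.a_nonneg hj)) ?_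
  rw [one_pow, mul_pow, S.a_pow hj]
  exact h3'.trans (mul_le_mul_of_nonneg_left h0 (pow_nonneg hq' _))

theorem AUp_of {q r : ℚ} (h : LeQ (S.a j) q 1) (hc : 1 ≤ j ∧ q ^ j ≤ r) : S.A j ≤ (r : ℝ) := by
  obtain ⟨hj, h3⟩ := hc
  have h3' : (q : ℝ) ^ j ≤ r := by exact_mod_cast h3
  have h1 := h.2
  rw [mul_one] at h1
  rw [← S.a_pow hj]
  exact (pow_le_pow_left₀ (S.a_nonneg hj) h1 _).trans h3'

theorem MuI {r b m : ℚ} (h0 : S.A j ≤ (r : ℝ)) (h1 : (b : ℝ) ≤ S.B j) (hc : 0 ≤ m ∧ r ≤ m * b) :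
    S.Mu j m := by
  obtain ⟨hm, h3⟩ := hc
  have hm' : (0 : ℝ) ≤ m := by exact_mod_cast hm
  have h3' : (r : ℝ) ≤ m * b := by exact_mod_cast h3
  exact h0.trans (h3'.trans (mul_le_mul_of_nonneg_left h1 hm'))

theorem Rh0_of {w ρ : ℚ} (h : S.SZ i j w) (hc : 1 ≤ i ∧ 1 ≤ j ∧ 0 ≤ ρ ∧ w ≤ ρ ^ i) :
    S.Rh0 j ρ := by
  obtain ⟨hi, hj, hρ, h3⟩ := hc
  have h3' : (w : ℝ) ≤ (ρ : ℝ) ^ i := by exact_mod_cast h3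
  refine ⟨hρ, i, hi, ?_⟩
  have h1 := ((S.SZ_iff i j w).1 h).1
  have hA : 0 ≤ S.A j ^ i := pow_nonneg (S.A_pos hj).le _
  rw [mul_pow]
  nlinarith [mul_le_mul_of_nonneg_right h3' hA]

theorem Rh1_of {y ρ : ℚ} (h : S.SX i j y) (hc : 1 ≤ i ∧ 1 ≤ j ∧ 0 ≤ ρ ∧ y ≤ ρ ^ i) :
    S.Rh1 j ρ := by
  obtain ⟨hi, hj, hρ, h3⟩ := hc
  have hρ' : (0 : ℝ) ≤ ρ := by exact_mod_cast hρ
  have h3' : (y : ℝ) ≤ (ρ : ℝ) ^ i := by exact_mod_cast h3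
  have h1 := ((S.SX_iff i j y).1 h).1
  have hA : 0 ≤ S.A j ^ i := pow_nonneg (S.A_pos hj).le _
  refine le_of_pow_le_pow_left₀ (n := i) (by omega) (mul_nonneg hρ' (S.A_pos hj).le) ?_
  rw [mul_pow]
  exact ((S.topS1 hj).pow_le hi).trans (h1.trans (mul_le_mul_of_nonneg_right h3' hA))

theorem A1Up_of {ρ r r1 : ℚ} (h : S.Rh1 j ρ) (h0 : S.A j ≤ (r : ℝ)) (hc : 0 ≤ ρ ∧ ρ * r ≤ r1) :
    S.A1 j ≤ (r1 : ℝ) := by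
  obtain ⟨hρ, h3⟩ := hc
  have hρ' : (0 : ℝ) ≤ ρ := by exact_mod_cast hρ
  have h3' : (ρ : ℝ) * r ≤ r1 := by exact_mod_cast h3
  exact le_trans h ((mul_le_mul_of_nonneg_left h0 hρ').trans h3')

theorem CLo {c : ℚ} (h : ∀ j, 1 ≤ j → (c : ℝ) ^ j ≤ S.Za i j) (hc : 1 ≤ i) : (c : ℝ) ≤ S.C i := by
  exact (S.topZa' hc).le_of (c := 1) zero_le_one fun j hj => by rw [one_mul]; exact h j hj

/-! dual forms -/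

theorem SZ.pow {i' : ℕ} {z z' : ℚ} (h : S.SZ i j z)
    (hc : 1 ≤ j ∧ 1 ≤ i ∧ i ≤ i' ∧ 0 ≤ z' ∧ z ^ i' ≤ z' ^ i) : S.SZ i' j z' := TZ.pow h hc

theorem SX.pow {i' : ℕ} {x x' : ℚ} (h : S.SX i j x)
    (hc : 1 ≤ j ∧ 1 ≤ i ∧ i ≤ i' ∧ 0 ≤ x' ∧ x ^ i' ≤ x' ^ i) : S.SX i' j x' := TX.pow h hc

theorem SF.pow {i' : ℕ} {t t' : ℚ} (h : S.SF i j t)
    (hc : 1 ≤ j ∧ 1 ≤ i ∧ i ≤ i' ∧ 0 ≤ t' ∧ t ^ i' ≤ t' ^ i) : S.SF i' j t' := TF.pow h hc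

theorem SF_of {z x t : ℚ} (h : S.SZ i j z) (h' : S.SX i j x) (hc : 1 ≤ j ∧ z + 3 * x ≤ t) :
    S.SF i j t := TF_of h h' hc

theorem PwLo {c d q : ℚ} (h0 : (c : ℝ) ≤ S.C i) (h1 : (d : ℝ) ≤ S.D i)
    (hc : 1 ≤ i ∧ 0 ≤ c ∧ 0 ≤ d ∧ 0 ≤ q ∧ 1 ≤ q ^ (4 * i) * (c * d ^ 3)) : LeQ 1 q (S.w i) :=
  PuLo (S := S.dual) h0 h1 hc

end Sys

end Crest.Agent.R347
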