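import Crest.Agent.R347.Build
import Crest.Agent.R347.Gap
import Crest.Agent.R347.Link
import Crest.Agent.R347.SysBasic

/-!
# Row 347: trial states in, gaps out   (task R347/Final)

Unfold `model`, `Zr`, `Zo` (`tens L (rot none) = 1` by `tens_rep`), use `var_bound`, `gap_of_top`
(with `Top.congr`, `Sys.topZa'` from `SysBasic`, `O.topp`), `ringH_none`, `openH_one`, `log_gap*`.
-/

set_option autoImplicit false

namespace Crest.Agent.R347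

open Crest.MathPhysics.SpinChain Matrix

/-- some non-zero vector has energy at most `E` -/
def HasE {n : Type} [Fintype n] (H : Matrix n n ℂ) (E : ℚ) : Prop :=
  ∃ ψ : n → ℂ, 0 < (star ψ ⬝ᵥ ψ).re ∧ (star ψ ⬝ᵥ H *ᵥ ψ).re ≤ (E : ℝ) * (star ψ ⬝ᵥ ψ).re

/-- the check of `var_bound` -/
abbrev VarOK (E sh κ c : ℚ) : Prop :=
  0 ≤ c ∧ 0 ≤ (E + sh) / 2 ∧ (E + sh) / 2 ≤ 8 ∧ c * expUp ((E + sh) / 2) ≤ κ

theorem fin_Zr (L : ℕ) (g : Aux) (j : ℕ) : Zr L g none j =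
    ((eta : ℝ) ^ L) ^ j * (boltz (ringH L g) (3 * L / 2) ((j : ℝ) / 2)).trace.re := by
  have h1 := (tens_rep L rot_rep).one
  rw [Zr, h1, one_mul]

theorem fin_var {n : ℕ} {g : Aux} {E c : ℚ} (h : HasE (ringH (n + 1) g) E)
    (hc : VarOK E (3 * (n + 1) / 2) (eta ^ (n + 1)) c) (j : ℕ) :
    (c : ℝ) ^ j ≤ Zr (n + 1) g none j := by
  obtain ⟨ψ, h0, h1⟩ := h
  have h2 := var_bound (ringH_herm (n + 1) g) ψ h0 h1 hc j
  rw [fin_Zr]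
  push_cast at h2 ⊢
  exact h2

variable {O : OSys}

theorem varZa (hL : Link model O) {i n : ℕ} {E c : ℚ} (h : HasE (ringH (n + 1) none) E)
    (hc : n + 1 = 2 * i ∧ VarOK E (3 * (n + 1) / 2) (eta ^ (n + 1)) c) :
    ∀ j, 1 ≤ j → (c : ℝ) ^ j ≤ O.Za i j := by
  intro j _
  rw [hL.a, ← hc.1]
  exact fin_var h hc.2 j

theorem varZb (hL : Link model O) {i n : ℕ} {E c : ℚ} (h : HasE (ringH (n + 1) (some 2)) E)
    (hc : n + 1 = 2 * i ∧ VarOK E (3 * (n + 1) / 2) (eta ^ (n + 1)) c) :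
    ∀ j, 1 ≤ j → (c : ℝ) ^ j ≤ O.Zb i j := by
  intro j _
  rw [hL.b, ← hc.1]
  exact fin_var h hc.2 j

theorem varZe (hL : Link model O) {i n : ℕ} {E c : ℚ} (h : HasE (openH n 1 (-1)) E)
    (hc : n = 2 * i + 1 ∧ VarOK E (3 * (n + 1) / 2 + 1 / 5) (eta ^ (n + 1)) c) :
    ∀ j, 1 ≤ j → (c : ℝ) ^ j ≤ O.Ze2 i j := by
  intro j _
  obtain ⟨rfl, hc⟩ := hc
  obtain ⟨ψ, h0, h1⟩ := h
  have h2 := var_bound (openH_herm (2 * i + 1) 1 (-1)) ψ h0 h1 hc j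
  have e : O.Ze2 i j = Zo (2 * i) 1 (-1) j := by
    rw [OSys.Ze2, hL.ao, hL.bo]
    change (Zo (2 * i) 1 (-1) j + Zo (2 * i) 1 1 j) / 2 +
      (Zo (2 * i) 1 (-1) j - Zo (2 * i) 1 1 j) / 2 = _
    ring
  have e2 : ((3 * (((2 * i + 1 : ℕ) : ℚ) + 1) / 2 + 1 / 5 : ℚ) : ℝ) =
      3 * (((2 * i : ℕ) : ℝ) + 2) / 2 + 1 / 5 := by
    push_cast
    ring
  rw [e2, Rat.cast_pow] at h2
  rw [e, Zo]
  exact h2

theorem ring_gap (hL : Link model O) {i J : ℕ} {t γ : ℝ} (hi : 1 ≤ i) (hJ : 1 ≤ J) (ht : 0 < t)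
    (h : O.Za i J ≤ (1 + t) * O.C i ^ J) (hγ : γ < -(2 / (J : ℝ)) * Real.log t) :
    HasSimpleGroundStateWithGap (heisenbergRing (2 * i)) γ := by
  have e : ∀ j, O.Za i j = ((eta : ℝ) ^ (2 * i)) ^ j *
      (boltz (ringH (2 * i) none) (3 * (2 * i : ℕ) / 2) ((j : ℝ) / 2)).trace.re := fun j => by
    rw [hL.a, ← fin_Zr]
    rfl
  rw [← ringH_none]
  exact gap_of_top (ringH_herm _ _) _ (pow_pos hside_eta_pos _)
    ((O.topZa' hi).congr fun j _ => e j) hJ ht (e J ▸ h) hγ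

theorem open_gap (hL : Link model O) {n J : ℕ} {t γ : ℝ} (hJ : 1 ≤ J) (ht : 0 < t)
    (h : O.Zp n J ≤ (1 + t) * O.Cp n ^ J) (hγ : γ < -(2 / (J : ℝ)) * Real.log t) :
    HasSimpleGroundStateWithGap (openChainEndField (2 * (n + 1)) (3 / 5)) γ := by
  have e : ∀ j, O.Zp n j = Zo (2 * n + 1) 1 1 j := fun j => by
    rw [OSys.Zp, hL.ao, hL.bo]
    change (Zo (2 * n + 1) 1 (-1) j + Zo (2 * n + 1) 1 1 j) / 2 -
      (Zo (2 * n + 1) 1 (-1) j - Zo (2 * n + 1) 1 1 j) / 2 = _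
    ring
  rw [e, Zo] at h
  rw [← openH_one]
  exact gap_of_top (openH_herm (2 * n + 1 + 1) 1 1) _ (pow_pos hside_eta_pos _)
    ((O.topp n).congr fun j _ => e j) hJ ht h hγ

/-- what the numerical chain delivers -/
structure Done (O : OSys) (i0 : ℕ) : Prop where
  le : i0 ≤ 479
  ring : ∀ i, 2 * i0 ≤ i → ∃ (J : ℕ) (t : ℝ), 1 ≤ J ∧ 0 < t ∧ O.Za i J ≤ (1 + t) * O.C i ^ J ∧
    t ^ 784 * 10 ^ J < 1
  odd : ∀ n, 2 * i0 ≤ n → ∃ (J : ℕ) (t : ℝ), 1 ≤ J ∧ 0 < t ∧ O.Zp n J ≤ (1 + t) * O.Cp n ^ J ∧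
    t ^ 784 * 10 ^ J < 1
  range : ∀ i, 30 ≤ i → i < 2 * i0 → ∃ (J : ℕ) (t : ℚ), 1 ≤ J ∧ 0 < t ∧ O.TF i J t ∧
    t ^ 105 < (79 / 80) ^ (2 * J)

theorem main_ring (hL : Link model O) {i0 : ℕ} (h : Done O i0) :
    (∀ L : ℕ, Even L → 60 ≤ L →
      HasSimpleGroundStateWithGap (heisenbergRing L) (4 / 105 * Real.log (80 / 79))) ∧
    (∀ L : ℕ, Even L → 2304 ≤ L →
      HasSimpleGroundStateWithGap (heisenbergRing L) (Real.log 20 / 784)) := by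
  have hle := h.le
  refine ⟨fun L hev h60 => ?_, fun L hev h60 => ?_⟩
  · obtain ⟨i, rfl⟩ := hev.two_dvd
    rcases lt_or_ge i (2 * i0) with hi | hi
    · obtain ⟨J, t, hJ, ht, h1, h2⟩ := h.range i (by omega) hi
      have ht' : (0 : ℝ) < t := by exact_mod_cast ht
      have h2' : ((t ^ 105 : ℚ) : ℝ) < (((79 / 80) ^ (2 * J) : ℚ) : ℝ) := Rat.cast_lt.2 h2
      push_cast at h2'
      exact ring_gap hL (by omega) hJ ht' h1 (log_gap1 hJ ht' h2')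
    · obtain ⟨J, t, hJ, ht, h1, h2⟩ := h.ring i hi
      exact ring_gap hL (by omega) hJ ht h1 (gap1_le_gap3.trans_lt (log_gap3 hJ ht h2))
  · obtain ⟨i, rfl⟩ := hev.two_dvd
    obtain ⟨J, t, hJ, ht, h1, h2⟩ := h.ring i (by omega)
    exact ring_gap hL (by omega) hJ ht h1 (gap2_le_gap3.trans_lt (log_gap3 hJ ht h2))

theorem main_open (hL : Link model O) {i0 : ℕ} (h : Done O i0) (L : ℕ) (hL' : 960 ≤ L) :
    HasSimpleGroundStateWithGap (openChainEndField (2 * L) (3 / 5)) (Real.log 10 / 392) := by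
  have hle := h.le
  obtain ⟨n, rfl⟩ : ∃ n, L = n + 1 := ⟨L - 1, by omega⟩
  obtain ⟨J, t, hJ, ht, h1, h2⟩ := h.odd n (by omega)
  exact open_gap hL hJ ht h1 (log_gap3 hJ ht h2)

end Crest.Agent.R347
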