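import Crest.Agent.R347.Induct

/-!
# Row 347: from the doubling induction to all sizes   (task R347/Induct2)

You may use `TopBasic`, `TopPsi`, `SysBasic`, `ORules`, `ORules2`, `Induct` (other tasks).  `Z = Za`;
`topZa`, `topZa'` give `A j ^ i ≤ Z i j`, `C i ^ j ≤ Z i j` and `Top.ratio` in both directions;
`κ = (1+ε)^2 (1+ε²)` is the constant of `St.keyA`.
-/

set_option autoImplicit false

namespace Crest.Agent.R347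

namespace OSys

variable {O : OSys} {i j : ℕ} {ε : ℝ}

theorem ind2_pow {a x κ : ℝ} (ha : 0 ≤ a) (hx : 0 < x) (hκ : 1 ≤ κ) {m N : ℕ} (hm : m ≤ N)
    (h : a ^ N ≤ κ * x ^ N) : a ^ m ≤ κ * x ^ m := by
  rw [← div_le_iff₀ (pow_pos hx _), ← div_pow] at h ⊢
  rcases le_total (a / x) 1 with hy | hy
  · exact (pow_le_one₀ (by positivity) hy).trans hκ
  · exact (pow_le_pow_right₀ hy hm).trans h

theorem ind2_kappa (h0 : 0 < ε) (h1 : ε ≤ 1 / 20) :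
    1 ≤ (1 + ε) ^ 2 * (1 + ε ^ 2) ∧ (1 + ε) ^ 2 * (1 + ε ^ 2) ≤ 1 + 11 / 5 * ε := by
  have a1 : ε ^ 2 ≤ ε / 20 := by nlinarith
  have a2 : (1 + ε) ^ 2 ≤ 1 + 41 / 20 * ε := by nlinarith
  constructor
  · nlinarith [sq_nonneg ε, mul_nonneg (sq_nonneg (1 + ε)) (sq_nonneg ε)]
  · calc (1 + ε) ^ 2 * (1 + ε ^ 2) ≤ (1 + 41 / 20 * ε) * (1 + ε / 20) := by gcongr
      _ ≤ _ := by nlinarith

theorem ind2_psi {φ : ℕ → ℝ} {X : ℝ} (h : Top φ X) (hj : 1 ≤ j) (h0 : 0 < ε) (h1 : ε ≤ 1 / 20)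
    (hK : φ j ^ 2 ≤ (1 + 8 * ε) * φ (2 * j)) : φ j ≤ (1 + 5 * ε) * X ^ j := by
  refine h.psi2 hj hK (by linarith) ?_ (by linarith)
  have a1 : ε ^ 2 ≤ 1 / 400 := by nlinarith
  nlinarith [mul_le_mul_of_nonneg_left a1 h0.le]

/-- `Z(i',j) ≤ (1+ε) A_j^i'` (`ratio`), `(A_j^2 / A_{2j})^i' ≤ κ^2` for `i' ≤ 4i` (by `keyA`; if the
ratio is `≤ 1` trivial), so `Z(i',j)^2 ≤ (1+ε)^2 κ^2 Z(i',2j)`; `psi2` with `z = 5ε`. -/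
theorem St.ring (h : O.St i j ε) (hi : 1 ≤ i) (hj : 1 ≤ j) (h0 : 0 < ε) (h1 : ε ≤ 1 / 20)
    {i' : ℕ} (hlo : 2 * i ≤ i') (hhi : i' ≤ 4 * i) : O.Za i' j ≤ (1 + 5 * ε) * O.C i' ^ j := by
  have hi' : 1 ≤ i' := by omega
  have hj2 : 1 ≤ 2 * j := by omega
  have ha := O.A_pos hj
  have hb := O.A_pos hj2
  obtain ⟨k1, k2⟩ := ind2_kappa h0 h1
  have hk := h.keyA hi hj h0.le
  obtain ⟨κ, hκ⟩ : ∃ κ, κ = (1 + ε) ^ 2 * (1 + ε ^ 2) := ⟨_, rfl⟩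
  rw [← hκ] at k1 k2 hk
  have z1 : O.Za i' j ≤ (1 + ε) * O.A j ^ i' :=
    (O.topZa hj).ratio (i := 2 * i) (by omega) hlo h.s21 h0.le
      (pow_le_pow_of_le_one h0.le (by linarith) hlo)
  have z2 : (O.A j ^ 2) ^ i' ≤ κ ^ 2 * O.A (2 * j) ^ i' := by
    refine ind2_pow (by positivity) hb (one_le_pow₀ k1) hhi ?_
    calc (O.A j ^ 2) ^ (4 * i) = (O.A j ^ (4 * i)) ^ 2 := by rw [← pow_mul, ← pow_mul, mul_comm]
      _ ≤ (κ * O.A (2 * j) ^ (2 * i)) ^ 2 := pow_le_pow_left₀ (by positivity) hk 2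
      _ = _ := by rw [mul_pow, ← pow_mul, show 2 * i * 2 = 4 * i by ring]
  have z3 : O.A (2 * j) ^ i' ≤ O.Za i' (2 * j) := (O.topZa hj2).pow_le hi'
  have z4 : (1 + ε) ^ 2 * κ ^ 2 ≤ 1 + 8 * ε := by
    have b1 : (1 + ε) * κ ≤ 1 + 17 / 5 * ε := by nlinarith
    calc (1 + ε) ^ 2 * κ ^ 2 = ((1 + ε) * κ) ^ 2 := by ring
      _ ≤ (1 + 17 / 5 * ε) ^ 2 := pow_le_pow_left₀ (by positivity) b1 2
      _ ≤ _ := by nlinarith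
  refine ind2_psi (O.topZa' hi') hj h0 h1 ?_
  calc O.Za i' j ^ 2 ≤ ((1 + ε) * O.A j ^ i') ^ 2 := pow_le_pow_left₀ (O.pos _ _ hi' hj).le z1 2
    _ = (1 + ε) ^ 2 * (O.A j ^ 2) ^ i' := by rw [mul_pow, ← pow_mul, ← pow_mul, mul_comm i']
    _ ≤ (1 + ε) ^ 2 * (κ ^ 2 * O.A (2 * j) ^ i') := by gcongr
    _ = (1 + ε) ^ 2 * κ ^ 2 * O.A (2 * j) ^ i' := by ring
    _ ≤ _ := mul_le_mul z4 z3 (by positivity) (by linarith)

theorem ind2_odd (hj : 1 ≤ j) (n : ℕ) :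
    |O.Zp n j - O.ω j * O.A j ^ n * O.x j| ≤ |O.x j| * (O.Ze2 n j - O.ω j * O.A j ^ n) := by
  have a1 := abs_le.1 (O.rest_odd j hj n)
  have a2 := abs_le.1 (O.B_odd j hj n)
  unfold Zp Ze2
  rw [abs_le]
  constructor <;> nlinarith [a1.1, a1.2, a2.1, a2.2]

theorem ind2_anti (hj : 1 ≤ j) (n d : ℕ) : O.Ze2 (n + d) j - O.ω j * O.A j ^ (n + d) ≤
    O.A j ^ d * (O.Ze2 n j - O.ω j * O.A j ^ n) := by
  have := Ze2_growth (O := O) hj n d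
  rw [pow_add]
  linarith

/-- `Zp n j ≤ |x_j| Ze2 n j` (`rest_odd`, `B_odd`), so
`(Zp n j)^2 ≤ A_j^(2(n-2i)+1) (1+ε)^2 Co(2i)^(2j) ≤ A_j^(2(n-2i)+1) (1+ε)^3 ω A_{2j}^(2i)`.
At `2j`: `Ze2 n - ω A^n ≤ ε ω A^n` (`rest_anti`, `B_anti`: no decay needed), hence
`|Zp n (2j) - ω A^n x| ≤ ε |x| ω A^n`; `posp` forces `x > 0` and `(1-ε) ω A^n x ≤ Zp n (2j)`.
With `y = A_j / x_{2j}` (`y^(4i) ≤ κ`, and `2(n-2i)+1 ≤ 4i`): `K = (1+ε)^3 κ / (1-ε)`; `psi2` with `5ε`. -/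
theorem St.odd (h : O.St i j ε) (hi : 1 ≤ i) (hj : 1 ≤ j) (h0 : 0 < ε) (h1 : ε ≤ 1 / 20)
    {n : ℕ} (hlo : 2 * i ≤ n) (hhi : n < 4 * i) : O.Zp n j ≤ (1 + 5 * ε) * O.Cp n ^ j := by
  have hj2 : 1 ≤ 2 * j := by omega
  have ha := O.A_pos hj
  have hb := O.A_pos hj2
  obtain ⟨k1, k2⟩ := ind2_kappa h0 h1
  have hk := h.keyA hi hj h0.le
  obtain ⟨κ, hκ⟩ : ∃ κ, κ = (1 + ε) ^ 2 * (1 + ε ^ 2) := ⟨_, rfl⟩
  rw [← hκ] at k1 k2 hk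
  obtain ⟨d, rfl⟩ := Nat.exists_eq_add_of_le hlo
  have hw := O.w_nonneg j hj
  have hw2 := O.w_nonneg _ hj2
  have hp : 0 < O.Zp (2 * i + d) j := O.posp _ _ hj
  have hp2 : 0 < O.Zp (2 * i + d) (2 * j) := O.posp _ _ hj2
  have hCo : 0 ≤ O.Co (2 * i) := (O.topo _).nonneg
  -- the bound at `j`
  have z1 : O.Zp (2 * i + d) j ≤ |O.x j| * O.Ze2 (2 * i + d) j := by
    have a1 := (abs_le.1 (ind2_odd (O := O) hj (2 * i + d))).2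
    have a2 : O.ω j * O.A j ^ (2 * i + d) * O.x j ≤ O.ω j * O.A j ^ (2 * i + d) * |O.x j| :=
      mul_le_mul_of_nonneg_left (le_abs_self _) (by positivity)
    linarith
  have z2 : O.Ze2 (2 * i + d) j ≤ O.A j ^ d * ((1 + ε) * O.Co (2 * i) ^ j) :=
    (Ze2_growth hj _ _).trans (mul_le_mul_of_nonneg_left h.to1 (by positivity))
  have z3 : O.Co (2 * i) ^ (2 * j) ≤ (1 + ε) * (O.ω (2 * j) * O.A (2 * j) ^ (2 * i)) :=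
    ((O.topo (2 * i)).pow_le hj2).trans h.so2
  -- the bound at `2 j`
  obtain ⟨T, hT⟩ : ∃ T, T = O.ω (2 * j) * O.A (2 * j) ^ (2 * i + d) := ⟨_, rfl⟩
  have hT0 : 0 ≤ T := by rw [hT]; positivity
  have z4 : O.Ze2 (2 * i + d) (2 * j) - T ≤ ε * T := by
    rw [hT]
    refine (ind2_anti hj2 _ _).trans ?_
    calc _ ≤ O.A (2 * j) ^ d * (ε * (O.ω (2 * j) * O.A (2 * j) ^ (2 * i))) :=
          mul_le_mul_of_nonneg_left (by linarith [h.so2]) (by positivity)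
      _ = _ := by rw [pow_add]; ring
  have z5 := ind2_odd (O := O) hj2 (2 * i + d)
  rw [← hT] at z5
  replace z5 := abs_le.1 (z5.trans (mul_le_mul_of_nonneg_left z4 (abs_nonneg _)))
  have hx : 0 < O.x (2 * j) := by
    by_contra hx
    push Not at hx
    rw [abs_of_nonpos hx] at z5
    have := mul_nonneg (mul_nonneg hT0 (neg_nonneg.2 hx)) (show 0 ≤ 1 - ε by linarith)
    nlinarith [z5.2]
  rw [abs_of_pos hx] at z5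
  have z6 : (1 - ε) * (T * O.x (2 * j)) ≤ O.Zp (2 * i + d) (2 * j) := by nlinarith [z5.1]
  have hxs := O.x_sq _ hj2
  have z7 : O.A j ^ (2 * d + 1) ≤ κ * O.x (2 * j) ^ (2 * d + 1) := by
    refine ind2_pow ha.le hx k1 (N := 4 * i) (by omega) ?_
    rwa [← hxs, ← pow_mul, show 2 * (2 * i) = 4 * i by ring] at hk
  have z8 : (1 + ε) ^ 3 * κ ≤ (1 + 8 * ε) * (1 - ε) := by
    have b0 : ε ^ 2 ≤ ε / 20 := by nlinarith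
    have b1 : (1 + ε) ^ 3 ≤ 1 + 16 / 5 * ε := by nlinarith [mul_le_mul_of_nonneg_left b0 h0.le]
    calc (1 + ε) ^ 3 * κ ≤ (1 + 16 / 5 * ε) * (1 + 11 / 5 * ε) := by gcongr
      _ ≤ _ := by nlinarith
  refine ind2_psi (φ := fun j => O.Zp (2 * i + d) j) (O.topp _) hj h0 h1 ?_
  calc O.Zp (2 * i + d) j ^ 2 ≤ (|O.x j| * (O.A j ^ d * ((1 + ε) * O.Co (2 * i) ^ j))) ^ 2 :=
        pow_le_pow_left₀ hp.le (z1.trans (mul_le_mul_of_nonneg_left z2 (abs_nonneg _))) 2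
    _ = (1 + ε) ^ 2 * O.A j ^ (2 * d + 1) * O.Co (2 * i) ^ (2 * j) := by
        rw [mul_pow, sq_abs, O.x_sq j hj]; ring
    _ ≤ (1 + ε) ^ 2 * (κ * O.x (2 * j) ^ (2 * d + 1)) *
        ((1 + ε) * (O.ω (2 * j) * O.A (2 * j) ^ (2 * i))) := by gcongr
    _ = (1 + ε) ^ 3 * κ * (T * O.x (2 * j)) := by
        rw [hT, pow_add (O.A _), pow_succ (O.x _), pow_mul (O.x _), hxs]; ring
    _ ≤ (1 + 8 * ε) * (1 - ε) * (T * O.x (2 * j)) :=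
        mul_le_mul_of_nonneg_right z8 (by positivity)
    _ ≤ _ := by
        rw [mul_assoc]
        exact mul_le_mul_of_nonneg_left z6 (by linarith)

theorem ind2_scale {i0 : ℕ} (h : 1 ≤ i0) {i : ℕ} (hi : 2 * i0 ≤ i) :
    ∃ s : ℕ, 2 * (2 ^ s * i0) ≤ i ∧ i < 4 * (2 ^ s * i0) := by
  induction i, hi using Nat.le_induction with
  | base => exact ⟨0, by omega, by omega⟩
  | succ i _ ih =>
    obtain ⟨s, h1, h2⟩ := ih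
    by_cases h3 : i + 1 < 4 * (2 ^ s * i0)
    · exact ⟨s, by omega, h3⟩
    · refine ⟨s + 1, ?_, ?_⟩ <;> rw [pow_succ, mul_comm _ 2, mul_assoc] <;> omega

theorem ind2_small {q : ℝ} (hq : 0 ≤ q) {N j0 : ℕ} (hN : N ≠ 0) (h : q ^ N * 10 ^ j0 ≤ 1) (m : ℕ) :
    (5 * (q ^ m / 10)) ^ N * 10 ^ (m * j0) < 1 := by
  have e : (5 * (q ^ m / 10)) ^ N * 10 ^ (m * j0) = (q ^ N * 10 ^ j0) ^ m * (1 / 2) ^ N := by
    rw [show 5 * (q ^ m / 10) = q ^ m * (1 / 2) by ring, mul_pow, mul_pow, ← pow_mul, ← pow_mul,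
      ← pow_mul, mul_comm N m, mul_comm j0 m]
    ring
  rw [e]
  exact mul_lt_one_of_nonneg_of_lt_one_right (pow_le_one₀ (by positivity) h) (by positivity)
    (pow_lt_one₀ (by norm_num) (by norm_num) hN)

/-- Induction: `St (2^s i0) (2^s j0) ((10ε)^(2^s)/10)`.  Given `i ≥ 2 i0` pick `s` with
`2^(s+1) i0 ≤ i < 2^(s+2) i0`, `J = 2^s j0`, `t = (10ε)^(2^s)/2`; then
`t^784 10^J = ((10ε)^784 10^j0)^(2^s) / 2^784 < 1`. -/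
theorem final (O : OSys) {i0 j0 : ℕ} {ε : ℚ} (h1 : O.TF (2 * i0) j0 ε) (h2 : O.SF (2 * i0) j0 ε)
    (h3 : O.SF i0 (2 * j0) ε) (h4 : O.TF i0 (2 * j0) ε) (h5 : O.To (2 * i0) j0 ε)
    (h6 : O.So (2 * i0) (2 * j0) ε)
    (hc : 1 ≤ i0 ∧ 1 ≤ j0 ∧ 0 < ε ∧ ε ≤ 1 / 20 ∧ (10 * ε) ^ 784 * 10 ^ j0 ≤ 1) :
    (∀ i, 2 * i0 ≤ i → ∃ (J : ℕ) (t : ℝ), 1 ≤ J ∧ 0 < t ∧ O.Za i J ≤ (1 + t) * O.C i ^ J ∧
      t ^ 784 * 10 ^ J < 1) ∧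
    (∀ n, 2 * i0 ≤ n → ∃ (J : ℕ) (t : ℝ), 1 ≤ J ∧ 0 < t ∧ O.Zp n J ≤ (1 + t) * O.Cp n ^ J ∧
      t ^ 784 * 10 ^ J < 1) := by
  obtain ⟨hi0, hj0, c0, c1, c2⟩ := hc
  have d0 : (0 : ℝ) < ε := by exact_mod_cast c0
  have d1 : (ε : ℝ) ≤ 1 / 20 := by
    have : ((ε : ℚ) : ℝ) ≤ ((1 / 20 : ℚ) : ℝ) := Rat.cast_le.2 c1
    simpa using this
  have d2 : (10 * (ε : ℝ)) ^ 784 * 10 ^ j0 ≤ 1 := by
    have : (((10 * ε) ^ 784 * 10 ^ j0 : ℚ) : ℝ) ≤ ((1 : ℚ) : ℝ) := Rat.cast_le.2 c2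
    simpa only [Rat.cast_mul, Rat.cast_pow, Rat.cast_ofNat, Rat.cast_one] using this
  have e0 : ∀ s : ℕ, 0 < (10 * (ε : ℝ)) ^ 2 ^ s / 10 := fun s => by positivity
  have e1 : ∀ s : ℕ, (10 * (ε : ℝ)) ^ 2 ^ s / 10 ≤ 1 / 20 := by
    intro s
    have := pow_le_of_le_one (a := 10 * (ε : ℝ)) (by positivity) (by linarith)
      (n := 2 ^ s) (by positivity)
    linarith
  have p1 : ∀ s k : ℕ, 1 ≤ k → 1 ≤ 2 ^ s * k := fun s k hk => Nat.mul_pos (by positivity) hk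
  have hst : ∀ s : ℕ, O.St (2 ^ s * i0) (2 ^ s * j0) ((10 * (ε : ℝ)) ^ 2 ^ s / 10) := by
    intro s
    induction s with
    | zero =>
      simp only [pow_zero, one_mul, pow_one]
      rw [show 10 * (ε : ℝ) / 10 = ε by ring]
      exact ⟨h1, h2, h3, h4, h5, h6⟩
    | succ s ih =>
      have := ih.step (p1 s _ hi0) (p1 s _ hj0) (e0 s) (e1 s)
      rw [pow_succ, mul_comm _ 2, mul_assoc, mul_assoc, mul_comm 2 (2 ^ s), pow_mul,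
        show ((10 * (ε : ℝ)) ^ 2 ^ s) ^ 2 / 10 = 10 * ((10 * (ε : ℝ)) ^ 2 ^ s / 10) ^ 2 by ring]
      exact this
  constructor
  · intro i hi
    obtain ⟨s, a1, a2⟩ := ind2_scale hi0 hi
    exact ⟨2 ^ s * j0, _, p1 s _ hj0, by linarith [e0 s],
      (hst s).ring (p1 s _ hi0) (p1 s _ hj0) (e0 s) (e1 s) a1 a2.le,
      ind2_small (by positivity) (by norm_num) d2 _⟩
  · intro n hn
    obtain ⟨s, a1, a2⟩ := ind2_scale hi0 hn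
    exact ⟨2 ^ s * j0, _, p1 s _ hj0, by linarith [e0 s],
      (hst s).odd (p1 s _ hi0) (p1 s _ hj0) (e0 s) (e1 s) a1 a2,
      ind2_small (by positivity) (by norm_num) d2 _⟩

end OSys

end Crest.Agent.R347
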