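import Crest.Agent.R347.SpinAlg

/-!
# Row 347: tensor products and operators on one site   (task R347/Tens)

You may use `SpinAlg` (other task).
-/

set_option autoImplicit false

namespace Crest.Agent.R347

open Crest.MathPhysics.SpinChain Matrix

section tens

variable {ι σ : Type} [Fintype ι] [DecidableEq ι] [Fintype σ] [DecidableEq σ]

/-- `Finset.prod_univ_sum` / `Fintype.piFinset_univ` -/
theorem tensF_mul (D D' : ι → Matrix σ σ ℂ) : tensF D * tensF D' = tensF fun k => D k * D' k := by
  ext s t
  simp only [tensF, Matrix.mul_apply, Matrix.of_apply]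
  rw [Finset.prod_univ_sum, Fintype.piFinset_univ]
  exact Finset.sum_congr rfl fun u _ => Finset.prod_mul_distrib.symm

theorem tensF_one : tensF (fun _ : ι => (1 : Matrix σ σ ℂ)) = 1 := by
  ext s t
  simp only [tensF, Matrix.of_apply, Matrix.one_apply, Finset.prod_ite_zero, Finset.mem_univ,
    true_imp_iff, Finset.prod_const_one, funext_iff]

theorem tensF_conjTranspose (D : ι → Matrix σ σ ℂ) : (tensF D)ᴴ = tensF fun k => (D k)ᴴ := by
  ext s t
  simp only [tensF, Matrix.of_apply, Matrix.conjTranspose_apply, star_prod]

theorem tens_rep (n : ℕ) {ρ : Aux → Matrix σ σ ℂ} (h : Rep4 ρ) : Rep4 fun g => tens n (ρ g) := by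
  refine ⟨?_, fun g g' => ?_, fun g => ?_⟩
  · simp only [tens, h.one, tensF_one]
  · simp only [tens, tensF_mul, h.mul]
  · simp only [tens, Matrix.IsHermitian, tensF_conjTranspose, (h.herm g).eq]

theorem onSite_eq (A : M3) (j : ι) : onSite A j = tensF (Function.update (fun _ => 1) j A) := by
  ext s t
  simp only [onSite, tensF, Matrix.of_apply]
  rw [← Finset.mul_prod_erase _ _ (Finset.mem_univ j), Function.update_self,
    Finset.prod_congr rfl fun k hk => by rw [Function.update_of_ne (Finset.ne_of_mem_erase hk)]]
  simp only [Matrix.one_apply, Finset.prod_ite_zero, Finset.mem_erase, Finset.mem_univ, and_true,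
    Finset.prod_const_one, mul_ite, mul_one, mul_zero]

theorem onSite_one (j : ι) : onSite (1 : M3) j = 1 := by
  rw [onSite_eq, Function.update_eq_self_iff.2 rfl, tensF_one]

theorem onSite_add (A B : M3) (j : ι) : onSite (A + B) j = onSite A j + onSite B j := by
  ext s t
  simp only [onSite, Matrix.of_apply, Matrix.add_apply]
  split_ifs <;> simp

theorem onSite_smul (c : ℂ) (A : M3) (j : ι) : onSite (c • A) j = c • onSite A j := by
  ext s t
  simp only [onSite, Matrix.of_apply, Matrix.smul_apply]
  split_ifs <;> simp

theorem onSite_mul (A B : M3) (j : ι) : onSite A j * onSite B j = onSite (A * B) j := by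
  rw [onSite_eq, onSite_eq, onSite_eq, tensF_mul]
  congr 1
  funext k
  by_cases hk : k = j
  · subst hk; simp
  · simp [Function.update_of_ne hk]

theorem onSite_comm (A B : M3) {j k : ι} (h : j ≠ k) :
    onSite A j * onSite B k = onSite B k * onSite A j := by
  rw [onSite_eq, onSite_eq, tensF_mul, tensF_mul]
  congr 1
  funext p
  by_cases hp : p = j
  · subst hp; simp [Function.update_of_ne h]
  · simp [Function.update_of_ne hp]

theorem onSite_conjTranspose (A : M3) (j : ι) : (onSite A j)ᴴ = onSite Aᴴ j := by
  rw [onSite_eq, onSite_eq, tensF_conjTranspose]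
  congr 1
  funext k
  by_cases hk : k = j
  · subst hk; simp
  · simp [Function.update_of_ne hk]

theorem onSite_two_apply (A B : M3) {j k : ι} (h : j ≠ k) (s t : ι → Fin 3) :
    (onSite A j * onSite B k) s t =
      if ∀ p, p ≠ j → p ≠ k → s p = t p then A (s j) (t j) * B (s k) (t k) else 0 := by
  rw [onSite_eq, onSite_eq, tensF_mul]
  simp only [tensF, Matrix.of_apply]
  have hk : k ∈ Finset.univ.erase j := Finset.mem_erase.2 ⟨h.symm, Finset.mem_univ k⟩
  rw [← Finset.mul_prod_erase _ _ (Finset.mem_univ j), ← Finset.mul_prod_erase _ _ hk,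
    Function.update_self, Function.update_self, Function.update_of_ne h,
    Function.update_of_ne h.symm, mul_one, one_mul,
    Finset.prod_congr rfl fun p hp => by
      rw [Function.update_of_ne (Finset.ne_of_mem_erase hp),
        Function.update_of_ne (Finset.ne_of_mem_erase (Finset.mem_of_mem_erase hp)), mul_one]]
  simp only [Matrix.one_apply, Finset.prod_ite_zero, Finset.mem_erase, Finset.mem_univ, and_true,
    Finset.prod_const_one, mul_ite, mul_one, mul_zero, and_imp]
  exact if_congr ⟨fun H p h1 h2 => H p h2 h1, fun H p h1 h2 => H p h2 h1⟩ rfl rfl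

/-- conjugation by a product of local invertible matrices -/
theorem tensF_conj_onSite (U U' : ι → M3) (h : ∀ k, U k * U' k = 1) (A : M3) (j : ι) :
    tensF U * onSite A j * tensF U' = onSite (U j * A * U' j) j := by
  rw [onSite_eq, onSite_eq, tensF_mul, tensF_mul]
  congr 1
  funext k
  by_cases hk : k = j
  · subst hk; simp
  · simp [Function.update_of_ne hk, h k]

/-- a (twisted) bond in integer form -/
theorem bond_int (ε : ℂ) {j k : ι} (h : j ≠ k) :
    ε • (onSite (spinOp 0) j * onSite (spinOp 0) k) + ε • (onSite (spinOp 1) j * onSite (spinOp 1) k) +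
        onSite (spinOp 2) j * onSite (spinOp 2) k =
      onSite spinZ j * onSite spinZ k +
        ε • (onSite spP j * onSite spM k + onSite spM j * onSite spP k) := by
  ext s t
  simp only [Matrix.add_apply, Matrix.smul_apply, onSite_two_apply _ _ h, smul_eq_mul]
  split_ifs
  · exact exchange ε _ _ _ _
  · simp

theorem Tens_herm (a : Fin 3) (j k : ι) :
    (onSite (spinOp a) j * onSite (spinOp a) k).IsHermitian := by
  unfold Matrix.IsHermitian
  rw [Matrix.conjTranspose_mul, onSite_conjTranspose, onSite_conjTranspose, (spinOp_herm a).eq]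
  by_cases h : j = k
  · rw [h]
  · exact (onSite_comm _ _ h).symm

theorem Tens_herm_Z (r : ℝ) (j : ι) : ((r : ℂ) • onSite spinZ j).IsHermitian := by
  unfold Matrix.IsHermitian
  have : spinZᴴ = spinZ := (spinOp_herm 2).eq
  rw [Matrix.conjTranspose_smul, onSite_conjTranspose, this, Complex.star_def, Complex.conj_ofReal]

end tens

theorem ringH_none (L : ℕ) : ringH L none = heisenbergRing L := by
  simp only [ringH, heisenbergRing, bond, sgn, Int.cast_one, ite_self, one_smul]

theorem openH_one (n : ℕ) : openH n 1 1 = openChainEndField n (3 / 5) := by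
  simp only [openH, openChainEndField, mul_one, smul_add]

/-- each term `S^a_j S^a_k` is Hermitian (`onSite_comm` for `j ≠ k`, `onSite_mul` for `j = k`) -/
theorem ringH_herm (L : ℕ) (g : Aux) : (ringH L g).IsHermitian := by
  unfold ringH Matrix.IsHermitian
  simp only [Matrix.conjTranspose_sum, Matrix.conjTranspose_smul, (Tens_herm _ _ _).eq]
  refine Finset.sum_congr rfl fun j _ => Finset.sum_congr rfl fun a _ => ?_
  split_ifs <;> simp

theorem openH_herm (n : ℕ) (s s' : ℝ) : (openH n s s').IsHermitian := by
  refine Matrix.IsHermitian.sub ?_ ((Tens_herm_Z _ _).add (Tens_herm_Z _ _))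
  unfold bond Matrix.IsHermitian
  simp only [Matrix.conjTranspose_sum, (Tens_herm _ _ _).eq]

end Crest.Agent.R347
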