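import Crest.Agent.R347.MpsDefs
import Crest.Agent.R347.Torus
import Crest.Agent.R347.Tens

/-!
# Row 347: the seven-state operator is the Hamiltonian   (task R347/MpoH)

You may use `Torus`, `SpinAlg`, `Tens` (other tasks).

Recipe.  First compute `W7 f f' p q` for all `p q` (`fin_cases`/`decide`-style): `64 • 1`, `5 • spinZ`,
`5 • spP`, `5 • spM`, `-f • spinZ`, `64 • spinZ`, …, else `0`.  Let
`O L p s t = (List.ofFn fun k => of fun a b => W7 a b (s k) (t k)).prod p 6`; then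
`mpo (sel7 p) … = O L p` and `O (L+1) p s t = ∑ q, W7 p q (s 0) (t 0) * O L q (tail s) (tail t)`
(`List.ofFn_succ`), `O 0 p = [p = 6]`.  By induction: `O (L+1) 6 = 0`, `O (L+1) 5 = 64^(L+1) • 1`,
`O (L+1) 2 = 64^(L+1) • onSite spinZ 0` (and `spM`, `spP` for `3`, `4`),
`O (L+1) 1 = 64^L • (5 • ∑ bonds - f' • onSite spinZ last)`, `O (L+2) 0 = …`.
Helper: with `cons A X s t = A (s 0) (t 0) * X (tail s) (tail t)` one has `onSite A 0 = cons A 1`,
`onSite A (succ j) = cons 1 (onSite A j)`, `cons A X * cons B Y = cons (A * B) (X * Y)`; use `bond_int`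
with `ε = 1`.
-/

set_option autoImplicit false

namespace Crest.Agent.R347

open Crest.MathPhysics.SpinChain Matrix

namespace MpoH

noncomputable section

variable {L : ℕ}

/-- one more site on the left -/
def cons (A : M3) (X : Matrix (Cfg L) (Cfg L) ℂ) : Matrix (Cfg (L + 1)) (Cfg (L + 1)) ℂ :=
  Matrix.of fun s t => A (s 0) (t 0) * X (Fin.tail s) (Fin.tail t)

theorem cons_add (A : M3) (X Y : Matrix (Cfg L) (Cfg L) ℂ) :
    cons A (X + Y) = cons A X + cons A Y := by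
  ext s t; simp [cons, mul_add]

theorem cons_sub (A : M3) (X Y : Matrix (Cfg L) (Cfg L) ℂ) :
    cons A (X - Y) = cons A X - cons A Y := by
  ext s t; simp [cons, mul_sub]

theorem cons_smul (c : ℂ) (A : M3) (X : Matrix (Cfg L) (Cfg L) ℂ) :
    cons A (c • X) = c • cons A X := by
  ext s t; simp [cons, mul_left_comm]

theorem smul_cons (c : ℂ) (A : M3) (X : Matrix (Cfg L) (Cfg L) ℂ) :
    cons (c • A) X = c • cons A X := by
  ext s t; simp [cons, mul_assoc]

theorem cons_zero (A : M3) : cons A (0 : Matrix (Cfg L) (Cfg L) ℂ) = 0 := by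
  ext s t; simp [cons]

theorem zero_cons (X : Matrix (Cfg L) (Cfg L) ℂ) : cons 0 X = 0 := by
  ext s t; simp [cons]

theorem cons_sum {α : Type} (A : M3) (I : Finset α) (X : α → Matrix (Cfg L) (Cfg L) ℂ) :
    cons A (∑ i ∈ I, X i) = ∑ i ∈ I, cons A (X i) := by
  ext s t; simp [cons, Matrix.sum_apply, Finset.mul_sum]

theorem cons_mul (A B : M3) (X Y : Matrix (Cfg L) (Cfg L) ℂ) :
    cons A X * cons B Y = cons (A * B) (X * Y) := by
  ext s t
  simp only [cons, Matrix.mul_apply, Matrix.of_apply]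
  rw [← (Fin.consEquiv fun _ : Fin (L + 1) => Fin 3).sum_comp, Fintype.sum_prod_type,
    Finset.sum_mul_sum]
  refine Finset.sum_congr rfl fun a _ => Finset.sum_congr rfl fun u _ => ?_
  exact mul_mul_mul_comm _ _ _ _

theorem tensF_succ (D : Fin (L + 1) → M3) : tensF D = cons (D 0) (tensF (Fin.tail D)) := by
  ext s t
  simp only [tensF, cons, Matrix.of_apply, Fin.prod_univ_succ, Fin.tail]

theorem cons_one : cons 1 (1 : Matrix (Cfg L) (Cfg L) ℂ) = 1 := by
  rw [← tensF_one, ← tensF_one, tensF_succ]; rfl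

theorem onSite_zero (A : M3) : onSite A (0 : Fin (L + 1)) = cons A 1 := by
  rw [onSite_eq, tensF_succ, Function.update_self, Fin.tail_update_zero, ← tensF_one]; rfl

theorem onSite_succ (A : M3) (j : Fin L) : onSite A j.succ = cons 1 (onSite A j) := by
  rw [onSite_eq, onSite_eq, tensF_succ, Function.update_of_ne (Fin.succ_ne_zero j).symm,
    Fin.tail_update_succ]; rfl

theorem bond_succ (j k : Fin L) : bond j.succ k.succ = cons 1 (bond j k) := by
  simp only [bond, cons_sum, onSite_succ, cons_mul, mul_one]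

theorem bond_zero : bond (0 : Fin (L + 2)) (Fin.succ 0) =
    cons spinZ (onSite spinZ 0) + (cons spP (onSite spM 0) + cons spM (onSite spP 0)) := by
  have h := bond_int (ι := Fin (L + 2)) 1 (Fin.succ_ne_zero 0).symm
  simp only [one_smul] at h
  rw [bond, Fin.sum_univ_three, h]
  simp only [onSite_succ, onSite_zero (L := L + 1), cons_mul, mul_one, one_mul]

/-- the sum of the bonds -/
def B (L : ℕ) : Matrix (Cfg (L + 1)) (Cfg (L + 1)) ℂ := ∑ j : Fin L, bond j.castSucc j.succ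

theorem B_succ : B (L + 1) = bond (0 : Fin (L + 2)) (Fin.succ 0) + cons 1 (B L) := by
  rw [B, Fin.sum_univ_succ, B, cons_sum]
  simp only [Fin.castSucc_zero, ← Fin.succ_castSucc, bond_succ]

/-- the table of `W7` -/
def T (f f' : ℂ) : Fin 7 → Fin 7 → M3 :=
  ![![0, (64 : ℂ) • 1, (5 : ℂ) • spinZ, (5 : ℂ) • spP, (5 : ℂ) • spM, -f • spinZ, 0],
    ![0, (64 : ℂ) • 1, (5 : ℂ) • spinZ, (5 : ℂ) • spP, (5 : ℂ) • spM, 0, -f' • spinZ],
    ![0, 0, 0, 0, 0, (64 : ℂ) • spinZ, (64 : ℂ) • spinZ],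
    ![0, 0, 0, 0, 0, (64 : ℂ) • spM, (64 : ℂ) • spM],
    ![0, 0, 0, 0, 0, (64 : ℂ) • spP, (64 : ℂ) • spP],
    ![0, 0, 0, 0, 0, (64 : ℂ) • 1, (64 : ℂ) • 1],
    ![0, 0, 0, 0, 0, 0, 0]]

theorem W7_apply (f f' : ℤ) (p q : Fin 7) (k' k : Fin 3) :
    W7 f f' p q k' k = ((((Eng.wl f f' p.val).map fun w =>
      if w.1 = q.val ∧ w.2.1 = k'.val ∧ w.2.2.1 = k.val then w.2.2.2 else 0).sum : ℤ) : ℂ) := by
  simp only [W7, Matrix.of_apply, Int.cast_list_sum, List.map_map, Function.comp_def, Int.cast_ite,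
    Int.cast_zero]

theorem fin7 {P : Fin 7 → Prop} (h0 : P 0) (h1 : P 1) (h2 : P 2) (h3 : P 3) (h4 : P 4) (h5 : P 5)
    (h6 : P 6) (q : Fin 7) : P q := by
  fin_cases q
  exacts [h0, h1, h2, h3, h4, h5, h6]

theorem W7_eq (f f' : ℤ) : W7 f f' = T f f' := by
  funext p q
  induction p using fin7 <;> induction q using fin7 <;> simp only [T, Matrix.cons_val] <;>
    ext k' k <;> rw [W7_apply] <;> induction k' using fin3_cases <;> induction k using fin3_cases <;>
    simp [Eng.wl, spinZ_eq, spP, spM]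

/-- the paths from `p` to `6` -/
def O (W : Fin 7 → Fin 7 → M3) (L : ℕ) (p : Fin 7) : Matrix (Cfg L) (Cfg L) ℂ :=
  mpo (sel7 p) fun _ : Fin L => W

variable (W : Fin 7 → Fin 7 → M3)

theorem O_apply (p : Fin 7) (s t : Cfg L) :
    O W L p s t = (List.ofFn fun k => Matrix.of fun a b => W a b (s k) (t k)).prod p 6 := by
  simp [O, mpo, chain, Matrix.trace, Matrix.mul_apply, sel7, ite_and]

theorem O_zero (p : Fin 7) : O W 0 p = if p = 6 then 1 else 0 := by
  ext s t
  rw [O_apply, Subsingleton.elim s t]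
  split_ifs with h <;> simp [h]

theorem O_succ (p : Fin 7) : O W (L + 1) p = ∑ q, cons (W p q) (O W L q) := by
  ext s t
  rw [O_apply, List.ofFn_succ, List.prod_cons, Matrix.mul_apply, Matrix.sum_apply]
  refine Finset.sum_congr rfl fun q _ => ?_
  rw [cons, Matrix.of_apply, Matrix.of_apply, O_apply]; rfl

variable (f f' : ℂ)

theorem O6 : O (T f f') (L + 1) 6 = 0 := by
  simp [O_succ, Fin.sum_univ_seven, T, zero_cons]

theorem O5' : O (T f f') (L + 1) 5 = (64 : ℂ) • cons 1 (O (T f f') L 5 + O (T f f') L 6) := by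
  simp [O_succ, Fin.sum_univ_seven, T, zero_cons, smul_cons, cons_add]

theorem O56 : O (T f f') L 5 + O (T f f') L 6 = (64 : ℂ) ^ L • 1 := by
  induction L with
  | zero => simp [O_zero]
  | succ L ih => rw [O6, add_zero, O5', ih, cons_smul, cons_one, smul_smul, pow_succ']

theorem O5 : O (T f f') (L + 1) 5 = (64 : ℂ) ^ (L + 1) • 1 := by
  rw [← O56 f f', O6, add_zero]

theorem O2 : O (T f f') (L + 1) 2 = (64 : ℂ) ^ (L + 1) • onSite spinZ 0 := by
  rw [onSite_zero, pow_succ', ← smul_smul, ← cons_smul, ← O56 f f']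
  simp [O_succ, Fin.sum_univ_seven, T, zero_cons, smul_cons, cons_add]

theorem O3 : O (T f f') (L + 1) 3 = (64 : ℂ) ^ (L + 1) • onSite spM 0 := by
  rw [onSite_zero, pow_succ', ← smul_smul, ← cons_smul, ← O56 f f']
  simp [O_succ, Fin.sum_univ_seven, T, zero_cons, smul_cons, cons_add]

theorem O4 : O (T f f') (L + 1) 4 = (64 : ℂ) ^ (L + 1) • onSite spP 0 := by
  rw [onSite_zero, pow_succ', ← smul_smul, ← cons_smul, ← O56 f f']
  simp [O_succ, Fin.sum_univ_seven, T, zero_cons, smul_cons, cons_add]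

theorem O1' : O (T f f') (L + 1) 1 = (64 : ℂ) • cons 1 (O (T f f') L 1) +
    (5 : ℂ) • cons spinZ (O (T f f') L 2) + (5 : ℂ) • cons spP (O (T f f') L 3) +
    (5 : ℂ) • cons spM (O (T f f') L 4) + -f' • cons spinZ (O (T f f') L 6) := by
  rw [O_succ, Fin.sum_univ_seven, ← smul_cons, ← smul_cons, ← smul_cons, ← smul_cons, ← smul_cons]
  simp [T, zero_cons]

theorem O0' : O (T f f') (L + 1) 0 = (64 : ℂ) • cons 1 (O (T f f') L 1) +
    (5 : ℂ) • cons spinZ (O (T f f') L 2) + (5 : ℂ) • cons spP (O (T f f') L 3) +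
    (5 : ℂ) • cons spM (O (T f f') L 4) + -f • cons spinZ (O (T f f') L 5) := by
  rw [O_succ, Fin.sum_univ_seven, ← smul_cons, ← smul_cons, ← smul_cons, ← smul_cons, ← smul_cons]
  simp [T, zero_cons]

theorem O1 : O (T f f') (L + 1) 1 =
    (64 : ℂ) ^ L • ((5 : ℂ) • B L - f' • onSite spinZ (Fin.last L)) := by
  induction L with
  | zero =>
    rw [O1', show Fin.last 0 = 0 from rfl, onSite_zero]
    simp [O_zero, cons_zero, B]
  | succ L ih =>
    rw [O1', ih, O2, O3, O4, O6, B_succ, bond_zero, ← Fin.succ_last, onSite_succ]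
    simp only [cons_smul, cons_sub, cons_zero]
    module

theorem O0 : O (T f f') (L + 2) 0 = (64 : ℂ) ^ (L + 1) •
    ((5 : ℂ) • B (L + 1) - f' • onSite spinZ (Fin.last (L + 1)) - f • onSite spinZ 0) := by
  rw [smul_sub, ← O1 f f', O0', O1' (L := L + 1), O5, O6, onSite_zero]
  simp only [cons_smul, cons_zero]
  module

end

end MpoH

theorem mpo_norm (f f' : ℤ) (L : ℕ) :
    mpo (sel7 5) (fun _ : Fin (L + 1) => W7 f f') = ((64 : ℂ) ^ (L + 1)) • 1 := by
  rw [MpoH.W7_eq]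
  exact MpoH.O5 _ _

theorem mpo_energy (s s' : ℤ) {n : ℕ} (hn : 1 ≤ n) :
    mpo (sel7 0) (fun _ : Fin (n + 1) => W7 (3 * s) (3 * s')) =
      ((5 : ℂ) * 64 ^ n) • openH n s s' := by
  obtain ⟨m, rfl⟩ : ∃ m, n = m + 1 := ⟨n - 1, by omega⟩
  rw [MpoH.W7_eq]
  refine (MpoH.O0 _ _).trans ?_
  rw [openH, MpoH.B]
  push_cast
  module

end Crest.Agent.R347
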