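import Crest.Agent.R347.EngSpec

/-!
# Row 347: the recursor-style functions of `Eng.lean` in ordinary terms   (task R347/EngTree)

All functions in `Eng.lean` are written with `Nat.rec`/`List.rec`/`Bool.rec`; their equations hold by
`rfl` (state them with `show`/`change`, or as auxiliary `rfl` lemmas), then induction.
-/

set_option autoImplicit false

namespace Crest.Agent.R347.Eng

theorem len_eq (l : List ℕ) : len l = l.length := by
  induction l with
  | nil => rfl
  | cons q t ih =>
    show Nat.succ (len t) = _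
    rw [ih]; rfl

theorem wt_eq (gs : Gs) : wt gs = (gs.map fun p => p.1 * p.2.length).sum := by
  induction gs with
  | nil => rfl
  | cons p t ih =>
    obtain ⟨k, l⟩ := p
    show k * len l + wt t = _
    rw [ih, len_eq]; simp

theorem sumFrom_eq (g : ℕ → ℕ) (l : List ℕ) (a : ℕ) : sumFrom g l a = a + (l.map g).sum := by
  induction l generalizing a with
  | nil => rfl
  | cons q t ih =>
    show sumFrom g t (a + g q) = _
    rw [ih]; simp [Nat.add_assoc]

theorem grp_eq (g : ℕ → ℕ) (k : ℕ) (l : List ℕ) (a : ℕ) : grp g k l a = a + k * (l.map g).sum := by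
  cases l with
  | nil => rfl
  | cons q t =>
    have hs : sumFrom g t (g q) = ((q :: t).map g).sum := by
      rw [sumFrom_eq]; simp
    rcases k with _ | _ | k
    · show a = _
      simp
    · show a + sumFrom g t (g q) = _
      rw [hs]; simp
    · show a + (k + 1 + 1) * sumFrom g t (g q) = _
      rw [hs]

theorem evalG_eq (g : ℕ → ℕ) (gs : Gs) (a : ℕ) :
    evalG g gs a = a + (gs.map fun p => p.1 * (p.2.map g).sum).sum := by
  induction gs generalizing a with
  | nil => rfl
  | cons p t ih =>
    obtain ⟨k, l⟩ := p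
    show evalG g t (grp g k l a) = _
    rw [ih, grp_eq]; simp [Nat.add_assoc]

theorem rep_eq (w a m : ℕ) : rep w a m = ∑ i ∈ Finset.range m, 2 ^ (w * i) * a := by
  induction m with
  | zero => rfl
  | succ m ih =>
    show rep w a m <<< w + a = _
    rw [ih, Nat.shiftLeft_eq, Finset.sum_range_succ', Finset.sum_mul]
    congr 1
    · refine Finset.sum_congr rfl fun i _ => ?_
      rw [Nat.mul_succ, pow_add]; ring
    · simp

theorem out_eq (n w s : ℕ) (l : List (ℕ × ℕ × ℕ)) (x : T n) :
    out n w s l x =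
      (l.map fun e => e.1 * (get n x e.2.1 / 2 ^ (w * e.2.2 + s) % 2 ^ (w - s))).sum := by
  induction l with
  | nil => rfl
  | cons p t ih =>
    obtain ⟨k, q, i⟩ := p
    show k * (get n x q >>> (w * i + s) % 2 ^ (w - s)) + out n w s t x = _
    rw [ih, Nat.shiftRight_eq_div_pow]; simp

theorem look_eq (w Fs : ℕ) (l : List (ℕ × ℕ × ℕ)) (c : ℕ) :
    look w Fs l c = (l.map fun e => if e.2.1 = c then 2 ^ (w * e.2.2 + Fs) else 0).sum := by
  induction l with
  | nil => rfl
  | cons p t ih =>
    obtain ⟨k, q, i⟩ := p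
    show Bool.rec (motive := fun _ => ℕ) (look w Fs t c) (2 ^ (w * i + Fs) + look w Fs t c)
      (Nat.beq q c) = _
    rw [ih]
    by_cases h : q = c
    · have : Nat.beq q c = true := by rw [h]; exact Nat.beq_refl c
      rw [this]; simp [h]
    · have : Nat.beq q c = false := by
        cases hb : Nat.beq q c
        · rfl
        · exact absurd (Nat.eq_of_beq_eq_true hb) h
      rw [this]; simp [h]

theorem rnd_lt (c : ℕ) : rnd c < 2 ^ 58 := by
  have h : rnd c < 288230376151711717 := Nat.mod_lt _ (by decide)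
  exact lt_trans h (by norm_num)

theorem tree_sel {α : Type} (F : ℕ → α) (p d : ℕ) (hd : d < 9) :
    sel d (V.mk (F (9 * p)) (F (9 * p + 1)) (F (9 * p + 2)) (F (9 * p + 3)) (F (9 * p + 4))
      (F (9 * p + 5)) (F (9 * p + 6)) (F (9 * p + 7)) (F (9 * p + 8))) = F (9 * p + d) := by
  interval_cases d <;> rfl

theorem tree_build_succ (emp : ℕ → ℕ → Bool) (f : ℕ → ℕ) (n p : ℕ) (h : emp (n + 1) p = false) :
    build emp f (n + 1) p = V.mk (build emp f n (9 * p)) (build emp f n (9 * p + 1))
      (build emp f n (9 * p + 2)) (build emp f n (9 * p + 3)) (build emp f n (9 * p + 4))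
      (build emp f n (9 * p + 5)) (build emp f n (9 * p + 6)) (build emp f n (9 * p + 7))
      (build emp f n (9 * p + 8)) := by
  show Bool.rec (motive := fun _ => V (T n)) (V.mk (build emp f n (9 * p)) (build emp f n (9 * p + 1))
      (build emp f n (9 * p + 2)) (build emp f n (9 * p + 3)) (build emp f n (9 * p + 4))
      (build emp f n (9 * p + 5)) (build emp f n (9 * p + 6)) (build emp f n (9 * p + 7))
      (build emp f n (9 * p + 8))) (zero (n + 1)) (emp (n + 1) p) = _
  rw [h]

/-- induction on `n`, generalising the prefix: for `c / 9^n = p` and no cut along the path,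
`get n (build emp f n p) c = f c`  (`sel d (V.mk a₀ … a₈) = a_d` for `d < 9`) -/
theorem get_build (emp : ℕ → ℕ → Bool) (f : ℕ → ℕ) (n : ℕ) (c : ℕ)
    (h : ∀ k, k ≤ n → emp k (c / 9 ^ k) = false) : get n (build emp f n (c / 9 ^ n)) c = f c := by
  induction n with
  | zero =>
    have h0 := h 0 le_rfl
    rw [pow_zero, Nat.div_one] at h0 ⊢
    show Bool.rec (motive := fun _ => ℕ) (f c) 0 (emp 0 c) = _
    rw [h0]
  | succ n ih =>
    rw [tree_build_succ emp f n _ (h (n + 1) le_rfl)]
    show get n (sel (c / 9 ^ n % 9) _) c = _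
    rw [tree_sel (build emp f n) _ _ (Nat.mod_lt _ (by decide))]
    have e : 9 * (c / 9 ^ (n + 1)) + c / 9 ^ n % 9 = c / 9 ^ n := by
      rw [pow_succ, ← Nat.div_div_eq_div_mul]
      exact Nat.div_add_mod _ _
    rw [e]
    exact ih fun k hk => h k (Nat.le_succ_of_le hk)

theorem get_genBuild (M : Mat) (f : ℕ → ℕ) {c : ℕ} (h : M.valid c) :
    get M.n (genBuild M f) c = f c := by
  have := get_build M.emp f M.n c h.2
  rw [Nat.div_eq_of_lt h.1] at this
  exact this

theorem get_genStep (M : Mat) (B' mask : ℕ) (x o : T M.n) {c : ℕ} (h : M.valid c) :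
    get M.n (genStep M B' mask x o) c = leaf M B' mask x o c := by
  have := get_build M.emp (leaf M B' mask x o) M.n c h.2
  rw [Nat.div_eq_of_lt h.1] at this
  exact this

theorem dig_eq (c j : ℕ) : dig c j = c / 3 ^ j % 3 := rfl

theorem dsum_eq (k c : ℕ) : dsum k c = ∑ j ∈ Finset.range k, c / 3 ^ j % 3 := by
  induction k generalizing c with
  | zero => rfl
  | succ k ih =>
    show c % 3 + dsum k (c / 3) = _
    rw [ih, Finset.sum_range_succ', add_comm]
    congr 1
    · refine Finset.sum_congr rfl fun j _ => ?_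
      rw [pow_succ', Nat.div_div_eq_div_mul]
    · simp

theorem tree_cfg_eq (L : ℕ) (c : Fin (3 ^ L)) : cfg L c.val = finFunctionFinEquiv.symm c := by
  funext k
  apply Fin.ext
  rw [finFunctionFinEquiv_symm_apply_val]
  rfl

theorem cfg_inj {L c c' : ℕ} (h : c < 3 ^ L) (h' : c' < 3 ^ L) (e : cfg L c = cfg L c') : c = c' := by
  have e' : finFunctionFinEquiv.symm (⟨c, h⟩ : Fin (3 ^ L)) = finFunctionFinEquiv.symm ⟨c', h'⟩ := by
    rw [← tree_cfg_eq, ← tree_cfg_eq]; exact e
  exact congrArg Fin.val (finFunctionFinEquiv.symm.injective e')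

theorem cfg_surj {L : ℕ} (σ : Cfg L) : ∃ c, c < 3 ^ L ∧ cfg L c = σ := by
  refine ⟨(finFunctionFinEquiv σ).val, (finFunctionFinEquiv σ).2, ?_⟩
  rw [tree_cfg_eq]; simp

theorem sum_cfg {L : ℕ} (f : Cfg L → ℂ) : ∑ σ, f σ = ∑ c ∈ Finset.range (3 ^ L), f (cfg L c) := by
  rw [Finset.sum_range fun c => f (cfg L c), ← finFunctionFinEquiv.symm.sum_comp]
  exact Finset.sum_congr rfl fun c _ => by rw [tree_cfg_eq]

theorem dsum_cfg (L c : ℕ) : dsum L c = ∑ k : Fin L, (cfg L c k).val := by
  rw [dsum_eq, Finset.sum_range fun j => c / 3 ^ j % 3]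
  rfl

end Crest.Agent.R347.Eng
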