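import Crest.Agent.R347.MpsDefs
import Crest.Agent.R347.EngTree

/-!
# Row 347: `mpsMat` represents the sandwich matrix   (task R347/MpsRep)

You may use `EngTree` (other task).

Recipe.  `gsum y (splitRow l).1 - gsum y (splitRow l).2 = (l.map fun e => e.1 * y e.2).sum`, and
`codes` of both halves are among the `e.2`.  Expand `mpsEnt` (`List.sum_flatMap`-style lemmas or
induction), `adj` as a sum over `Fin D` with the condition of `tenA` (`star` of an integer cast is itself),
`W7` as the sum over `wl`; every entry `(q, k', k, _)` of `wl f f' p` has `q < 7`, `k', k < 3` and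
`kap q + k' = kap p + k` (check the cases `p = 0, …, 6`), which gives `closed`.
-/

set_option autoImplicit false
set_option linter.unusedSimpArgs false

namespace Crest.Agent.R347.Eng

open Matrix

theorem mr_gsum (y : ℕ → ℂ) (l : List (ℤ × ℕ)) :
    gsum y (splitRow l).1 - gsum y (splitRow l).2 = (l.map fun e => (e.1 : ℂ) * y e.2).sum := by
  induction l with
  | nil => simp [gsum, splitRow]
  | cons e l ih =>
    rw [List.map_cons, List.sum_cons, ← ih]
    obtain ⟨a, q⟩ := e
    rcases lt_trichotomy a 0 with h | h | h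
    · have h1 : (((-a).toNat : ℕ) : ℂ) = -a := by
        rw [← Int.cast_natCast, Int.toNat_of_nonneg (by omega), Int.cast_neg]
      have h2 : ¬ 0 < a := by omega
      simp only [gsum, splitRow, List.filter_cons, h, h2, decide_true, decide_false, if_true,
        List.map_cons, List.sum_cons, List.map_nil, List.sum_nil, h1, Bool.false_eq_true, if_false]
      ring
    · subst h
      simp [gsum, splitRow]
    · have h1 : ((a.toNat : ℕ) : ℂ) = a := by
        rw [← Int.cast_natCast, Int.toNat_of_nonneg h.le]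
      have h2 : ¬ a < 0 := by omega
      simp only [gsum, splitRow, List.filter_cons, h, h2, decide_true, decide_false, if_true,
        List.map_cons, List.sum_cons, List.map_nil, List.sum_nil, h1, Bool.false_eq_true, if_false]
      ring

theorem mr_codes {l : List (ℤ × ℕ)} {q : ℕ}
    (h : q ∈ codes (splitRow l).1 ++ codes (splitRow l).2) : ∃ e ∈ l, e.2 = q := by
  simp only [codes, splitRow, List.mem_append, List.mem_flatMap, List.mem_map, List.mem_filter] at h
  rcases h with ⟨_, ⟨e, ⟨he, -⟩, rfl⟩, h⟩ | ⟨_, ⟨e, ⟨he, -⟩, rfl⟩, h⟩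
  · exact ⟨e, he, (List.mem_singleton.1 h).symm⟩
  · exact ⟨e, he, (List.mem_singleton.1 h).symm⟩

theorem mr_wl (f f' : ℤ) (p : ℕ) : ∀ w ∈ wl f f' p,
    w.1 < 7 ∧ w.2.1 < 3 ∧ w.2.2.1 < 3 ∧ kap w.1 + w.2.1 = kap p + w.2.2.1 := by
  match p with
  | 0 => simp [wl, kap]
  | 1 => simp [wl, kap]
  | 2 => simp [wl, kap]
  | 3 => simp [wl, kap]
  | 4 => simp [wl, kap]
  | 5 => simp [wl, kap]
  | n + 6 => simp [wl]

theorem mr_adj {N Q D k a : ℕ} {e : ℕ × ℤ} (h : e ∈ adj N Q D k a) :
    e.1 < D ∧ chg Q e.1 + k = chg Q a + 1 := by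
  simp only [adj, List.mem_map, List.mem_filter, List.mem_range, beq_iff_eq] at h
  obtain ⟨b, hb, rfl⟩ := h
  exact hb

theorem mr_adj_sum (N Q D k a : ℕ) (g : ℕ × ℤ → ℂ) :
    ((adj N Q D k a).map g).sum =
      ∑ b : Fin D, if chg Q b.val + k = chg Q a + 1 then g (b.val, ent N D a b.val) else 0 := by
  rw [Fin.sum_univ_eq_sum_range
    (fun b => if chg Q b + k = chg Q a + 1 then g (b, ent N D a b) else 0) D, adj]
  generalize ent N D a = E
  induction D with
  | zero => simp
  | succ D ih =>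
    rw [List.range_succ, Finset.sum_range_succ, ← ih, List.filter_append, List.map_append,
      List.map_append, List.sum_append]
    congr 1
    by_cases h : chg Q D + k = chg Q a + 1 <;> simp [h]

theorem mr_flat {α β : Type} (l : List α) (F : α → List β) (g : β → ℂ) :
    ((l.flatMap F).map g).sum = (l.map fun a => ((F a).map g).sum).sum := by
  induction l with
  | nil => simp
  | cons a l ih => simp [ih]

theorem mr_W (l : List (ℕ × ℕ × ℕ × ℤ)) (hl : ∀ w ∈ l, w.1 < 7 ∧ w.2.1 < 3 ∧ w.2.2.1 < 3)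
    (F : Fin 7 → Fin 3 → Fin 3 → ℂ) :
    ∑ q : Fin 7, ∑ k' : Fin 3, ∑ k : Fin 3, (l.map fun w =>
      if w.1 = q.val ∧ w.2.1 = k'.val ∧ w.2.2.1 = k.val then (w.2.2.2 : ℂ) else 0).sum * F q k' k =
    (l.map fun w => (w.2.2.2 : ℂ) * F (Fin.ofNat 7 w.1) (Fin.ofNat 3 w.2.1) (Fin.ofNat 3 w.2.2.1)).sum := by
  induction l with
  | nil => simp
  | cons w l ih =>
    obtain ⟨h1, h2, h3⟩ := hl w List.mem_cons_self
    simp only [List.map_cons, List.sum_cons, add_mul, Finset.sum_add_distrib]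
    rw [ih fun w hw => hl w (List.mem_cons_of_mem _ hw)]
    congr 1
    have e1 : ∀ q : Fin 7, w.1 = q.val ↔ Fin.ofNat 7 w.1 = q := fun q => by
      rw [Fin.ext_iff, Fin.val_ofNat, Nat.mod_eq_of_lt h1]
    have e2 : ∀ q : Fin 3, w.2.1 = q.val ↔ Fin.ofNat 3 w.2.1 = q := fun q => by
      rw [Fin.ext_iff, Fin.val_ofNat, Nat.mod_eq_of_lt h2]
    have e3 : ∀ q : Fin 3, w.2.2.1 = q.val ↔ Fin.ofNat 3 w.2.2.1 = q := fun q => by
      rw [Fin.ext_iff, Fin.val_ofNat, Nat.mod_eq_of_lt h3]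
    simp only [e1, e2, e3]
    generalize Fin.ofNat 7 w.1 = a
    generalize Fin.ofNat 3 w.2.1 = b
    generalize Fin.ofNat 3 w.2.2.1 = c
    simp only [ite_and, ite_mul, zero_mul, Finset.sum_ite_irrel, Finset.sum_const_zero,
      Finset.sum_ite_eq, Finset.mem_univ, if_true]

theorem mr_div {D b : ℕ} (u : ℕ) (hb : b < D) : (u * D + b) / D = u ∧ (u * D + b) % D = b := by
  constructor
  · rw [Nat.add_comm, Nat.add_mul_div_right _ _ (by omega), Nat.div_eq_of_lt hb, Nat.zero_add]
  · rw [Nat.add_comm, Nat.add_mul_mod_self_right, Nat.mod_eq_of_lt hb]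

theorem mr_dec {D : ℕ} [NeZero D] (b' b : Fin D) {q : ℕ} (hq : q < 7) :
    decM D ((b'.val * 7 + q) * D + b.val) = (b', Fin.ofNat 7 q, b) := by
  obtain ⟨h1, h2⟩ := mr_div (b'.val * 7 + q) b.isLt
  obtain ⟨h3, h4⟩ := mr_div b'.val hq
  simp only [decM, h1, h3, Prod.mk.injEq, Fin.ext_iff, Fin.val_ofNat, h2, h4,
    Nat.mod_eq_of_lt b'.isLt, Nat.mod_eq_of_lt hq, and_self]

theorem mr_lt {D c : ℕ} (h : c < 7 * D * D) : c / D / 7 < D := by
  have h1 : c / D < 7 * D := Nat.div_lt_of_lt_mul (by rwa [Nat.mul_comm])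
  omega

theorem mr_ok {Q D dl c : ℕ} : mpsOk Q D dl c = true ↔
    c < 7 * D * D ∧ chg Q (c / D / 7) + 17 = chg Q (c % D) + kap (c / D % 7) + dl := by
  simp [mpsOk]

theorem mr_comm4 {α β γ δ : Type} [Fintype α] [Fintype β] [Fintype γ] [Fintype δ]
    (F : α → β → γ → δ → ℂ) :
    ∑ a, ∑ b, ∑ c, ∑ d, F a b c d = ∑ c, ∑ d, ∑ a, ∑ b, F a b c d := by
  have := Finset.sum_comm (s := (Finset.univ : Finset (α × β))) (t := (Finset.univ : Finset (γ × δ)))
    (f := fun x y => F x.1 x.2 y.1 y.2)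
  simpa only [Fintype.sum_prod_type] using this

theorem mr_row (N Q : ℕ) {D : ℕ} [NeZero D] (f f' : ℤ) {c : ℕ} (hc : c < 7 * D * D)
    (y : Fin D × Fin 7 × Fin D → ℂ) :
    ((mpsEnt N Q D f f' c).map fun e => (e.1 : ℂ) * y (decM D e.2)).sum =
      ∑ q, sand (tenA N Q D) (W7 f f') (decM D c) q * y q := by
  have hl := fun w hw => mr_wl f f' (c / D % 7) w hw
  have key := mr_W (wl f f' (c / D % 7)) (fun w hw => ⟨(hl w hw).1, (hl w hw).2.1, (hl w hw).2.2.1⟩)
    fun q k' k => ∑ b' : Fin D, ∑ b : Fin D,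
      star (tenA N Q D k' (decM D c).1 b') * tenA N Q D k (decM D c).2.2 b * y (b', q, b)
  have e1 : (decM D c).1.val = c / D / 7 := Nat.mod_eq_of_lt (mr_lt hc)
  have e2 : (decM D c).2.2.val = c % D := rfl
  rw [mpsEnt, mr_flat]
  refine Eq.trans ?_ (key.symm.trans ?_)
  · congr 1
    refine List.map_congr_left fun w hw => ?_
    obtain ⟨h1, h2, h3, -⟩ := hl w hw
    rw [mr_flat, mr_adj_sum, Finset.mul_sum]
    refine Finset.sum_congr rfl fun b' _ => ?_
    rw [List.map_map, mr_adj_sum, Finset.mul_sum]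
    simp only [tenA, Matrix.of_apply, e1, e2, Fin.val_ofNat, Nat.mod_eq_of_lt h2,
      Nat.mod_eq_of_lt h3, Function.comp_apply, mr_dec _ _ h1]
    split_ifs with h
    · refine Finset.sum_congr rfl fun b _ => ?_
      split_ifs with h'
      · simp only [star_intCast]
        push_cast
        ring
      · simp
    · simp
  · simp only [Fintype.sum_prod_type, sand, Matrix.of_apply, Finset.sum_mul, Finset.mul_sum]
    rw [Finset.sum_comm (γ := Fin D)]
    refine Finset.sum_congr rfl fun q _ => ?_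
    rw [mr_comm4]
    refine Finset.sum_congr rfl fun a _ => Finset.sum_congr rfl fun b _ =>
      Finset.sum_congr rfl fun k' _ => Finset.sum_congr rfl fun k _ => ?_
    simp only [W7, Matrix.of_apply]
    have : (decM D c).2.1.val = c / D % 7 := rfl
    rw [this]
    ring

theorem mps_rep {N Q D : ℕ} [NeZero D] {f f' : ℤ} {dl n s t Λ : ℕ}
    (h : mpsCheck N Q D f f' dl n s t Λ = true) :
    Rep (mpsMat N Q D f f' dl n s t) (mpsOk Q D dl) t (decM D)
      (((1 : ℂ) / 2 ^ s) • sand (tenA N Q D) (W7 f f')) ∧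
    ∀ c, mpsOk Q D dl c = true → wt ((mpsMat N Q D f f' dl n s t).row c).1 +
      wt ((mpsMat N Q D f f' dl n s t).row c).2 ≤ Λ := by
  simp only [mpsCheck, Bool.and_eq_true, decide_eq_true_eq, List.all_eq_true, List.mem_range,
    Bool.or_eq_true, Bool.not_eq_true', Nat.ble_eq] at h
  obtain ⟨⟨⟨h1, h2⟩, h3⟩, h4⟩ := h
  have hwt : ∀ c, mpsOk Q D dl c = true → wt ((mpsMat N Q D f f' dl n s t).row c).1 +
      wt ((mpsMat N Q D f f' dl n s t).row c).2 ≤ Λ := by
    intro c hc
    rcases h4 c (mr_ok.1 hc).1 with h | h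
    · rw [hc] at h
      exact absurd h (by simp)
    · exact h
  refine ⟨⟨⟨fun c hc => ⟨lt_of_lt_of_le (mr_ok.1 hc).1 h1, fun k _ => ?_⟩, fun c hc q hq => ?_,
    fun c hc => ?_, by simp [mpsMat], h2⟩, fun c c' hc hc' e => ?_, fun c hc y => ?_⟩, hwt⟩
  · show mpsEmp Q D dl k (c / 9 ^ k) = false
    unfold mpsEmp
    split_ifs with hk
    · simp [hk, hc]
    · have := Nat.div_mul_le_self c (9 ^ k)
      have := (mr_ok.1 hc).1
      simp only [decide_eq_false_iff_not]
      omega
  · obtain ⟨e, he, rfl⟩ := mr_codes hq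
    simp only [mpsEnt, List.mem_flatMap, List.mem_map] at he
    obtain ⟨w, hw, e', he', e, he, rfl⟩ := he
    obtain ⟨a1, -, -, a2⟩ := mr_wl _ _ _ w hw
    obtain ⟨a3, a4⟩ := mr_adj he'
    obtain ⟨a5, a6⟩ := mr_adj he
    obtain ⟨b1, b2⟩ := mr_div (e'.1 * 7 + w.1) a5
    obtain ⟨b3, b4⟩ := mr_div e'.1 a1
    have a7 := (mr_ok.1 hc).2
    rw [mr_ok]
    simp only [b1, b2, b3, b4]
    refine ⟨?_, by omega⟩
    have : (e'.1 * 7 + w.1 + 1) * D ≤ 7 * D * D := Nat.mul_le_mul_right _ (by omega)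
    rw [Nat.add_mul, Nat.one_mul] at this
    omega
  · have := hwt c hc
    have e : (mpsMat N Q D f f' dl n s t).base = 2 ^ (s + 1) * t + 2 ^ s := rfl
    omega
  · have a1 := mr_lt (mr_ok.1 hc).1
    have a2 := mr_lt (mr_ok.1 hc').1
    simp only [decM, Prod.mk.injEq, Fin.ext_iff, Fin.val_ofNat, Nat.mod_eq_of_lt a1,
      Nat.mod_eq_of_lt a2] at e
    obtain ⟨e1, e2, e3⟩ := e
    have e4 : c / D = c' / D := by omega
    rw [← Nat.div_add_mod c D, ← Nat.div_add_mod c' D, e4, e3]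
  · refine ((mr_gsum _ _).trans (mr_row N Q f f' (mr_ok.1 hc).1 y)).trans ?_
    rw [Finset.mul_sum]
    refine Finset.sum_congr rfl fun q _ => ?_
    have e : (mpsMat N Q D f f' dl n s t).s = s := rfl
    rw [e, Matrix.smul_apply, smul_eq_mul]
    field_simp

theorem tenA_tenG (N Q D : ℕ) (tw : Bool) (k : Fin 3) :
    tenA N Q D k * tenG Q D tw =
      rot (if tw then some 2 else none) k k • (tenG Q D tw * tenA N Q D k) := by
  cases tw
  · simp [tenG, rot]
  · ext a b
    simp only [tenG, if_true, Matrix.mul_diagonal, Matrix.diagonal_mul, Matrix.smul_apply, tenA,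
      Matrix.of_apply, smul_eq_mul]
    split_ifs with h
    · fin_cases k
      · simp only [Fin.zero_eta, Fin.val_zero, add_zero] at h
        simp [rot, h, pow_succ, mul_comm]
      · simp only [Fin.mk_one, Fin.val_one, add_left_inj] at h
        simp [rot, h, mul_comm]
      · have h' : chg Q a.val = chg Q b.val + 1 := by
          simp only [Fin.reduceFinMk, Fin.coe_ofNat_eq_mod, Nat.reduceMod] at h
          omega
        simp [rot, h', pow_succ, mul_comm]
    · simp

end Crest.Agent.R347.Eng
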