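import Crest.Agent.R347.Tens
import Crest.Agent.R347.EngTree

/-!
# Row 347: lattice symmetries of the ring   (task R347/Symm)

You may use `SpinAlg`, `Tens`, `EngTree` (other tasks).
-/

set_option autoImplicit false

namespace Crest.Agent.R347

open Crest.MathPhysics.SpinChain Matrix

def shiftC {L : ℕ} (σ : Cfg L) : Cfg L := fun k => σ (finRotate L k)
def reflC {L : ℕ} (σ : Cfg L) : Cfg L := fun k => σ (Fin.rev k)
def flipS {L : ℕ} (σ : Cfg L) : Cfg L := fun k => Fin.rev (σ k)

theorem onSite_two_perm {ι : Type} [Fintype ι] [DecidableEq ι] (π : ι ≃ ι) (A B : M3) (j k : ι)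
    (σ τ : ι → Fin 3) : (onSite A j * onSite B k) (σ ∘ π) (τ ∘ π) =
      (onSite A (π j) * onSite B (π k)) σ τ := by
  rw [onSite_eq, onSite_eq, onSite_eq, onSite_eq, tensF_mul, tensF_mul]
  simp only [tensF, Matrix.of_apply, Function.comp]
  refine Fintype.prod_equiv π _ _ fun p => ?_
  simp only [Function.update_apply, π.injective.eq_iff]

/-- conjugation of a bond term by a product of local involutions -/
theorem symm_conj {ι : Type} [Fintype ι] [DecidableEq ι] (U : ι → M3) (hU : ∀ k, U k * U k = 1)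
    (A : M3) (c : ι → ℂ) (hc : ∀ k, U k * A * U k = c k • A) (p q : ι) :
    tensF U * (onSite A p * onSite A q) * tensF U = (c p * c q) • (onSite A p * onSite A q) := by
  have h1 : tensF U * tensF U = 1 := by
    rw [tensF_mul]
    simp only [hU, tensF_one]
  have h2 : tensF U * (onSite A p * onSite A q) * tensF U =
      (tensF U * onSite A p * tensF U) * (tensF U * onSite A q * tensF U) := by
    simp only [Matrix.mul_assoc]
    rw [← Matrix.mul_assoc (tensF U) (tensF U), h1, Matrix.one_mul]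
  rw [h2, tensF_conj_onSite U U hU, tensF_conj_onSite U U hU, hc, hc, onSite_smul, onSite_smul,
    smul_mul_smul_comm]

theorem symm_rot_sq (g : Aux) : rot g * rot g = 1 := by
  rw [rot_rep.mul, gmul_self, rot_none]

theorem symm_sgn_sq (g a : Aux) : (sgn g a : ℂ) * (sgn g a : ℂ) = 1 := by
  rw [← Int.cast_mul, sgn_mul_self, Int.cast_one]

theorem symm_rot_off {g : Aux} (hg : g = none ∨ g = some 2) {a b : Fin 3} (h : a ≠ b) :
    rot g a b = 0 := by
  rcases hg with rfl | rfl
  · rw [rot_none, Matrix.one_apply_ne h]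
  · revert h
    fin_cases a <;> fin_cases b <;> simp [rot_two]

theorem symm_rotate_zero {L : ℕ} (j : Fin (L + 1)) :
    finRotate (L + 1) j = 0 ↔ j.val + 1 = L + 1 := by
  rw [Fin.ext_iff, coe_finRotate]
  split_ifs with h
  · simp [h]
  · have h' : j.val ≠ L := fun e => h (Fin.ext e)
    simp [h']

theorem symm_ringH_apply (L : ℕ) (g : Aux) (σ τ : Cfg L) :
    ringH L g σ τ = ∑ j : Fin L, ∑ a : Fin 3,
      (if j.val + 1 = L then (sgn g (some a) : ℂ) else 1) *
        (onSite (spinOp a) j * onSite (spinOp a) (finRotate L j)) σ τ := by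
  simp only [ringH, Matrix.sum_apply, Matrix.smul_apply, smul_eq_mul]

/-- the gauge sign of the twist `g ∈ {1, z}` at site `0` -/
def gauge {L : ℕ} (g : Aux) (σ : Cfg (L + 1)) : ℂ := rot g (σ 0) (σ 0)

theorem symm_gauge_diag {L : ℕ} {g : Aux} (hg : g = none ∨ g = some 2) :
    onSite (rot g) (0 : Fin (L + 1)) = Matrix.diagonal (gauge g) := by
  ext σ τ
  simp only [onSite, Matrix.of_apply, Matrix.diagonal_apply, gauge]
  by_cases h : σ = τ
  · subst h
    simp
  · rw [if_neg h]
    split_ifs with h1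
    · refine symm_rot_off hg fun h0 => h (funext fun k => ?_)
      by_cases hk : k = 0
      · rw [hk, h0]
      · exact h1 k hk
    · rfl

theorem symm_gauge_sq {L : ℕ} {g : Aux} (hg : g = none ∨ g = some 2) (σ : Cfg (L + 1)) :
    gauge g σ * gauge g σ = 1 := by
  unfold gauge
  generalize σ 0 = a
  rcases hg with rfl | rfl
  · simp [rot_none]
  · fin_cases a <;> simp [rot_two]

theorem symm_gauge_flip {L : ℕ} {g : Aux} (hg : g = none ∨ g = some 2) (σ : Cfg (L + 1)) :
    gauge g (flipS σ) = gauge g σ := by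
  unfold gauge flipS
  generalize σ 0 = a
  rcases hg with rfl | rfl
  · simp [rot_none]
  · fin_cases a <;> simp [rot_two, Fin.rev]

theorem symm_gauge_bond {L : ℕ} {g : Aux} (hg : g = none ∨ g = some 2) (a : Fin 3)
    (p q : Fin (L + 1)) (σ τ : Cfg (L + 1)) :
    gauge g σ * gauge g τ * (onSite (spinOp a) p * onSite (spinOp a) q) σ τ =
      (if p = 0 then (sgn g (some a) : ℂ) else 1) * (if q = 0 then (sgn g (some a) : ℂ) else 1) *
        (onSite (spinOp a) p * onSite (spinOp a) q) σ τ := by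
  have h := symm_conj (Function.update (fun _ : Fin (L + 1) => (1 : M3)) 0 (rot g))
    (fun k => by
      rw [Function.update_apply]
      split_ifs
      · exact symm_rot_sq g
      · exact Matrix.one_mul _)
    (spinOp a) (fun k => if k = 0 then (sgn g (some a) : ℂ) else 1)
    (fun k => by
      rw [Function.update_apply]
      split_ifs
      · exact rot_spin g a
      · simp) p q
  rw [← onSite_eq, symm_gauge_diag hg] at h
  have h' := congrFun (congrFun h σ) τ
  rw [Matrix.mul_diagonal, Matrix.diagonal_mul, Matrix.smul_apply, smul_eq_mul] at h'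
  rw [← h']
  ring

/-- After the shift the twist sits on the bond `(0, 1)`; conjugating with the diagonal matrix
`onSite (rot g) 0` moves it back to `(last, 0)`  (`rot_spin`; needs `L + 1 ≥ 2`). -/
theorem ringH_shift {L : ℕ} (hL : 1 ≤ L) {g : Aux} (hg : g = none ∨ g = some 2)
    (σ τ : Cfg (L + 1)) :
    ringH (L + 1) g (shiftC σ) (shiftC τ) = gauge g σ * gauge g τ * ringH (L + 1) g σ τ := by
  rw [symm_ringH_apply, symm_ringH_apply, Finset.mul_sum,
    ← Equiv.sum_comp (finRotate (L + 1))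
      (fun j => gauge g σ * gauge g τ * ∑ a : Fin 3,
        (if j.val + 1 = L + 1 then (sgn g (some a) : ℂ) else 1) *
          (onSite (spinOp a) j * onSite (spinOp a) (finRotate (L + 1) j)) σ τ)]
  refine Finset.sum_congr rfl fun j _ => ?_
  rw [Finset.mul_sum]
  refine Finset.sum_congr rfl fun a _ => ?_
  have h1 := onSite_two_perm (finRotate (L + 1)) (spinOp a) (spinOp a) j (finRotate (L + 1) j) σ τ
  have h2 := symm_gauge_bond hg a (finRotate (L + 1) j)
    (finRotate (L + 1) (finRotate (L + 1) j)) σ τ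
  simp only [symm_rotate_zero] at h2
  have h3 : (if (finRotate (L + 1) j).val + 1 = L + 1 then (sgn g (some a) : ℂ) else 1) *
      (if (finRotate (L + 1) j).val + 1 = L + 1 then (sgn g (some a) : ℂ) else 1) = 1 := by
    split_ifs
    · exact symm_sgn_sq _ _
    · exact one_mul _
  change _ * (onSite (spinOp a) j * onSite (spinOp a) (finRotate (L + 1) j))
    (σ ∘ finRotate (L + 1)) (τ ∘ finRotate (L + 1)) = _
  rw [h1, mul_left_comm, h2]
  generalize (onSite (spinOp a) (finRotate (L + 1) j) *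
    onSite (spinOp a) (finRotate (L + 1) (finRotate (L + 1) j))) σ τ = X
  generalize (if (finRotate (L + 1) j).val + 1 = L + 1 then (sgn g (some a) : ℂ) else 1) = u at h3 ⊢
  generalize (if j.val + 1 = L + 1 then (sgn g (some a) : ℂ) else 1) = v
  linear_combination (-(v * X)) * h3

theorem symm_rot_rev {L : ℕ} (j : Fin (L + 1)) :
    finRotate (L + 1) (Fin.rev (finRotate (L + 1) j)) = Fin.rev j := by
  have hj := j.isLt
  refine Fin.ext ?_
  rw [coe_finRotate]
  simp only [Fin.ext_iff, Fin.val_rev, coe_finRotate, Fin.val_last]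
  split_ifs <;> omega

theorem symm_rev_last {L : ℕ} (j : Fin (L + 1)) :
    (Fin.rev (finRotate (L + 1) j)).val + 1 = L + 1 ↔ j.val + 1 = L + 1 := by
  have hj := j.isLt
  simp only [Fin.ext_iff, Fin.val_rev, coe_finRotate, Fin.val_last]
  split_ifs <;> omega

theorem ringH_refl {L : ℕ} (hL : 1 ≤ L) (g : Aux) (σ τ : Cfg (L + 1)) :
    ringH (L + 1) g (reflC σ) (reflC τ) = ringH (L + 1) g σ τ := by
  rw [symm_ringH_apply, symm_ringH_apply,
    ← Equiv.sum_comp ((finRotate (L + 1)).trans Fin.revPerm)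
      (fun j => ∑ a : Fin 3,
        (if j.val + 1 = L + 1 then (sgn g (some a) : ℂ) else 1) *
          (onSite (spinOp a) j * onSite (spinOp a) (finRotate (L + 1) j)) σ τ)]
  refine Finset.sum_congr rfl fun j _ => Finset.sum_congr rfl fun a _ => ?_
  have h1 := onSite_two_perm Fin.revPerm (spinOp a) (spinOp a) j (finRotate (L + 1) j) σ τ
  change _ * (onSite (spinOp a) j * onSite (spinOp a) (finRotate (L + 1) j))
    (σ ∘ Fin.revPerm) (τ ∘ Fin.revPerm) = _
  rw [h1]
  simp only [Equiv.trans_apply, Fin.revPerm_apply, symm_rot_rev, symm_rev_last]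
  congr 1
  by_cases h : Fin.rev j = Fin.rev (finRotate (L + 1) j)
  · rw [← h]
  · rw [onSite_comm _ _ h]

/-- `tens L (rot (some 0)) s t = if t = flipS s then (-1)^L else 0` -/
theorem tens_rotx {L : ℕ} (s t : Cfg L) :
    tens L (rot (some 0)) s t = if t = flipS s then (-1) ^ L else 0 := by
  have h : ∀ a b : Fin 3, rot (some 0) a b = if b = Fin.rev a then -1 else 0 := by
    intro a b
    fin_cases a <;> fin_cases b <;> simp [rot_zero, Fin.rev]
  simp only [tens, tensF, Matrix.of_apply, h, Finset.prod_ite_zero, Finset.mem_univ, true_imp_iff,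
    Finset.prod_const, Finset.card_univ, Fintype.card_fin, funext_iff, flipS]

theorem tens_rotz {L : ℕ} (s t : Cfg L) :
    tens L (rot (some 2)) s t = if t = s then (-1) ^ (L + ∑ k, (s k).val) else 0 := by
  have h : ∀ a b : Fin 3, rot (some 2) a b = if b = a then (-1) * (-1) ^ a.val else 0 := by
    intro a b
    fin_cases a <;> fin_cases b <;> simp [rot_two]
  simp only [tens, tensF, Matrix.of_apply, h, Finset.prod_ite_zero, Finset.mem_univ, true_imp_iff,
    Finset.prod_mul_distrib, Finset.prod_const, Finset.card_univ, Fintype.card_fin, funext_iff,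
    Finset.prod_pow_eq_pow_sum, pow_add]

theorem symm_flip_flip {L : ℕ} (σ : Cfg L) : flipS (flipS σ) = σ := by
  funext k
  simp [flipS]

theorem symm_flip_conj {L : ℕ} (M : Matrix (Cfg L) (Cfg L) ℂ) (σ τ : Cfg L) :
    (tens L (rot (some 0)) * M * tens L (rot (some 0))) σ τ = M (flipS σ) (flipS τ) := by
  have h : ∀ v : Cfg L, τ = flipS v ↔ v = flipS τ := fun v =>
    ⟨fun e => by rw [e, symm_flip_flip], fun e => by rw [e, symm_flip_flip]⟩
  have h1 : ((-1 : ℂ) ^ L) * (-1) ^ L = 1 := by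
    rw [← mul_pow]
    simp
  simp only [Matrix.mul_apply, tens_rotx, h, ite_mul, zero_mul, mul_ite, mul_zero,
    Finset.sum_ite_eq', Finset.mem_univ, if_true]
  linear_combination (M (flipS σ) (flipS τ)) * h1

/-- conjugation by `tens L (rot (some 0))` (`tensF_conj_onSite`, `rot_spin`, `tens_rotx`) -/
theorem ringH_flip (L : ℕ) (g : Aux) (σ τ : Cfg L) :
    ringH L g (flipS σ) (flipS τ) = ringH L g σ τ := by
  rw [← symm_flip_conj (ringH L g) σ τ]
  have h : tens L (rot (some 0)) * ringH L g * tens L (rot (some 0)) = ringH L g := by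
    simp only [ringH, Finset.mul_sum, Finset.sum_mul, Matrix.mul_smul, Matrix.smul_mul]
    refine Finset.sum_congr rfl fun j _ => Finset.sum_congr rfl fun a _ => ?_
    have h1 := symm_conj (fun _ : Fin L => rot (some 0)) (fun _ => symm_rot_sq _) (spinOp a)
      (fun _ => (sgn (some 0) (some a) : ℂ)) (fun _ => rot_spin _ a) j (finRotate L j)
    rw [symm_sgn_sq, one_smul] at h1
    rw [tens, h1]
  rw [h]

theorem symm_one_apply {ι : Type} [Fintype ι] [DecidableEq ι] {π : ι → ι}
    (hπ : Function.Injective π) {ε : ι → ℂ} (hε : ∀ p, ε p * ε p = 1) (p q : ι) :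
    (1 : Matrix ι ι ℂ) (π p) (π q) = ε p * ε q * (1 : Matrix ι ι ℂ) p q := by
  by_cases h : p = q
  · subst h
    simp [hε]
  · rw [Matrix.one_apply_ne h, Matrix.one_apply_ne (hπ.ne h), mul_zero]

theorem chU_sym {ι : Type} [Fintype ι] [DecidableEq ι] {A : Matrix ι ι ℂ} {π : ι → ι}
    (hπ : Function.Bijective π) {ε : ι → ℂ} (hε : ∀ p, ε p * ε p = 1)
    (h : ∀ p q, A (π p) (π q) = ε p * ε q * A p q) (k : ℕ) (p q : ι) :
    chU A k (π p) (π q) = ε p * ε q * chU A k p q := by
  induction k using Nat.twoStepInduction generalizing p q with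
  | zero => exact symm_one_apply hπ.1 hε p q
  | one => exact h p q
  | more k ih0 ih1 =>
    simp only [chU, Matrix.sub_apply, Matrix.mul_apply]
    rw [← hπ.sum_comp (fun r => A (π p) r * chU A (k + 1) r (π q)), ih0, mul_sub, Finset.mul_sum]
    congr 1
    refine Finset.sum_congr rfl fun r _ => ?_
    rw [h, ih1]
    linear_combination (ε p * ε q * A p r * chU A (k + 1) r q) * hε r

namespace Eng

theorem cfg_rotC {L c : ℕ} (hc : c < 3 ^ L) (hL : 1 ≤ L) :
    rotC L c < 3 ^ L ∧ cfg L (rotC L c) = shiftC (cfg L c) := by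
  obtain ⟨l, rfl⟩ : ∃ l, L = l + 1 := ⟨L - 1, by omega⟩
  have e : rotC (l + 1) c = c / 3 + c % 3 * 3 ^ l := rfl
  have h3 : 0 < 3 ^ l := by positivity
  have hc3 : c / 3 < 3 ^ l := by
    rw [pow_succ] at hc
    omega
  have hr : c % 3 < 3 := Nat.mod_lt _ (by norm_num)
  refine ⟨?_, funext fun k => Fin.ext ?_⟩
  · rw [e, pow_succ]
    nlinarith
  · change rotC (l + 1) c / 3 ^ k.val % 3 = c / 3 ^ (finRotate (l + 1) k).val % 3
    rw [e, coe_finRotate]
    split_ifs with hk
    · rw [hk, Fin.val_last, Nat.add_mul_div_right _ _ h3, Nat.div_eq_of_lt hc3]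
      simp
    · have hk' : k.val < l := by
        have h1 := k.isLt
        have h2 : k.val ≠ l := fun e => hk (Fin.ext e)
        omega
      obtain ⟨d, hd⟩ : ∃ d, l = d + 1 + k.val := ⟨l - k.val - 1, by omega⟩
      have e3 : c % 3 * 3 ^ l = c % 3 * 3 ^ d * 3 * 3 ^ k.val := by
        conv_lhs => rw [hd]
        ring
      rw [e3, Nat.add_mul_div_right _ _ (by positivity), Nat.add_mul_mod_self_right,
        Nat.div_div_eq_div_mul, pow_succ']

theorem symm_revAux (k : ℕ) : ∀ c a : ℕ, revAux k c a / 3 ^ k = a ∧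
    ∀ j, j < k → revAux k c a / 3 ^ j % 3 = c / 3 ^ (k - 1 - j) % 3 := by
  induction k with
  | zero =>
    intro c a
    refine ⟨?_, fun j hj => absurd hj (Nat.not_lt_zero j)⟩
    change a / 3 ^ 0 = a
    simp
  | succ k ih =>
    intro c a
    have e : revAux (k + 1) c a = revAux k (c / 3) (3 * a + c % 3) := rfl
    obtain ⟨h1, h2⟩ := ih (c / 3) (3 * a + c % 3)
    rw [e]
    refine ⟨?_, fun j hj => ?_⟩
    · rw [pow_succ, ← Nat.div_div_eq_div_mul, h1]
      omega
    · rcases Nat.lt_succ_iff_lt_or_eq.1 hj with hj | rfl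
      · rw [h2 j hj, Nat.div_div_eq_div_mul, ← pow_succ', show k - 1 - j + 1 = k + 1 - 1 - j by omega]
      · rw [h1, show j + 1 - 1 - j = 0 by omega, pow_zero, Nat.div_one]
        omega

theorem cfg_revC {L c : ℕ} (hc : c < 3 ^ L) :
    revC L c < 3 ^ L ∧ cfg L (revC L c) = reflC (cfg L c) := by
  obtain ⟨h1, h2⟩ := symm_revAux L c 0
  refine ⟨?_, funext fun k => Fin.ext ?_⟩
  · exact Nat.lt_of_div_eq_zero (by positivity) h1
  · change revAux L c 0 / 3 ^ k.val % 3 = c / 3 ^ (Fin.rev k).val % 3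
    rw [h2 k.val k.isLt, Fin.val_rev, show L - 1 - k.val = L - (k.val + 1) by omega]

theorem symm_flip_dig (j : ℕ) : ∀ L c : ℕ, j < L → c < 3 ^ L →
    (3 ^ L - 1 - c) / 3 ^ j % 3 = 3 - (c / 3 ^ j % 3 + 1) := by
  induction j with
  | zero =>
    intro L c hj hc
    obtain ⟨l, rfl⟩ : ∃ l, L = l + 1 := ⟨L - 1, by omega⟩
    rw [pow_succ] at hc ⊢
    simp only [pow_zero, Nat.div_one]
    omega
  | succ j ih =>
    intro L c hj hc
    obtain ⟨l, rfl⟩ : ∃ l, L = l + 1 := ⟨L - 1, by omega⟩
    rw [pow_succ] at hc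
    have e : (3 ^ (l + 1) - 1 - c) / 3 = 3 ^ l - 1 - c / 3 := by
      rw [pow_succ]
      omega
    rw [pow_succ' 3 j, ← Nat.div_div_eq_div_mul, ← Nat.div_div_eq_div_mul, e]
    exact ih l (c / 3) (by omega) (by omega)

theorem cfg_flipC {L c : ℕ} (hc : c < 3 ^ L) :
    flipC L c < 3 ^ L ∧ cfg L (flipC L c) = flipS (cfg L c) := by
  have e : flipC L c = 3 ^ L - 1 - c := rfl
  refine ⟨by omega, funext fun k => Fin.ext ?_⟩
  change flipC L c / 3 ^ k.val % 3 = (Fin.rev (cfg L c k)).val
  rw [e, Fin.val_rev]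
  exact symm_flip_dig k.val L c k.isLt hc

/-- `F` does not change under the three generators -/
def Inv3 {L : ℕ} (F : Cfg L → ℂ) : Prop :=
  ∀ σ, F (shiftC σ) = F σ ∧ F (reflC σ) = F σ ∧ F (flipS σ) = F σ

theorem symm_shift_bij {L : ℕ} : Function.Bijective (shiftC : Cfg L → Cfg L) :=
  (Equiv.arrowCongr (finRotate L).symm (Equiv.refl (Fin 3))).bijective

theorem symm_refl_bij {L : ℕ} : Function.Bijective (reflC : Cfg L → Cfg L) :=
  Function.Involutive.bijective fun σ => funext fun k => by simp [reflC]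

theorem symm_flip_bij {L : ℕ} : Function.Bijective (flipS : Cfg L → Cfg L) :=
  Function.Involutive.bijective symm_flip_flip

theorem symm_spinA {l kind : ℕ} (m f eP eN s : ℕ) {π : Cfg (l + 1) → Cfg (l + 1)}
    (hπ : Function.Bijective π) {ε : Cfg (l + 1) → ℂ} (hε : ∀ p, ε p * ε p = 1)
    (h : ∀ p q, spinH l kind (π p) (π q) = ε p * ε q * spinH l kind p q) (k : ℕ)
    (p q : Cfg (l + 1)) :
    chU (spinA l kind m f eP eN s) k (π p) (π q) =
      ε p * ε q * chU (spinA l kind m f eP eN s) k p q := by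
  refine chU_sym hπ hε (fun p q => ?_) k p q
  simp only [spinA, Matrix.smul_apply, Matrix.sub_apply, smul_eq_mul, h,
    symm_one_apply hπ.1 hε p q]
  ring

theorem symm_spinH {l kind : ℕ} (hk : kind ≤ 1) :
    ∃ g : Aux, (g = none ∨ g = some 2) ∧ spinH l kind = ringH (l + 1) g := by
  obtain rfl | rfl : kind = 0 ∨ kind = 1 := by omega
  · exact ⟨none, Or.inl rfl, rfl⟩
  · exact ⟨some 2, Or.inr rfl, rfl⟩

theorem symm_chU {l kind : ℕ} (m f eP eN s : ℕ) (hl : 1 ≤ l) (hk : kind ≤ 1) (k : ℕ) :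
    ∃ g : Aux, (g = none ∨ g = some 2) ∧ ∀ p q : Cfg (l + 1),
      chU (spinA l kind m f eP eN s) k (shiftC p) (shiftC q) =
        gauge g p * gauge g q * chU (spinA l kind m f eP eN s) k p q ∧
      chU (spinA l kind m f eP eN s) k (reflC p) (reflC q) = chU (spinA l kind m f eP eN s) k p q ∧
      chU (spinA l kind m f eP eN s) k (flipS p) (flipS q) =
        chU (spinA l kind m f eP eN s) k p q := by
  obtain ⟨g, hg, e⟩ := symm_spinH (l := l) hk
  refine ⟨g, hg, fun p q => ⟨?_, ?_, ?_⟩⟩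
  · exact symm_spinA m f eP eN s symm_shift_bij (symm_gauge_sq hg)
      (fun p q => by rw [e, ringH_shift hl hg]) k p q
  · simpa using symm_spinA m f eP eN s symm_refl_bij (ε := fun _ => 1) (fun _ => one_mul _)
      (fun p q => by rw [e, ringH_refl hl, one_mul, one_mul]) k p q
  · simpa using symm_spinA m f eP eN s symm_flip_bij (ε := fun _ => 1) (fun _ => one_mul _)
      (fun p q => by rw [e, ringH_flip, one_mul, one_mul]) k p q

theorem inv_diag {l kind : ℕ} (m f eP eN s : ℕ) (hl : 1 ≤ l) (hk : kind ≤ 1) (k : ℕ) :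
    Inv3 fun σ => chU (spinA l kind m f eP eN s) k σ σ := by
  obtain ⟨g, hg, h⟩ := symm_chU m f eP eN s hl hk k
  intro σ
  refine ⟨?_, (h σ σ).2.1, (h σ σ).2.2⟩
  have h1 := (h σ σ).1
  rwa [symm_gauge_sq hg, one_mul] at h1

theorem inv_flip {l kind : ℕ} (m f eP eN s : ℕ) (hl : 1 ≤ l) (hk : kind ≤ 1) (k : ℕ) :
    Inv3 fun σ => chU (spinA l kind m f eP eN s) k (flipS σ) σ := by
  obtain ⟨g, hg, h⟩ := symm_chU m f eP eN s hl hk k
  intro σ
  refine ⟨?_, (h (flipS σ) σ).2.1, (h (flipS σ) σ).2.2⟩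
  have h1 := (h (flipS σ) σ).1
  rwa [symm_gauge_flip hg, symm_gauge_sq hg, one_mul] at h1

theorem inv_sign (L : ℕ) : Inv3 fun σ : Cfg L => (-1 : ℂ) ^ (L + ∑ k, (σ k).val) := by
  intro σ
  refine ⟨?_, ?_, ?_⟩
  · exact congrArg (fun n => (-1 : ℂ) ^ (L + n))
      (Equiv.sum_comp (finRotate L) fun k => (σ k).val)
  · exact congrArg (fun n => (-1 : ℂ) ^ (L + n))
      (Equiv.sum_comp (Fin.revPerm : Fin L ≃ Fin L) fun k => (σ k).val)
  · have h : ∀ a : Fin 3, (-1 : ℂ) ^ (Fin.rev a).val = (-1) ^ a.val := by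
      intro a
      fin_cases a <;> simp [Fin.rev]
    simp only [pow_add, ← Finset.prod_pow_eq_pow_sum, flipS, h]

end Eng

end Crest.Agent.R347
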