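import Crest.Agent.R347.MpsDefs
import Crest.Agent.R347.Torus
import Crest.Agent.R347.Symm

/-!
# Row 347: expectation values in matrix product states   (task R347/MpsSand)

You may use `Torus`, `Tens`, `Symm` (other tasks).
-/

set_option autoImplicit false

namespace Crest.Agent.R347

open Crest.MathPhysics.SpinChain Matrix

variable {D P : Type} [Fintype D] [DecidableEq D] [Fintype P] [DecidableEq P]

/-- expand all three `chain`s and the right side (`chain_const`) with `chain_eq_sum`; paths in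
`D × P × D` are triples of paths; `∑ σ' σ, ∏ k, … = ∏ k, ∑ k' k, …` (`Finset.prod_univ_sum`) -/
theorem sandwich (Γ : Matrix D D ℂ) (A : Fin 3 → Matrix D D ℂ) (Γ' : Matrix P P ℂ)
    (W : P → P → M3) (L : ℕ) :
    star (mps Γ A L) ⬝ᵥ (mpo Γ' (fun _ : Fin L => W) *ᵥ mps Γ A L) =
      (kron3 Γ Γ' * sand A W ^ L).trace := by
  rw [← chain_const, chain_eq_sum]
  simp only [dotProduct, mulVec, mps, mpo, sand, kron3, Matrix.of_apply, chain_eq_sum, Pi.star_apply,
    star_sum, star_mul', star_prod, Finset.prod_univ_sum, Fintype.piFinset_univ, Finset.mul_sum,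
    Finset.sum_mul]
  rw [Finset.sum_comm (γ := Fin (L + 1) → D × P × D)]
  refine Finset.sum_congr rfl fun σ' _ => ?_
  rw [Finset.sum_comm (γ := Fin (L + 1) → D × P × D)]
  refine Finset.sum_congr rfl fun σ _ => ?_
  rw [← (Equiv.arrowProdEquivProdArrow (Fin (L + 1)) (fun _ => D) fun _ => P × D).symm.sum_comp,
    Fintype.sum_prod_type, Finset.sum_congr rfl fun _ _ => Finset.sum_comm, Finset.sum_comm]
  refine Finset.sum_congr rfl fun p' _ => ?_
  rw [← (Equiv.arrowProdEquivProdArrow (Fin (L + 1)) (fun _ => P) fun _ => D).symm.sum_comp,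
    Fintype.sum_prod_type, Finset.sum_comm]
  refine Finset.sum_congr rfl fun q _ => Finset.sum_congr rfl fun p _ => ?_
  simp only [Equiv.arrowProdEquivProdArrow_symm_apply, Finset.prod_mul_distrib]
  ring

/-- cyclicity of the trace (`List.ofFn_succ`, `List.ofFn_succ'`) -/
theorem mps_shift (Γ : Matrix D D ℂ) (A : Fin 3 → Matrix D D ℂ) (g : Aux)
    (h : ∀ k, A k * Γ = rot g k k • (Γ * A k)) (L : ℕ) (σ : Cfg (L + 1)) :
    mps Γ A (L + 1) (shiftC σ) = gauge g σ * mps Γ A (L + 1) σ := by
  simp only [mps, chain, shiftC, gauge]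
  rw [List.ofFn_succ', List.ofFn_succ, List.prod_concat, List.prod_cons, finRotate_last,
    ← Matrix.mul_assoc, Matrix.trace_mul_comm, ← Matrix.mul_assoc, h, Matrix.smul_mul,
    Matrix.trace_smul, smul_eq_mul, Matrix.mul_assoc]
  simp only [finRotate_apply, Fin.coeSucc_eq_succ]

/-- the `j`-th term of `ringH` -/
noncomputable def MpsSand_B {L : ℕ} (g : Aux) (j : Fin L) : Matrix (Cfg L) (Cfg L) ℂ :=
  ∑ a : Fin 3, (if j.val + 1 = L then (sgn g (some a) : ℂ) else 1) •
    (onSite (spinOp a) j * onSite (spinOp a) (finRotate L j))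

theorem MpsSand_bij (L : ℕ) : Function.Bijective (shiftC : Cfg L → Cfg L) :=
  (Equiv.arrowCongr (finRotate L).symm (Equiv.refl (Fin 3))).bijective

theorem MpsSand_diag {g : Aux} (hg : g = none ∨ g = some 2) :
    rot g = Matrix.diagonal fun k => rot g k k := by
  rcases hg with rfl | rfl
  · ext i j; fin_cases i <;> fin_cases j <;> simp [rot_none]
  · ext i j; fin_cases i <;> fin_cases j <;> simp [rot_two]

theorem MpsSand_sq' {g : Aux} (hg : g = none ∨ g = some 2) (k : Fin 3) :
    rot g k k * rot g k k = 1 := by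
  rcases hg with rfl | rfl
  · simp [rot_none]
  · fin_cases k <;> simp [rot_two]

theorem MpsSand_sq {g : Aux} (hg : g = none ∨ g = some 2) {L : ℕ} (σ : Cfg (L + 1)) :
    gauge g σ * gauge g σ = 1 := MpsSand_sq' hg _

theorem MpsSand_star {g : Aux} (hg : g = none ∨ g = some 2) {L : ℕ} (σ : Cfg (L + 1)) :
    star (gauge g σ) = gauge g σ := by
  have := congrFun (congrFun (rot_real g) (σ 0)) (σ 0)
  simpa [gauge] using this

theorem MpsSand_spin {g : Aux} (hg : g = none ∨ g = some 2) (a k k' : Fin 3) :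
    rot g k k * rot g k' k' * spinOp a k k' = (sgn g (some a) : ℂ) * spinOp a k k' := by
  have := congrFun (congrFun (rot_spin g a) k) k'
  rw [MpsSand_diag hg, Matrix.mul_diagonal, Matrix.diagonal_mul, Matrix.smul_apply,
    smul_eq_mul] at this
  rw [← this]; ring

theorem MpsSand_gauge {g : Aux} (hg : g = none ∨ g = some 2) {L : ℕ} (a : Fin 3)
    {u v : Fin (L + 1)} (h : u ≠ v) (σ τ : Cfg (L + 1)) :
    gauge g σ * gauge g τ * (onSite (spinOp a) u * onSite (spinOp a) v) σ τ =
      (if u = 0 then (sgn g (some a) : ℂ) else 1) * (if v = 0 then (sgn g (some a) : ℂ) else 1) *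
        (onSite (spinOp a) u * onSite (spinOp a) v) σ τ := by
  rw [onSite_two_apply _ _ h]
  split_ifs with h1 h2 h3 h3
  · exact absurd (h2.trans h3.symm) h
  · subst h2
    simp only [gauge]
    linear_combination spinOp a (σ v) (τ v) * MpsSand_spin hg a (σ 0) (τ 0)
  · subst h3
    simp only [gauge]
    linear_combination spinOp a (σ u) (τ u) * MpsSand_spin hg a (σ 0) (τ 0)
  · have : σ 0 = τ 0 := h1 0 (Ne.symm h2) (Ne.symm h3)
    simp only [gauge, this, MpsSand_sq' hg, one_mul]
  all_goals simp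

theorem MpsSand_rot_zero {L : ℕ} (u : Fin (L + 1)) :
    finRotate (L + 1) u = 0 ↔ u.val + 1 = L + 1 := by
  rw [← finRotate_last, (finRotate (L + 1)).apply_eq_iff_eq, Fin.ext_iff, Fin.val_last]
  omega

theorem MpsSand_rot_ne {L : ℕ} (hL : 1 ≤ L) (u : Fin (L + 1)) : u ≠ finRotate (L + 1) u := by
  induction u using Fin.lastCases with
  | last =>
    rw [finRotate_last, Ne, Fin.ext_iff]
    simp; omega
  | cast i =>
    rw [finRotate_apply, Fin.coeSucc_eq_succ, Ne, Fin.ext_iff]
    simp

theorem MpsSand_B_shift {n : ℕ} (hn : 1 ≤ n) {g : Aux} (hg : g = none ∨ g = some 2)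
    (j : Fin (n + 1)) (σ τ : Cfg (n + 1)) :
    MpsSand_B g j (shiftC σ) (shiftC τ) =
      gauge g σ * gauge g τ * MpsSand_B g (finRotate (n + 1) j) σ τ := by
  simp only [MpsSand_B, Matrix.sum_apply, Matrix.smul_apply, smul_eq_mul, Finset.mul_sum]
  refine Finset.sum_congr rfl fun a _ => ?_
  have e := onSite_two_perm (finRotate (n + 1)) (spinOp a) (spinOp a) j (finRotate (n + 1) j) σ τ
  have e' : (onSite (spinOp a) j * onSite (spinOp a) (finRotate (n + 1) j)) (shiftC σ) (shiftC τ) =
      _ := e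
  rw [e', mul_left_comm, MpsSand_gauge hg a (MpsSand_rot_ne hn _)]
  simp only [MpsSand_rot_zero]
  have s2 : (sgn g (some a) : ℂ) * (sgn g (some a) : ℂ) = 1 := by
    exact_mod_cast sgn_mul_self g (some a)
  generalize (onSite (spinOp a) (finRotate (n + 1) j) *
    onSite (spinOp a) (finRotate (n + 1) (finRotate (n + 1) j))) σ τ = X
  generalize (if j.val + 1 = n + 1 then (sgn g (some a) : ℂ) else 1) = c
  split_ifs
  · linear_combination (-(c * X)) * s2
  · ring

/-- Let `e j` be the expectation of the `j`-th term `B j` of `ringH`.  The argument of `ringH_shift`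
gives `B j (shift σ) (shift τ) = gauge σ * gauge τ * B (j+1) σ τ` termwise (`onSite_two_perm`), so
reindexing by the bijection `shiftC` and `hψ` give `e j = e (j+1)`: all `e j` are equal.  `ringH` has
`n + 1` terms, and `openH n 0 0` is the sum of the first `n`. -/
theorem ring_energy {n : ℕ} (hn : 1 ≤ n) {g : Aux} (hg : g = none ∨ g = some 2)
    (ψ : Cfg (n + 1) → ℂ) (hψ : ∀ σ, ψ (shiftC σ) = gauge g σ * ψ σ) :
    (n : ℂ) * (star ψ ⬝ᵥ (ringH (n + 1) g *ᵥ ψ)) =
      ((n : ℂ) + 1) * (star ψ ⬝ᵥ (openH n 0 0 *ᵥ ψ)) := by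
  set e : Fin (n + 1) → ℂ := fun j => star ψ ⬝ᵥ (MpsSand_B g j *ᵥ ψ) with he
  have h1 : ∀ j, e j = e (finRotate (n + 1) j) := by
    intro j
    simp only [he, dotProduct, mulVec, Pi.star_apply]
    rw [← (MpsSand_bij (n + 1)).sum_comp]
    refine Finset.sum_congr rfl fun σ _ => ?_
    rw [← (MpsSand_bij (n + 1)).sum_comp, Finset.mul_sum, Finset.mul_sum]
    refine Finset.sum_congr rfl fun τ _ => ?_
    rw [MpsSand_B_shift hn hg, hψ, hψ, star_mul', MpsSand_star hg]
    linear_combination (star (ψ σ) * MpsSand_B g (finRotate (n + 1) j) σ τ * ψ τ *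
      (gauge g τ * gauge g τ)) * MpsSand_sq hg σ +
      (star (ψ σ) * MpsSand_B g (finRotate (n + 1) j) σ τ * ψ τ) * MpsSand_sq hg τ
  have h2 : ∀ j, e j = e 0 := by
    intro j
    induction j using Fin.induction with
    | zero => rfl
    | succ i ih => rw [← ih, h1 i.castSucc, finRotate_apply, Fin.coeSucc_eq_succ]
  have h3 : star ψ ⬝ᵥ (ringH (n + 1) g *ᵥ ψ) = ∑ j, e j := by
    simp only [he, ← dotProduct_sum, ← Matrix.sum_mulVec]
    rfl
  have h4 : star ψ ⬝ᵥ (openH n 0 0 *ᵥ ψ) = ∑ j : Fin n, e j.castSucc := by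
    simp only [he, ← dotProduct_sum, ← Matrix.sum_mulVec]
    congr 2
    simp only [openH, mul_zero, Complex.ofReal_zero, zero_smul, add_zero, sub_zero]
    refine Finset.sum_congr rfl fun j _ => ?_
    have hj : ¬ (j.castSucc.val + 1 = n + 1) := by have := j.2; simp; omega
    simp only [MpsSand_B, bond, hj, if_false, one_smul, finRotate_apply, Fin.coeSucc_eq_succ]
  rw [h3, h4]
  simp only [h2, Finset.sum_const, Finset.card_univ, Fintype.card_fin, nsmul_eq_mul]
  push_cast
  ring

end Crest.Agent.R347
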