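import Crest.Agent.R347.EngPow
import Crest.Agent.R347.MpsRep
import Crest.Agent.R347.MpsSand
import Crest.Agent.R347.MpoH

/-!
# Row 347: energy bounds from checked jobs   (task R347/MpsBound)

You may use all imported files (other tasks).  `B = (1/2^s) • sand …`, so `sand ^ L = 2^(sL) • B^L`.
-/

set_option autoImplicit false

namespace Crest.Agent.R347.Eng

open Matrix

/-- size condition of `pow_sound` -/
def PowOK (s Λ K w F : ℕ) : Prop :=
  s + 1 ≤ w ∧ 2 ^ s ≤ Λ ∧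
    2 ^ s * ((2 ^ F + 2 ^ 58 + (K + 1) + 1) * Λ ^ (K + 1)) ≤ 2 ^ (w - 1) * 2 ^ (s * (K + 1))

instance (s Λ K w F : ℕ) : Decidable (PowOK s Λ K w F) := by
  unfold PowOK; infer_instance

theorem trace_kron {D : Type} [Fintype D] [DecidableEq D] (Γ : Matrix D D ℂ) (p : Fin 7)
    (M : Matrix (D × Fin 7 × D) (D × Fin 7 × D) ℂ) :
    (kron3 Γ (sel7 p) * M).trace =
      ∑ a', ∑ a, ∑ b', ∑ b, star (Γ a' b') * Γ a b * M (b', p, b) (a', 6, a) := by
  simp only [Matrix.trace, Matrix.diag, Matrix.mul_apply, Fintype.sum_prod_type, kron3, sel7,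
    Matrix.of_apply]
  refine Finset.sum_congr rfl fun a' _ => ?_
  rw [Finset.sum_eq_single 6 (fun q _ hq => by simp [hq]) (by simp)]
  refine Finset.sum_congr rfl fun a _ => Finset.sum_congr rfl fun b' _ => ?_
  rw [Finset.sum_eq_single p (fun q _ hq => by simp [hq]) (by simp)]
  simp

theorem decM_mcode {D : ℕ} [NeZero D] (a' : Fin D) (p : Fin 7) (a : Fin D) :
    decM D (mcode D a' p a) = (a', p, a) := by
  have hD : 0 < D := Nat.pos_of_ne_zero (NeZero.ne D)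
  have h1 : mcode D a' p a / D = a' * 7 + p := by
    rw [mcode, Nat.add_comm, Nat.add_mul_div_right _ _ hD, Nat.div_eq_of_lt a.2, zero_add]
  have h2 : mcode D a' p a % D = a := by
    rw [mcode, Nat.add_comm, Nat.add_mul_mod_self_right, Nat.mod_eq_of_lt a.2]
  have hp := p.2
  refine Prod.ext (Fin.ext ?_) (Prod.ext (Fin.ext ?_) (Fin.ext ?_))
  · show mcode D a' p a / D / 7 % D = a'
    rw [h1, show ((a' : ℕ) * 7 + p) / 7 = a' by omega, Nat.mod_eq_of_lt a'.2]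
  · show mcode D a' p a / D % 7 = p
    omega
  · exact h2

theorem src_eq {J : Job} {ok : ℕ → Bool} (h : J.wf ok = true) {e : ℕ × ℕ × ℕ} (he : e ∈ J.l0) :
    J.src e.2.2 = e.2.1 ∧ ok e.2.1 = true := by
  simp only [Job.wf, Bool.and_eq_true, beq_iff_eq, List.all_eq_true] at h
  obtain ⟨⟨⟨⟨-, h1⟩, h2⟩, -⟩, -⟩ := h
  refine ⟨?_, (h2 e he).1.1⟩
  obtain ⟨i, hi, rfl⟩ := List.getElem_of_mem he
  have h3 : (J.l0.map fun e => e.2.2)[i]? = (List.range' 1 (J.m - 1))[i]? := by rw [h1]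
  have h4 : i < J.m - 1 := by
    have := congrArg List.length h1
    rw [List.length_map, List.length_range'] at this
    exact this ▸ hi
  rw [List.getElem?_map, List.getElem?_eq_getElem hi, List.getElem?_range' h4] at h3
  simp only [Option.map_some, Option.some.injEq] at h3
  rw [Job.src, h3, show 1 + 1 * i - 1 = i by omega, List.getD_eq_getElem _ _ hi]

theorem list_err {β : Type} (bs : List β) (u v : β → ℂ) (len : β → ℕ) (ε : ℝ)
    (h : ∀ b ∈ bs, ‖u b - v b‖ ≤ len b * ε) :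
    ‖(bs.map u).sum - (bs.map v).sum‖ ≤ ((bs.map len).sum : ℕ) * ε := by
  induction bs with
  | nil => simp
  | cons b bs ih =>
    simp only [List.map_cons, List.sum_cons, Nat.cast_add, add_mul]
    rw [add_sub_add_comm]
    exact (norm_add_le _ _).trans (add_le_add (h b List.mem_cons_self)
      (ih fun b hb => h b (List.mem_cons_of_mem _ hb)))

theorem sum_flatMap_map {β γ : Type} (l : List β) (f : β → List γ) (g : γ → ℂ) :
    ((l.flatMap f).map g).sum = (l.map fun b => ((f b).map g).sum).sum := by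
  induction l with
  | nil => rfl
  | cons b l ih => simp only [List.flatMap_cons, List.map_append, List.sum_append, ih,
      List.map_cons, List.sum_cons]

theorem ring_sum {Q D : ℕ} [NeZero D] (bs : List Blk)
    (hwf : ∀ b ∈ bs, b.J.wf (mpsOk Q D b.lo) = true ∧ ∀ e ∈ b.J.l0, e.2.1 / D % 7 = 6)
    (hperm : (bs.flatMap fun b => b.J.l0.map fun e => e.2.1).Perm
      ((List.range D).flatMap fun a' => (List.range D).map fun a => mcode D a' 6 a))
    (tw : Bool) (F : ℕ) (p : Fin 7) (d : ℕ) (hd : ∀ a' a, mcode D a' 6 a - d = mcode D a' p a)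
    (M : Matrix (Fin D × Fin 7 × Fin D) (Fin D × Fin 7 × Fin D) ℂ) (val : Blk → ℤ) (ε : ℝ)
    (h : ∀ b ∈ bs, ‖(val b : ℂ) - 2 ^ F * b.J.tr (decM D)
      (b.J.l0.map fun e => (1, e.2.1 - d, e.2.2)) M‖ ≤
        wsum (b.J.l0.map fun e => (1, e.2.1 - d, e.2.2)) * ε) :
    ‖(((bs.map fun b => (if tw then (-1) ^ b.lo else 1) * val b).sum : ℤ) : ℂ) -
      2 ^ F * (kron3 (tenG Q D tw) (sel7 p) * M).trace‖ ≤ D * D * ε := by
  have hD : 0 < D := Nat.pos_of_ne_zero (NeZero.ne D)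
  let γ : Fin D → ℂ := fun a => if tw then (-1) ^ chg Q a.val else 1
  let g : ℕ → ℂ := fun c => γ (decM D c).1 * γ (decM D c).2.2 * M (decM D (c - d)) (decM D c)
  have e1 : (kron3 (tenG Q D tw) (sel7 p) * M).trace =
      (bs.map fun b => ((b.J.l0.map fun e => e.2.1).map g).sum).sum := by
    have hr : ∀ f : ℕ → ℂ, ((List.range D).map f).sum = ∑ a : Fin D, f a := fun f =>
      Finset.sum_range f
    rw [← sum_flatMap_map, (hperm.map g).sum_eq, sum_flatMap_map, trace_kron, hr]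
    refine Finset.sum_congr rfl fun a' _ => ?_
    rw [List.map_map, hr]
    refine Finset.sum_congr rfl fun a _ => ?_
    rw [Finset.sum_eq_single a' (fun b' _ hb => by simp [tenG, Matrix.diagonal_apply_ne' _ hb])
        (by simp),
      Finset.sum_eq_single a (fun b _ hb => by simp [tenG, Matrix.diagonal_apply_ne' _ hb])
        (by simp)]
    have d6 : decM D (mcode D a' 6 a) = (a', 6, a) := decM_mcode a' 6 a
    simp only [Function.comp_apply, g, hd, d6, decM_mcode, tenG, Matrix.diagonal_apply_eq, γ]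
    cases tw <;> simp
  have e2 : (bs.map fun b => b.J.l0.length).sum = D * D := by
    have := hperm.length_eq
    simpa [List.length_flatMap] using this
  have := list_err bs (fun b => (((if tw then (-1) ^ b.lo else 1) * val b : ℤ) : ℂ))
    (fun b => 2 ^ F * ((b.J.l0.map fun e => e.2.1).map g).sum) (fun b => b.J.l0.length) ε ?_
  · rw [e2, List.sum_map_mul_left, ← e1] at this
    rw [Int.cast_list_sum, List.map_map]
    rw [Nat.cast_mul] at this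
    exact this
  intro b hb
  have hs : ((b.J.l0.map fun e => e.2.1).map g).sum = (if tw then (-1) ^ b.lo else 1) *
      b.J.tr (decM D) (b.J.l0.map fun e => (1, e.2.1 - d, e.2.2)) M := by
    rw [Job.tr, ← List.sum_map_mul_left, List.map_map, List.map_map]
    refine congrArg List.sum (List.map_congr_left fun e he => ?_)
    obtain ⟨h1, h2⟩ := src_eq (hwf b hb).1 he
    have h3 := (hwf b hb).2 e he
    simp only [Function.comp_apply, h1, Nat.cast_one, one_mul, g]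
    congr 1
    simp only [mpsOk, Bool.and_eq_true, decide_eq_true_eq, beq_iff_eq, h3, kap] at h2
    have h4 : ((decM D e.2.1).1 : ℕ) = e.2.1 / D / 7 := by
      refine Nat.mod_eq_of_lt ?_
      rw [Nat.div_lt_iff_lt_mul (by norm_num), Nat.div_lt_iff_lt_mul hD, mul_comm D 7]
      exact h2.1
    have h5 : ((decM D e.2.1).2.2 : ℕ) = e.2.1 % D := rfl
    cases tw
    · simp [γ]
    · simp only [γ, if_true, h4, h5, ← pow_add]
      have h6 := h2.2
      norm_num at h6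
      rw [neg_one_pow_eq_pow_mod_two, neg_one_pow_eq_pow_mod_two (n := b.lo)]
      congr 1
      omega
  have hw : wsum (b.J.l0.map fun e => (1, e.2.1 - d, e.2.2)) = b.J.l0.length := by
    simp [wsum, Function.comp_def]
  have h1 := h b hb
  rw [hw] at h1
  rw [hs]
  push_cast
  rw [mul_left_comm, ← mul_sub, norm_mul]
  cases tw <;> simpa using h1

theorem final_arith {N₀ H₀ x₁ x₂ c f m₁ m₂ err E α β : ℝ} {n : ℕ} (hc : 0 < c) (hf : 0 < f)
    (h1 : 64 ^ (n + 1) * N₀ = c * x₁) (h2 : 5 * 64 ^ n * H₀ = c * x₂) (e1 : |m₁ - f * x₁| ≤ err)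
    (e2 : |m₂ - f * x₂| ≤ err) (hm : err < m₁) (hE : E ≤ 0) (hα : 0 ≤ α) (hβ : 0 ≤ β)
    (h : 64 * β * (m₂ + err) ≤ 5 * α * E * (m₁ + err)) : 0 < N₀ ∧ β * H₀ ≤ α * (E * N₀) := by
  rw [abs_le] at e1 e2
  have hp : (0 : ℝ) < 64 ^ n := by positivity
  rw [pow_succ] at h1
  generalize (64 : ℝ) ^ n = P at *
  have hx : 0 < x₁ := (mul_pos_iff_of_pos_left hf).1 (by linarith)
  refine ⟨(mul_pos_iff_of_pos_left (show 0 < P * 64 by positivity)).1 (h1 ▸ mul_pos hc hx), ?_⟩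
  have a1 : 64 * β * (f * x₂) ≤ 64 * β * (m₂ + err) :=
    mul_le_mul_of_nonneg_left (by linarith) (by positivity)
  have a2 : 5 * α * E * (m₁ + err) ≤ 5 * α * E * (f * x₁) :=
    mul_le_mul_of_nonpos_left (by linarith)
      (mul_nonpos_of_nonneg_of_nonpos (by positivity) hE)
  have a3 := mul_le_mul_of_nonneg_left (a1.trans (h.trans a2)) hc.le
  refine le_of_mul_le_mul_left ?_ (show 0 < 5 * 64 * P * f by positivity)
  calc 5 * 64 * P * f * (β * H₀) = 64 * β * f * (5 * P * H₀) := by ring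
    _ = c * (64 * β * (f * x₂)) := by rw [h2]; ring
    _ ≤ c * (5 * α * E * (f * x₁)) := a3
    _ = 5 * α * E * f * (c * x₁) := by ring
    _ = _ := by rw [← h1]; ring

theorem mps_val {D : Type} [Fintype D] [DecidableEq D] (Γ : Matrix D D ℂ)
    (A : Fin 3 → Matrix D D ℂ) (W : Fin 7 → Fin 7 → M3) (p : Fin 7) (s L : ℕ) :
    star (mps Γ A L) ⬝ᵥ (mpo (sel7 p) (fun _ : Fin L => W) *ᵥ mps Γ A L) =
      (((2 ^ s) ^ L : ℝ) : ℂ) * (kron3 Γ (sel7 p) * (((1 : ℂ) / 2 ^ s) • sand A W) ^ L).trace := by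
  rw [sandwich, smul_pow, Matrix.mul_smul, Matrix.trace_smul, smul_eq_mul, ← mul_assoc]
  push_cast
  rw [← mul_pow, mul_one_div_cancel (pow_ne_zero _ two_ne_zero), one_pow, one_mul]

theorem mps_final {D : Type} [Fintype D] [DecidableEq D] (Γ : Matrix D D ℂ)
    (A : Fin 3 → Matrix D D ℂ) (σ σ' : ℤ) (s F : ℕ) {n : ℕ} (hn : 1 ≤ n) {m₁ m₂ : ℤ}
    {err E α β : ℝ}
    (e1 : ‖(m₁ : ℂ) - 2 ^ F * (kron3 Γ (sel7 5) *
      (((1 : ℂ) / 2 ^ s) • sand A (W7 (3 * σ) (3 * σ'))) ^ (n + 1)).trace‖ ≤ err)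
    (e2 : ‖(m₂ : ℂ) - 2 ^ F * (kron3 Γ (sel7 0) *
      (((1 : ℂ) / 2 ^ s) • sand A (W7 (3 * σ) (3 * σ'))) ^ (n + 1)).trace‖ ≤ err)
    (hm : err < m₁) (hE : E ≤ 0) (hα : 0 ≤ α) (hβ : 0 ≤ β)
    (h : 64 * β * (m₂ + err) ≤ 5 * α * E * (m₁ + err)) :
    0 < (star (mps Γ A (n + 1)) ⬝ᵥ mps Γ A (n + 1)).re ∧
      β * (star (mps Γ A (n + 1)) ⬝ᵥ openH n σ σ' *ᵥ mps Γ A (n + 1)).re ≤
        α * (E * (star (mps Γ A (n + 1)) ⬝ᵥ mps Γ A (n + 1)).re) := by
  have h1 := mps_val Γ A (W7 (3 * σ) (3 * σ')) 5 s (n + 1)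
  have h2 := mps_val Γ A (W7 (3 * σ) (3 * σ')) 0 s (n + 1)
  rw [mpo_norm, Matrix.smul_mulVec, Matrix.one_mulVec, dotProduct_smul, smul_eq_mul] at h1
  rw [mpo_energy σ σ' hn, Matrix.smul_mulVec, dotProduct_smul, smul_eq_mul] at h2
  have r1 := congrArg Complex.re h1
  have r2 := congrArg Complex.re h2
  rw [show ((64 : ℂ) ^ (n + 1)) = ((64 ^ (n + 1) : ℝ) : ℂ) by push_cast; rfl,
    Complex.re_ofReal_mul, Complex.re_ofReal_mul] at r1
  rw [show ((5 : ℂ) * 64 ^ n) = ((5 * 64 ^ n : ℝ) : ℂ) by push_cast; rfl,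
    Complex.re_ofReal_mul, Complex.re_ofReal_mul] at r2
  have key : ∀ (m : ℤ) (X : ℂ), ‖(m : ℂ) - 2 ^ F * X‖ ≤ err → |(m : ℝ) - 2 ^ F * X.re| ≤ err := by
    intro m X hX
    refine le_trans (le_of_eq ?_) ((Complex.abs_re_le_norm _).trans hX)
    rw [show ((2 : ℂ) ^ F) = ((2 ^ F : ℝ) : ℂ) by push_cast; rfl, Complex.sub_re,
      Complex.re_ofReal_mul, Complex.intCast_re]
  exact final_arith (by positivity) (by positivity) r1 r2 (key _ _ e1) (key _ _ e2) hm hE hα hβ h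

/-- Recipe.  `ψ = mps (tenG tw) (tenA …) L`, `L = n+1`.  `sandwich`, `mpo_norm`, `mpo_energy` (with `s = s' = 0`):
`64^L ⟨ψ,ψ⟩ = 2^(sL) ∑_{a',a} γ a' γ a (B^L) (a',5,a) (a',6,a)` and
`5 * 64^n ⟨ψ, openH n 0 0 ψ⟩ =` the same with `(a',0,a)`.  By `hperm` the sum over `(a', a)` is the sum
over the entries of all `l0`; in the block `lo`, `mpsOk` gives `chg a' + 16 = chg a + lo`, so
`γ a' γ a = (-1)^lo`.  `pow_sound` bounds both sums with the error `D² L λ^L`.  Then `ring_energy`,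
`mps_shift`, `tenA_tenG`. -/
theorem ring_bound {N Q D : ℕ} [NeZero D] {nn s t Λ K w F : ℕ} (bs : List Blk)
    (hchk : ∀ b ∈ bs, check (mpsMat N Q D 0 0 b.lo nn s t) b.J = true)
    (hrow : ∀ b ∈ bs, mpsCheck N Q D 0 0 b.lo nn s t Λ = true)
    (hwf : (bs.all fun b => b.mwf Q D K w F) = true)
    (hperm : (bs.flatMap fun b => b.J.l0.map fun e => e.2.1).Perm
      ((List.range D).flatMap fun a' => (List.range D).map fun a => mcode D a' 6 a))
    (hsz : PowOK s Λ K w F) (tw : Bool) (n : ℕ) (E : ℚ)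
    (hc : 1 ≤ n ∧ n + 1 ≤ K ∧ E ≤ 0 ∧
      (D * D * (n + 1) : ℚ) * ((Λ : ℚ) / 2 ^ s) ^ (n + 1) < msum1 bs tw s (n + 1) ∧
      64 * (n + 1) * (msum2 bs tw s (n + 1) + (D * D * (n + 1) : ℚ) * ((Λ : ℚ) / 2 ^ s) ^ (n + 1)) ≤
        5 * n * E * (msum1 bs tw s (n + 1) + (D * D * (n + 1) : ℚ) * ((Λ : ℚ) / 2 ^ s) ^ (n + 1))) :
    ∃ ψ : Cfg (n + 1) → ℂ, 0 < (star ψ ⬝ᵥ ψ).re ∧
      (star ψ ⬝ᵥ ringH (n + 1) (if tw then some 2 else none) *ᵥ ψ).re ≤ E * (star ψ ⬝ᵥ ψ).re := by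
  obtain ⟨hn, hK, hE, hm, hh⟩ := hc
  simp only [List.all_eq_true, Blk.mwf, Bool.and_eq_true, beq_iff_eq] at hwf
  have hp : ∀ b ∈ bs, _ := fun b hb =>
    pow_sound (mps_rep (hrow b hb)).1 rfl (mps_rep (hrow b hb)).2 (hwf b hb).1.1.1.1.1.1
      (by rw [(hwf b hb).1.1.2, (hwf b hb).1.2, (hwf b hb).2]; exact hsz) (hchk b hb) (n + 1)
      (by rw [(hwf b hb).1.1.2]; omega)
  have hw : ∀ b ∈ bs, b.J.wf (mpsOk Q D b.lo) = true ∧ ∀ e ∈ b.J.l0, e.2.1 / D % 7 = 6 :=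
    fun b hb => ⟨(hwf b hb).1.1.1.1.1.1, fun e he => ((hwf b hb).1.1.1.1.1.2 e he).2⟩
  have e1 := ring_sum bs hw hperm tw F 5 D
    (fun a' a => by simp only [mcode, add_mul]; change _ = _ + 5 * D + a; omega)
    ((((1 : ℂ) / 2 ^ s) • sand (tenA N Q D) (W7 (3 * 0) (3 * 0))) ^ (n + 1))
    (fun b => b.J.val1 s (n + 1)) (((n : ℝ) + 1) * ((Λ : ℝ) / 2 ^ s) ^ (n + 1)) fun b hb => by
      rw [← (hwf b hb).1.1.1.1.2, ← (hwf b hb).2, ← Nat.cast_succ]; exact (hp b hb).1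
  have e2 := ring_sum bs hw hperm tw F 0 (6 * D)
    (fun a' a => by simp only [mcode, add_mul]; change _ = _ + 0 * D + a; omega)
    ((((1 : ℂ) / 2 ^ s) • sand (tenA N Q D) (W7 (3 * 0) (3 * 0))) ^ (n + 1))
    (fun b => b.J.val2 s (n + 1)) (((n : ℝ) + 1) * ((Λ : ℝ) / 2 ^ s) ^ (n + 1)) fun b hb => by
      rw [← (hwf b hb).1.1.1.2, ← (hwf b hb).2, ← Nat.cast_succ]; exact (hp b hb).2
  have hm' := (Rat.cast_lt (K := ℝ)).2 hm
  have hh' := (Rat.cast_le (K := ℝ)).2 hh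
  push_cast at hm' hh'
  rw [← mul_assoc] at e1 e2
  obtain ⟨h1, h2⟩ := mps_final (tenG Q D tw) (tenA N Q D) 0 0 s F hn (E := E) (α := n)
    (β := n + 1) (m₁ := msum1 bs tw s (n + 1)) (m₂ := msum2 bs tw s (n + 1)) e1 e2 hm'
    (by exact_mod_cast hE) (by positivity) (by positivity) hh'
  refine ⟨_, h1, ?_⟩
  have h3 := congrArg Complex.re (ring_energy hn (g := if tw then some 2 else none)
    (by cases tw <;> simp) _ (mps_shift _ _ _ (tenA_tenG N Q D tw) n))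
  rw [show ((n : ℂ) + 1) = ((n + 1 : ℝ) : ℂ) by push_cast; rfl, ← Complex.ofReal_natCast,
    Complex.re_ofReal_mul, Complex.re_ofReal_mul] at h3
  rw [Int.cast_zero, ← h3] at h2
  exact le_of_mul_le_mul_left h2 (by exact_mod_cast hn)

/-- `ψ = mps Γ (tenA …) (n+1)` with `Γ = single en st 1`; one slot with the unit vector at
`(en, 6, en)`, outputs at `(st, 5, st)` and `(st, 0, st)`. -/
theorem open_bound {N Q D : ℕ} [NeZero D] {nn s t Λ K w F : ℕ} (J : Job) (st en : ℕ)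
    (hchk : check (mpsMat N Q D 3 (-3) 16 nn s t) J = true)
    (hrow : mpsCheck N Q D 3 (-3) 16 nn s t Λ = true)
    (hwf : J.wf (mpsOk Q D 16) = true ∧ st < D ∧ en < D ∧ J.l0 = [(1, mcode D en 6 en, 1)] ∧
      J.l1 = [(1, mcode D st 5 st, 1)] ∧ J.l2 = [(1, mcode D st 0 st, 1)] ∧
      J.e.length = K + 1 ∧ J.w = w ∧ J.F = F)
    (hsz : PowOK s Λ K w F) (n : ℕ) (E : ℚ)
    (hc : 1 ≤ n ∧ n + 1 ≤ K ∧ E ≤ 0 ∧
      (n + 1 : ℚ) * ((Λ : ℚ) / 2 ^ s) ^ (n + 1) < J.val1 s (n + 1) ∧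
      64 * (J.val2 s (n + 1) + (n + 1 : ℚ) * ((Λ : ℚ) / 2 ^ s) ^ (n + 1)) ≤
        5 * E * (J.val1 s (n + 1) + (n + 1 : ℚ) * ((Λ : ℚ) / 2 ^ s) ^ (n + 1))) :
    ∃ ψ : Cfg (n + 1) → ℂ, 0 < (star ψ ⬝ᵥ ψ).re ∧
      (star ψ ⬝ᵥ openH n 1 (-1) *ᵥ ψ).re ≤ E * (star ψ ⬝ᵥ ψ).re := by
  obtain ⟨hn, hK, hE, hm, hh⟩ := hc
  obtain ⟨hw, hst, hen, h0, h1, h2, hl, rfl, rfl⟩ := hwf
  obtain ⟨e1, e2⟩ := pow_sound (mps_rep hrow).1 rfl (mps_rep hrow).2 hw (by rw [hl]; exact hsz)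
    hchk (n + 1) (by omega)
  set Γ : Matrix (Fin D) (Fin D) ℂ := Matrix.single ⟨en, hen⟩ ⟨st, hst⟩ 1 with hΓ
  have ht : ∀ (p : Fin 7) (M : Matrix (Fin D × Fin 7 × Fin D) (Fin D × Fin 7 × Fin D) ℂ),
      J.tr (decM D) [(1, mcode D st p st, 1)] M = (kron3 Γ (sel7 p) * M).trace := by
    intro p M
    have d1 : decM D (mcode D st p st) = _ := decM_mcode ⟨st, hst⟩ p ⟨st, hst⟩
    have d2 : decM D (mcode D en 6 en) = _ := decM_mcode ⟨en, hen⟩ 6 ⟨en, hen⟩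
    rw [trace_kron]
    simp [Job.tr, Job.src, h0, d1, d2, hΓ, Matrix.single_apply, ite_and, apply_ite]
  have t5 : ∀ M, J.tr (decM D) J.l1 M = (kron3 Γ (sel7 5) * M).trace := by
    rw [h1]; exact ht 5
  have t0 : ∀ M, J.tr (decM D) J.l2 M = (kron3 Γ (sel7 0) * M).trace := by
    rw [h2]; exact ht 0
  have w1 : wsum J.l1 = 1 := by rw [h1]; rfl
  have w2 : wsum J.l2 = 1 := by rw [h2]; rfl
  rw [t5, w1, Nat.cast_one, one_mul, Nat.cast_succ] at e1
  rw [t0, w2, Nat.cast_one, one_mul, Nat.cast_succ] at e2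
  have hm' := (Rat.cast_lt (K := ℝ)).2 hm
  have hh' := (Rat.cast_le (K := ℝ)).2 hh
  push_cast at hm' hh'
  obtain ⟨r1, r2⟩ := mps_final Γ (tenA N Q D) 1 (-1) s J.F hn
    (E := E) (α := 1) (β := 1) (m₁ := J.val1 s (n + 1)) (m₂ := J.val2 s (n + 1))
    (err := ((n : ℝ) + 1) * ((Λ : ℝ) / 2 ^ s) ^ (n + 1)) e1 e2 hm'
    (by exact_mod_cast hE) zero_le_one zero_le_one (by rw [mul_one, mul_one]; exact hh')
  refine ⟨_, r1, ?_⟩
  rwa [one_mul, one_mul, Int.cast_neg, Int.cast_one] at r2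

end Crest.Agent.R347.Eng
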