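import Crest.Prelude.Def_SpinChain

/-!
# Row 347: the spin chain side (definitions only)

`Aux = Option (Fin 3)` is used both for the group `Z₂ × Z₂` of rotations by `π` (`none` = identity,
`some a` = rotation about the axis `a`; `0 = x, 1 = y, 2 = z`) and for the auxiliary index of the
transfer matrix (`none` = no spin operator, `some a` = the operator `S^a`).
-/

set_option autoImplicit false

namespace Crest.Agent.R347

open Crest.MathPhysics.SpinChain Matrix

abbrev Aux : Type := Option (Fin 3)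
abbrev M3 : Type := Matrix (Fin 3) (Fin 3) ℂ
abbrev Cfg (L : ℕ) : Type := Fin L → Fin 3

/-- the sign by which the rotation `g` acts on the component `a` (the character table) -/
def sgn : Aux → Aux → ℤ
  | some a, some b => if a = b then 1 else -1
  | _, _ => 1

/-- the group law -/
def gmul : Aux → Aux → Aux
  | none, g => g
  | some a, none => some a
  | some a, some b => if a = b then none else some (-(a + b))

/-- rotations by `π` in the spin-one representation -/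
def rot : Aux → M3
  | none => 1
  | some a => ![!![0, 0, -1; 0, -1, 0; -1, 0, 0], !![0, 0, 1; 0, -1, 0; 1, 0, 0],
      !![-1, 0, 0; 0, 1, 0; 0, 0, -1]] a

/-- `S^+ / √2` -/
def spP : M3 := !![0, 1, 0; 0, 0, 1; 0, 0, 0]
/-- `S^- / √2` -/
def spM : M3 := !![0, 0, 0; 1, 0, 0; 0, 1, 0]

noncomputable section

/-- tensor product of one matrix per site -/
def tensF {ι σ : Type} [Fintype ι] (D : ι → Matrix σ σ ℂ) : Matrix (ι → σ) (ι → σ) ℂ :=
  Matrix.of fun s t => ∏ k, D k (s k) (t k)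

def tens {σ : Type} (n : ℕ) (D : Matrix σ σ ℂ) : Matrix (Fin n → σ) (Fin n → σ) ℂ :=
  tensF fun _ => D

/-- `tr (Γ M₀ M₁ ⋯)` -/
def chain {ι : Type} [Fintype ι] [DecidableEq ι] {L : ℕ} (Γ : Matrix ι ι ℂ)
    (M : Fin L → Matrix ι ι ℂ) : ℂ := (Γ * (List.ofFn M).prod).trace

/-- matrix product operator -/
def mpo {ι σ : Type} [Fintype ι] [DecidableEq ι] {L : ℕ} (Γ : Matrix ι ι ℂ)
    (W : Fin L → ι → ι → Matrix σ σ ℂ) : Matrix (Fin L → σ) (Fin L → σ) ℂ :=
  Matrix.of fun s t => chain Γ fun k => Matrix.of fun a b => W k a b (s k) (t k)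

/-- column-to-column transfer matrix of `n` layers -/
def col {ι σ : Type} [Fintype σ] [DecidableEq σ] (D : Matrix σ σ ℂ) (V : ι → ι → Matrix σ σ ℂ)
    (n : ℕ) : Matrix (Fin n → ι) (Fin n → ι) ℂ :=
  Matrix.of fun a b => chain D fun r => V (a r) (b r)

/-- matrix product state -/
def mps {ι σ : Type} [Fintype ι] [DecidableEq ι] (Γ : Matrix ι ι ℂ) (A : σ → Matrix ι ι ℂ)
    (L : ℕ) : (Fin L → σ) → ℂ := fun s => chain Γ fun k => A (s k)

/-- the ring with the last bond twisted by `g` -/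
def ringH (L : ℕ) (g : Aux) : Matrix (Cfg L) (Cfg L) ℂ :=
  ∑ j : Fin L, ∑ a : Fin 3, (if j.val + 1 = L then (sgn g (some a) : ℂ) else 1) •
    (onSite (spinOp a) j * onSite (spinOp a) (finRotate L j))

/-- the chain with `n + 1` sites and end fields `(3/5) s`, `(3/5) s'` -/
def openH (n : ℕ) (s s' : ℝ) : Matrix (Cfg (n + 1)) (Cfg (n + 1)) ℂ :=
  (∑ j : Fin n, bond (Fin.castSucc j) (Fin.succ j)) -
    (((3 / 5 * s : ℝ) : ℂ) • onSite spinZ (0 : Fin (n + 1)) +
      ((3 / 5 * s' : ℝ) : ℂ) • onSite spinZ (Fin.last n))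

/-- `exp (-β (H + c))` -/
def boltz {n : Type} [Fintype n] [DecidableEq n] (H : Matrix n n ℂ) (c β : ℝ) : Matrix n n ℂ :=
  NormedSpace.exp (((-β : ℝ) : ℂ) • (H + (c : ℂ) • (1 : Matrix n n ℂ)))

/-- normalisation per site and unit of `j` -/
def eta : ℚ := 2101 / 2000

/-- torus partition function: `L` sites, `β = j / 2`, twists `g` (space) and `h` (time) -/
def Zr (L : ℕ) (g h : Aux) (j : ℕ) : ℝ :=
  ((eta : ℝ) ^ L) ^ j * (tens L (rot h) * boltz (ringH L g) (3 * L / 2) (j / 2)).trace.re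

/-- `k + 2` sites with end fields -/
def Zo (k : ℕ) (s s' : ℝ) (j : ℕ) : ℝ :=
  ((eta : ℝ) ^ (k + 2)) ^ j *
    (boltz (openH (k + 1) s s') (3 * ((k : ℝ) + 2) / 2 + 1 / 5) (j / 2)).trace.re

/-- `θ = i √τ`, so `θ² = -τ` for `τ ≥ 0` -/
def theta (τ : ℝ) : ℂ := Complex.I * (Real.sqrt τ : ℝ)

def Bop (θ : ℂ) : Aux → M3
  | none => 1
  | some a => θ • spinOp a

def Wsym (θ : ℂ) (a b : Aux) : M3 := (1 / 2 : ℂ) • (Bop θ a * Bop θ b + Bop θ b * Bop θ a)

def Gam (g : Aux) : Matrix Aux Aux ℂ := Matrix.diagonal fun a => (sgn g a : ℂ)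

def E00 : Matrix Aux Aux ℂ := Matrix.diagonal fun a => if a = none then 1 else 0

def Fld (τ s : ℝ) : M3 := 1 + ((τ * (3 / 5 * s) : ℝ) : ℂ) • spinZ

def Wopen (τ s s' : ℝ) (k : ℕ) (p : Fin (k + 2)) (a b : Aux) : M3 :=
  (if p = 0 then Fld τ s else if p = Fin.last (k + 1) then Fld τ s' else 1) * Wsym (theta τ) a b

/-- one Trotter slice `1 - τ H + O(τ²)` of the ring -/
def sliceR (L : ℕ) (g : Aux) (τ : ℝ) : Matrix (Cfg L) (Cfg L) ℂ :=
  mpo (Gam g) fun _ => Wsym (theta τ)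

/-- one Trotter slice of the chain with two ends -/
def sliceO (k : ℕ) (s s' τ : ℝ) : Matrix (Cfg (k + 2)) (Cfg (k + 2)) ℂ := mpo E00 (Wopen τ s s' k)

/-- the quantum transfer matrix of `n` slices -/
def Tm (h : Aux) (τ : ℝ) (n : ℕ) : Matrix (Fin n → Aux) (Fin n → Aux) ℂ :=
  col (rot h) (Wsym (theta τ)) n

def rho (n : ℕ) (g : Aux) : Matrix (Fin n → Aux) (Fin n → Aux) ℂ := tens n (Gam g)

/-- boundary vector -/
def lvec (τ s : ℝ) (n : ℕ) : (Fin n → Aux) → ℂ :=
  fun a => chain (1 : M3) fun r => Fld τ s * Bop (theta τ) (a r)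

/-- Chebyshev polynomials of the second kind `U_k (A / 2)` -/
def chU {n : Type} [Fintype n] [DecidableEq n] (A : Matrix n n ℂ) : ℕ → Matrix n n ℂ
  | 0 => 1
  | 1 => A
  | k + 2 => A * chU A (k + 1) - chU A k

/-- the equation lemmas of `chU` are generated here, once -/
theorem chU_eqns : True := by
  have := @chU.eq_def
  have := @chU.eq_3
  trivial

end

/-- a representation of the group by Hermitian matrices -/
structure Rep4 {n : Type} [Fintype n] [DecidableEq n] (ρ : Aux → Matrix n n ℂ) : Prop where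
  one : ρ none = 1
  mul : ∀ g g', ρ g * ρ g' = ρ (gmul g g')
  herm : ∀ g, (ρ g).IsHermitian

/-- the numerical range of `A` lies in `[lo, hi]` -/
def Spec {n : Type} [Fintype n] (A : Matrix n n ℂ) (lo hi : ℝ) : Prop :=
  ∀ v : n → ℂ, lo * (star v ⬝ᵥ v).re ≤ (star v ⬝ᵥ A *ᵥ v).re ∧
    (star v ⬝ᵥ A *ᵥ v).re ≤ hi * (star v ⬝ᵥ v).re

end Crest.Agent.R347
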