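import Lean

/-!
# Row 347: the kernel engine (definitions only; soundness is in `EngSound.lean`)

A vector indexed by natural codes `< 9 ^ n` is a complete 9-ary tree `T n` with `Nat` leaves.
Each leaf packs many signed `w`-bit slots (with a bias).  One step applies an integer matrix,
subtracts the previous iterate (Chebyshev recurrence) and rounds (clears the low `s` bits of each
slot).  Everything is written with recursors so that the kernel evaluates it quickly.
-/

set_option autoImplicit false

namespace Crest.Agent.R347.Eng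

structure V (α : Type) : Type where
  (a0 a1 a2 a3 a4 a5 a6 a7 a8 : α)

noncomputable section

def T (n : Nat) : Type := Nat.rec (motive := fun _ => Type) Nat (fun _ α => V α) n

/-- `ite` on a `Bool` through the recursor -/
def bif' {α : Type} (b : Bool) (t f : α) : α := Bool.rec (motive := fun _ => α) f t b

def sel {α : Type} (d : Nat) (v : V α) : α :=
  Bool.rec (motive := fun _ => α)
    (Bool.rec (motive := fun _ => α)
      (Bool.rec (motive := fun _ => α) (Bool.rec (motive := fun _ => α) v.a8 v.a7 (Nat.ble d 7)) v.a6 (Nat.ble d 6))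
      (Bool.rec (motive := fun _ => α) v.a5 v.a4 (Nat.ble d 4)) (Nat.ble d 5))
    (Bool.rec (motive := fun _ => α)
      (Bool.rec (motive := fun _ => α) v.a3 v.a2 (Nat.ble d 2))
      (Bool.rec (motive := fun _ => α) v.a1 v.a0 (Nat.ble d 0)) (Nat.ble d 1))
    (Nat.ble d 3)

/-- the leaf with code `q` (only `q % 9 ^ n` matters) -/
def get (n : Nat) : T n → Nat → Nat :=
  Nat.rec (motive := fun n => T n → Nat → Nat) (fun s _ => s)
    (fun n ih s q => ih (sel (Nat.mod (Nat.div q (Nat.pow 9 n)) 9) s) q) n

def zero (n : Nat) : T n :=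
  Nat.rec (motive := fun n => T n) (0 : Nat) (fun _ z => V.mk z z z z z z z z z) n

/-- the tree of depth `n` below the prefix `c` with leaves `f code`; subtrees with `emp` are zero -/
def build (emp : Nat → Nat → Bool) (f : Nat → Nat) (n : Nat) : Nat → T n :=
  Nat.rec (motive := fun n => Nat → T n)
    (fun c => Bool.rec (motive := fun _ => Nat) (f c) 0 (emp 0 c))
    (fun n ih c => Bool.rec (motive := fun _ => V (T n))
      (V.mk (ih (Nat.mul 9 c)) (ih (Nat.add (Nat.mul 9 c) 1)) (ih (Nat.add (Nat.mul 9 c) 2))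
        (ih (Nat.add (Nat.mul 9 c) 3)) (ih (Nat.add (Nat.mul 9 c) 4)) (ih (Nat.add (Nat.mul 9 c) 5))
        (ih (Nat.add (Nat.mul 9 c) 6)) (ih (Nat.add (Nat.mul 9 c) 7)) (ih (Nat.add (Nat.mul 9 c) 8)))
      (zero (Nat.succ n)) (emp (Nat.succ n) c)) n

/-- `a + g q₁ + g q₂ + …` -/
def sumFrom (g : Nat → Nat) (l : List Nat) : Nat → Nat :=
  List.rec (motive := fun _ => Nat → Nat) (fun a => a) (fun q _ ih a => ih (Nat.add a (g q))) l

/-- `acc + k * (g q₁ + g q₂ + …)` -/
def grp (g : Nat → Nat) (k : Nat) (l : List Nat) (acc : Nat) : Nat :=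
  List.rec (motive := fun _ => Nat) acc
    (fun q t _ => Bool.rec (motive := fun _ => Nat)
      (Nat.add acc (Bool.rec (motive := fun _ => Nat) (Nat.mul k (sumFrom g t (g q))) (sumFrom g t (g q)) (Nat.beq k 1)))
      acc (Nat.beq k 0)) l

/-- a list of groups `(coefficient, codes)` -/
abbrev Gs := List (Nat × List Nat)

def evalG (g : Nat → Nat) (gs : Gs) : Nat → Nat :=
  List.rec (motive := fun _ => Nat → Nat) (fun a => a)
    (fun p _ ih a => Prod.rec (motive := fun _ => Nat) (fun k l => ih (grp g k l a)) p) gs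

def len (l : List Nat) : Nat := List.rec (motive := fun _ => Nat) 0 (fun _ _ ih => Nat.succ ih) l

/-- total weight `∑ k * length` of a list of groups -/
def wt (gs : Gs) : Nat :=
  List.rec (motive := fun _ => Nat) 0
    (fun p _ ih => Prod.rec (motive := fun _ => Nat) (fun k l => Nat.add (Nat.mul k (len l)) ih) p) gs

/-- A matrix with shift `s`: depth, empty subtrees, rows (positive and negative groups),
`base = 2^(s+1) t + 2^s (+ 2^s if the old iterate is subtracted)`, `old` -/
structure Mat : Type where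
  n : Nat
  emp : Nat → Nat → Bool
  row : Nat → Gs × Gs
  s : Nat
  base : Nat
  old : Bool

def leaf (M : Mat) (B' mask : Nat) (x o : T M.n) (c : Nat) : Nat :=
  Prod.rec (motive := fun _ => Nat) (fun pos neg =>
    Nat.land (Nat.sub
      (evalG (fun q => Nat.shiftRight (get M.n x q) M.s) pos
        (Nat.mul (Nat.sub (Nat.add M.base (wt neg)) (wt pos)) B'))
      (evalG (fun q => Nat.shiftRight (get M.n x q) M.s) neg
        (Bool.rec (motive := fun _ => Nat) 0 (get M.n o c) M.old))) mask) (M.row c)

def genStep (M : Mat) (B' mask : Nat) (x o : T M.n) : T M.n :=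
  build M.emp (leaf M B' mask x o) M.n 0

def genBuild (M : Mat) (f : Nat → Nat) : T M.n := build M.emp f M.n 0

/-- `∑_{i<m} 2^(w i) * a` -/
def rep (w a : Nat) (m : Nat) : Nat :=
  Nat.rec (motive := fun _ => Nat) 0 (fun _ b => Nat.add (Nat.shiftLeft b w) a) m

/-- weighted sum of slots; entries `(weight, code, slot)` -/
def out (n w s : Nat) (l : List (Nat × Nat × Nat)) (x : T n) : Nat :=
  List.rec (motive := fun _ => Nat) 0
    (fun p _ ih => Prod.rec (motive := fun _ => Nat) (fun k p => Prod.rec (motive := fun _ => Nat) (fun q i =>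
      Nat.add (Nat.mul k (Nat.mod (Nat.shiftRight (get n x q) (Nat.add (Nat.mul w i) s))
        (Nat.pow 2 (Nat.sub w s)))) ih) p) p) l

/-- compares the outputs with the list `e`, one step per entry, and ends with `fin` -/
def runK {α : Type} (step : α → α → α) (o1 o2 : α → Nat) (fin : α → α → Bool)
    (e : List (Nat × Nat)) : α → α → Bool :=
  List.rec (motive := fun _ => α → α → Bool) fin
    (fun e _ ih x o => Prod.rec (motive := fun _ => Bool) (fun e1 e2 =>
      Bool.rec (motive := fun _ => Bool) false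
        (Bool.rec (motive := fun _ => Bool) false (ih (step x o) x) (Nat.beq (o2 x) e2))
        (Nat.beq (o1 x) e1)) e) e

/-- `a && b` through the recursor -/
def and' (a b : Bool) : Bool := Bool.rec (motive := fun _ => Bool) false b a

def eqT (n : Nat) : T n → T n → Bool :=
  Nat.rec (motive := fun n => T n → T n → Bool) (fun a b => Nat.beq a b)
    (fun _ ih a b => and' (ih a.a0 b.a0) (and' (ih a.a1 b.a1) (and' (ih a.a2 b.a2) (and' (ih a.a3 b.a3)
      (and' (ih a.a4 b.a4) (and' (ih a.a5 b.a5) (and' (ih a.a6 b.a6) (and' (ih a.a7 b.a7)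
        (ih a.a8 b.a8))))))))) n

theorem and'_iff (a b : Bool) : and' a b = true ↔ a = true ∧ b = true := by
  cases a <;> cases b <;> simp [and']

theorem eqT_eq (n : Nat) : ∀ a b : T n, eqT n a b = true → a = b := by
  induction n with
  | zero => intro a b h; exact Nat.eq_of_beq_eq_true h
  | succ n ih =>
    intro a b h
    have h' : and' (eqT n a.a0 b.a0) (and' (eqT n a.a1 b.a1) (and' (eqT n a.a2 b.a2)
      (and' (eqT n a.a3 b.a3) (and' (eqT n a.a4 b.a4) (and' (eqT n a.a5 b.a5) (and' (eqT n a.a6 b.a6)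
      (and' (eqT n a.a7 b.a7) (eqT n a.a8 b.a8)))))))) = true := h
    simp only [and'_iff] at h'
    obtain ⟨h0, h1, h2, h3, h4, h5, h6, h7, h8⟩ := h'
    obtain ⟨_, _, _, _, _, _, _, _, _⟩ := a
    obtain ⟨_, _, _, _, _, _, _, _, _⟩ := b
    have e0 := ih _ _ h0; have e1 := ih _ _ h1; have e2 := ih _ _ h2; have e3 := ih _ _ h3
    have e4 := ih _ _ h4; have e5 := ih _ _ h5; have e6 := ih _ _ h6; have e7 := ih _ _ h7
    have e8 := ih _ _ h8
    simp only at e0 e1 e2 e3 e4 e5 e6 e7 e8
    subst e0 e1 e2 e3 e4 e5 e6 e7 e8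
    rfl

theorem runK_append {α : Type} (step : α → α → α) (o1 o2 : α → Nat) (fin fin' : α → α → Bool)
    (x' o' : α) (hf : ∀ a b, fin' a b = true → a = x' ∧ b = o') (e1 e2 : List (Nat × Nat))
    (h2 : runK step o1 o2 fin e2 x' o' = true) :
    ∀ x o, runK step o1 o2 fin' e1 x o = true → runK step o1 o2 fin (e1 ++ e2) x o = true := by
  induction e1 with
  | nil => intro x o h; obtain ⟨rfl, rfl⟩ := hf x o h; exact h2
  | cons p t ih =>
    intro x o h
    obtain ⟨a, b⟩ := p
    have h' : and' (Nat.beq (o1 x) a) (and' (Nat.beq (o2 x) b)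
      (runK step o1 o2 fin' t (step x o) x)) = true := h
    simp only [and'_iff] at h'
    show and' (Nat.beq (o1 x) a) (and' (Nat.beq (o2 x) b)
      (runK step o1 o2 fin (t ++ e2) (step x o) x)) = true
    simp only [and'_iff]
    exact ⟨h'.1, h'.2.1, ih _ _ h'.2.2⟩

def rnd (c : Nat) : Nat := Nat.mod (Nat.pow (Nat.add c 12345) 7) 288230376151711717

/-- `∑ 2^(w i + F + s)` over the entries `(_, c, i)` -/
def look (w Fs : Nat) (l : List (Nat × Nat × Nat)) (c : Nat) : Nat :=
  List.rec (motive := fun _ => Nat) 0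
    (fun p _ ih => Prod.rec (motive := fun _ => Nat) (fun _ p => Prod.rec (motive := fun _ => Nat) (fun q i =>
      Bool.rec (motive := fun _ => Nat) ih (Nat.add (Nat.pow 2 (Nat.add (Nat.mul w i) Fs)) ih) (Nat.beq q c)) p) p) l

/-- A job: slot width `w`, `F` fractional bits, `m` slots (slot 0 holds noise), the unit vectors
`l0` (entries `(_, code, slot)`, codes in `[lo, hi]`), two output lists `l1`, `l2` (entries
`(weight, code, slot)`), expected outputs `e` -/
structure Job : Type where
  w : Nat
  F : Nat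
  m : Nat
  lo : Nat
  hi : Nat
  l0 : List (Nat × Nat × Nat)
  l1 : List (Nat × Nat × Nat)
  l2 : List (Nat × Nat × Nat)
  e : List (Nat × Nat)

def Job.init (J : Job) (s : Nat) (c : Nat) : Nat :=
  Nat.add (Nat.add (rep J.w (Nat.pow 2 (Nat.sub J.w 1)) J.m) (Nat.shiftLeft (rnd c) s))
    (Bool.rec (motive := fun _ => Nat) 0
      (Bool.rec (motive := fun _ => Nat) 0 (look J.w (Nat.add J.F s) J.l0 c) (Nat.ble c J.hi)) (Nat.ble J.lo c))

/-- a stretch of the run of `J` from the state `(x, o)` -/
def part (n s : Nat) (step : Nat → Nat → T n → T n → T n) (J : Job) (fin : T n → T n → Bool)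
    (e : List (Nat × Nat)) (x o : T n) : Bool :=
  runK (step (rep J.w (Nat.pow 2 (Nat.sub (Nat.sub J.w 1) s)) J.m)
        (rep J.w (Nat.sub (Nat.pow 2 J.w) (Nat.pow 2 s)) J.m))
    (out n J.w s J.l1) (out n J.w s J.l2) fin e x o

def atEnd (n : Nat) : T n → T n → Bool := fun _ _ => true

def atState (n : Nat) (p : T n × T n) : T n → T n → Bool :=
  fun a b => and' (eqT n a p.1) (eqT n b p.2)

/-- the initial state -/
def start (n s : Nat) (bld : (Nat → Nat) → T n) (J : Job) : T n × T n :=
  (bld (J.init s), bld (fun _ => rep J.w (Nat.pow 2 (Nat.sub J.w 1)) J.m))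

def checkWith (n s : Nat) (bld : (Nat → Nat) → T n) (step : Nat → Nat → T n → T n → T n) (J : Job) : Bool :=
  part n s step J (atEnd n) J.e (start n s bld J).1 (start n s bld J).2

def check (M : Mat) (J : Job) : Bool := checkWith M.n M.s (genBuild M) (genStep M) J

theorem check_of (M : Mat) (J : Job) (bld : (Nat → Nat) → T M.n)
    (step : Nat → Nat → T M.n → T M.n → T M.n) (h1 : genBuild M = bld) (h2 : genStep M = step)
    (h : checkWith M.n M.s bld step J = true) : check M J = true := by
  subst h1 h2; exact h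

theorem part_append (n s : Nat) (step : Nat → Nat → T n → T n → T n) (J : Job)
    (fin : T n → T n → Bool) (e1 e2 : List (Nat × Nat)) (p q : T n × T n)
    (h1 : part n s step J (atState n q) e1 p.1 p.2 = true) (h2 : part n s step J fin e2 q.1 q.2 = true) :
    part n s step J fin (e1 ++ e2) p.1 p.2 = true := by
  refine runK_append _ _ _ fin (atState n q) q.1 q.2 ?_ e1 e2 h2 _ _ h1
  intro a b h
  have h' := (and'_iff _ _).1 h
  exact ⟨eqT_eq n _ _ h'.1, eqT_eq n _ _ h'.2⟩

/-- equality of step functions from the nine subtrees -/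
theorem step_ext {α β : Type} (f g : Nat → Nat → β → β → V α)
    (h0 : (fun a b x o => (f a b x o).a0) = fun a b x o => (g a b x o).a0)
    (h1 : (fun a b x o => (f a b x o).a1) = fun a b x o => (g a b x o).a1)
    (h2 : (fun a b x o => (f a b x o).a2) = fun a b x o => (g a b x o).a2)
    (h3 : (fun a b x o => (f a b x o).a3) = fun a b x o => (g a b x o).a3)
    (h4 : (fun a b x o => (f a b x o).a4) = fun a b x o => (g a b x o).a4)
    (h5 : (fun a b x o => (f a b x o).a5) = fun a b x o => (g a b x o).a5)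
    (h6 : (fun a b x o => (f a b x o).a6) = fun a b x o => (g a b x o).a6)
    (h7 : (fun a b x o => (f a b x o).a7) = fun a b x o => (g a b x o).a7)
    (h8 : (fun a b x o => (f a b x o).a8) = fun a b x o => (g a b x o).a8) : f = g := by
  funext a b x o
  have e0 := congrFun (congrFun (congrFun (congrFun h0 a) b) x) o
  have e1 := congrFun (congrFun (congrFun (congrFun h1 a) b) x) o
  have e2 := congrFun (congrFun (congrFun (congrFun h2 a) b) x) o
  have e3 := congrFun (congrFun (congrFun (congrFun h3 a) b) x) o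
  have e4 := congrFun (congrFun (congrFun (congrFun h4 a) b) x) o
  have e5 := congrFun (congrFun (congrFun (congrFun h5 a) b) x) o
  have e6 := congrFun (congrFun (congrFun (congrFun h6 a) b) x) o
  have e7 := congrFun (congrFun (congrFun (congrFun h7 a) b) x) o
  have e8 := congrFun (congrFun (congrFun (congrFun h8 a) b) x) o
  generalize f a b x o = u at *
  generalize g a b x o = v at *
  obtain ⟨_, _, _, _, _, _, _, _, _⟩ := u
  obtain ⟨_, _, _, _, _, _, _, _, _⟩ := v
  simp only at e0 e1 e2 e3 e4 e5 e6 e7 e8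
  subst e0 e1 e2 e3 e4 e5 e6 e7 e8
  rfl

/-! ### spin chains -/

def dig (c j : Nat) : Nat := Nat.mod (Nat.div c (Nat.pow 3 j)) 3

/-- digit sum of the lowest `k` base-3 digits -/
def dsum (k : Nat) : Nat → Nat :=
  Nat.rec (motive := fun _ => Nat → Nat) (fun _ => 0)
    (fun _ ih c => Nat.add (Nat.mod c 3) (ih (Nat.div c 3))) k

/-- hops of the bond `(j, k)` put in front of `t` -/
def hops (c j k : Nat) (t : List Nat) : List Nat :=
  Bool.rec (motive := fun _ => List Nat)
    (Bool.rec (motive := fun _ => List Nat) t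
      (Bool.rec (motive := fun _ => List Nat) t
        (List.cons (Nat.sub (Nat.add c (Nat.pow 3 j)) (Nat.pow 3 k)) t) (Nat.ble 1 (dig c k)))
      (Nat.ble (dig c j) 1))
    (Bool.rec (motive := fun _ => List Nat)
      (Bool.rec (motive := fun _ => List Nat) t
        (Bool.rec (motive := fun _ => List Nat) t
          (List.cons (Nat.sub (Nat.add c (Nat.pow 3 j)) (Nat.pow 3 k)) t) (Nat.ble 1 (dig c k)))
        (Nat.ble (dig c j) 1))
      (List.cons (Nat.sub (Nat.add c (Nat.pow 3 k)) (Nat.pow 3 j))
        (Bool.rec (motive := fun _ => List Nat) t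
          (Bool.rec (motive := fun _ => List Nat) t
            (List.cons (Nat.sub (Nat.add c (Nat.pow 3 j)) (Nat.pow 3 k)) t) (Nat.ble 1 (dig c k)))
          (Nat.ble (dig c j) 1)))
      (Nat.ble (dig c k) 1))
    (Nat.ble 1 (dig c j))

/-- hops of the bonds `(j, j+1)`, `j < nb`, put in front of `t` -/
def hopsTo (c : Nat) (t : List Nat) (nb : Nat) : List Nat :=
  Nat.rec (motive := fun _ => List Nat) t (fun j ih => hops c j (Nat.succ j) ih) nb

/-- `1 + (1 - a) (1 - b)` for digits `a, b` -/
def zz (a b : Nat) : Nat := Nat.sub (Nat.add 2 (Nat.mul a b)) (Nat.add a b)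

/-- `nb + ∑_{j<nb} m_j m_{j+1}` -/
def zzTo (c : Nat) (nb : Nat) : Nat :=
  Nat.rec (motive := fun _ => Nat) 0 (fun j ih => Nat.add (zz (dig c j) (dig c (Nat.succ j))) ih) nb

/-- The matrix `m (H - c)` of a chain with `L = l + 1` sites.
`kind = 0`: ring, `1`: ring with the hops of the last bond negated, `2`: open with fields `(+,-)`,
`3`: open with fields `(+,+)`.  The diagonal is `m * (nb + ∑ m_j m_{j+1}) + f * (field digits) + eP - eN`. -/
def spinRow (l kind m f eP eN : Nat) (c : Nat) : Gs × Gs :=
  let P : Nat := Nat.add (Nat.add (Nat.mul m (zzTo c l)) eP)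
    (Bool.rec (motive := fun _ => Nat)
      (Nat.mul f (Nat.add (dig c 0) (Bool.rec (motive := fun _ => Nat) (dig c l) (Nat.sub 2 (dig c l)) (Nat.beq kind 2))))
      (Nat.mul m (zz (dig c l) (dig c 0))) (Nat.ble kind 1))
  ([(m, hopsTo c (Bool.rec (motive := fun _ => List Nat) [] (hops c l 0 []) (Nat.beq kind 0)) l),
    (Nat.sub P eN, [c])],
   [(m, Bool.rec (motive := fun _ => List Nat) [] (hops c l 0 []) (Nat.beq kind 1)), (Nat.sub eN P, [c])])

/-- empty unless the code is `< 3 ^ L` and its digit sum can lie in `[lo, hi]` -/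
def spinEmp (L lo hi : Nat) (n c : Nat) : Bool :=
  Bool.rec (motive := fun _ => Bool)
    (Bool.rec (motive := fun _ => Bool)
      (Nat.blt (Nat.add (dsum L c) (Nat.mul 4 n)) lo) true (Nat.blt hi (dsum L c)))
    true (Nat.ble (Nat.pow 3 L) (Nat.mul c (Nat.pow 9 n)))

def spinMat (l kind m f eP eN s t lo hi : Nat) : Mat where
  n := Nat.div (Nat.add l 2) 2
  emp := spinEmp (Nat.succ l) lo hi
  row := spinRow l kind m f eP eN
  s := s
  base := Nat.mul (Nat.succ t) (Nat.pow 2 (Nat.succ s))
  old := true

/-! ### orbits of codes -/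

def flipC (L c : Nat) : Nat := Nat.sub (Nat.sub (Nat.pow 3 L) 1) c
def rotC (L c : Nat) : Nat := Nat.add (Nat.div c 3) (Nat.mul (Nat.mod c 3) (Nat.pow 3 (Nat.sub L 1)))

/-- `revAux k c a` moves the lowest `k` digits of `c`, in reverse order, behind `a` -/
def revAux (k : Nat) : Nat → Nat → Nat :=
  Nat.rec (motive := fun _ => Nat → Nat → Nat) (fun _ a => a)
    (fun _ ih c a => ih (Nat.div c 3) (Nat.add (Nat.mul 3 a) (Nat.mod c 3))) k

def revC (L c : Nat) : Nat := revAux L c 0

/-- `c, rot c, …, rot^(k-1) c` and their flips, in front of `t` -/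
def orb (L : Nat) (t : List Nat) (k : Nat) : Nat → List Nat :=
  Nat.rec (motive := fun _ => Nat → List Nat) (fun _ => t)
    (fun _ ih c => List.cons c (List.cons (flipC L c) (ih (rotC L c)))) k

def imgs (L : Nat) (sym : Bool) (c : Nat) : List Nat :=
  Bool.rec (motive := fun _ => List Nat) [c] (orb L (orb L [] L (revC L c)) L c) sym

/-- sets the bits `l` in the mask `m` and counts the new ones -/
def mark (k : Nat → Nat → Bool) (l : List Nat) : Nat → Nat → Bool :=
  List.rec (motive := fun _ => Nat → Nat → Bool) k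
    (fun i _ ih m n => Bool.rec (motive := fun _ => Bool) (ih m n)
      (ih (Nat.lor m (Nat.shiftLeft 1 i)) (Nat.succ n))
      (Nat.beq (Nat.land (Nat.shiftRight m i) 1) 0)) l

/-- the orbits of the `(weight, code)` pairs have the stated sizes and partition `[0, 3^L)` -/
def cover (L : Nat) (sym : Bool) (reps : List (Nat × Nat)) : Nat → Bool :=
  List.rec (motive := fun _ => Nat → Bool)
    (fun m => Nat.beq (Nat.succ m) (Nat.pow 2 (Nat.pow 3 L)))
    (fun p _ ih m => Prod.rec (motive := fun _ => Bool) (fun k c =>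
      mark (fun m' n => and' (Nat.beq n k) (and' (Nat.blt c (Nat.pow 3 L)) (ih m'))) (imgs L sym c) m 0) p)
    reps

end

/-! ### transfer matrices of matrix product states (computable; also used by the term builder) -/

/-- entry `(a, b)` of the table `N` (13 bits each, offset 4096) -/
def ent (N D a b : Nat) : Int := Int.subNatNat ((N >>> (13 * (a * D + b))) % 8192) 4096

/-- charge of the virtual index `a` -/
def chg (Q a : Nat) : Nat := (Q >>> (4 * a)) % 16

/-- the non-zero entries `(b, value)` in row `a` of the tensor `A^k` -/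
def adj (N Q D k a : Nat) : List (Nat × Int) :=
  ((List.range D).filter fun b => chg Q b + k == chg Q a + 1).map fun b => (b, ent N D a b)

/-- row `p` of the seven-state operator: entries `(q, k', k, coefficient)`; `f`, `f'` are three times
the signs of the end fields -/
def wl (f f' : Int) : Nat → List (Nat × Nat × Nat × Int)
  | 0 => [(1, 0, 0, 64), (1, 1, 1, 64), (1, 2, 2, 64), (2, 0, 0, 5), (2, 2, 2, -5), (3, 0, 1, 5),
      (3, 1, 2, 5), (4, 1, 0, 5), (4, 2, 1, 5), (5, 0, 0, -f), (5, 2, 2, f)]
  | 1 => [(1, 0, 0, 64), (1, 1, 1, 64), (1, 2, 2, 64), (2, 0, 0, 5), (2, 2, 2, -5), (3, 0, 1, 5),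
      (3, 1, 2, 5), (4, 1, 0, 5), (4, 2, 1, 5), (6, 0, 0, -f'), (6, 2, 2, f')]
  | 2 => [(5, 0, 0, 64), (5, 2, 2, -64), (6, 0, 0, 64), (6, 2, 2, -64)]
  | 3 => [(5, 1, 0, 64), (5, 2, 1, 64), (6, 1, 0, 64), (6, 2, 1, 64)]
  | 4 => [(5, 0, 1, 64), (5, 1, 2, 64), (6, 0, 1, 64), (6, 1, 2, 64)]
  | 5 => [(5, 0, 0, 64), (5, 1, 1, 64), (5, 2, 2, 64), (6, 0, 0, 64), (6, 1, 1, 64), (6, 2, 2, 64)]
  | _ => []

/-- the signed entries `(coefficient, code)` of the row with code `c = (a' * 7 + p) * D + a` -/
def mpsEnt (N Q D : Nat) (f f' : Int) (c : Nat) : List (Int × Nat) :=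
  (wl f f' (c / D % 7)).flatMap fun w =>
    (adj N Q D w.2.1 (c / D / 7)).flatMap fun e' =>
      (adj N Q D w.2.2.1 (c % D)).map fun e =>
        (e'.2 * w.2.2.2 * e.2, (e'.1 * 7 + w.1) * D + e.1)

def splitRow (l : List (Int × Nat)) : Gs × Gs :=
  ((l.filter fun e => decide (0 < e.1)).map fun e => (e.1.toNat, [e.2]),
   (l.filter fun e => decide (e.1 < 0)).map fun e => ((-e.1).toNat, [e.2]))

/-- `1 +` the charge carried by the operator state `p` -/
def kap (p : Nat) : Nat := if p = 3 then 2 else if p = 4 then 0 else 1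

def mpsOk (Q D dl : Nat) (c : Nat) : Bool :=
  decide (c < 7 * D * D) && (chg Q (c / D / 7) + 17 == chg Q (c % D) + kap (c / D % 7) + dl)

def mpsEmp (Q D dl : Nat) (n c : Nat) : Bool :=
  if n = 0 then !(mpsOk Q D dl c) else decide (7 * D * D ≤ c * 9 ^ n)

def mpsMat (N Q D : Nat) (f f' : Int) (dl n s t : Nat) : Mat where
  n := n
  emp := mpsEmp Q D dl
  row := fun c => splitRow (mpsEnt N Q D f f' c)
  s := s
  base := 2 ^ (s + 1) * t + 2 ^ s
  old := false

/-! ### term builders (the kernel checks their output by `rfl`) -/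

structure MMat where
  n : Nat
  emp : Nat → Nat → Bool
  row : Nat → Gs × Gs
  s : Nat
  base : Nat
  old : Bool

def lit (n : Nat) : Lean.Expr := Lean.mkRawNatLit n
def bin (f : Lean.Name) (a b : Lean.Expr) : Lean.Expr := Lean.mkApp2 (Lean.mkConst f) a b
def tyE : Nat → Lean.Expr
  | 0 => Lean.mkConst ``Nat
  | n + 1 => Lean.mkApp (Lean.mkConst ``V) (tyE n)

partial def treeE (emp : Nat → Nat → Bool) (f : Nat → Lean.Expr) (n c : Nat) : Lean.Expr :=
  if emp n c then (if n = 0 then lit 0 else Lean.mkApp (Lean.mkConst ``zero) (lit n))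
  else match n with
    | 0 => f c
    | k + 1 => Lean.mkAppN (Lean.mkConst ``V.mk)
        (#[tyE k] ++ (Array.range 9).map fun d => treeE emp f k (9 * c + d))

/-- table of shared accessor terms for all non-empty leaves -/
partial def accs (emp : Nat → Nat → Bool) (wrap : Lean.Expr → Lean.Expr) (n c : Nat) (e : Lean.Expr)
    (m : Std.HashMap Nat Lean.Expr) : Std.HashMap Nat Lean.Expr :=
  if emp n c then m
  else match n with
    | 0 => m.insert c (wrap e)
    | k + 1 => (List.range 9).foldl (fun m d => accs emp wrap k (9 * c + d) (.proj ``V d e) m) m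

def evalE (g : Nat → Lean.Expr) (gs : Gs) (a : Lean.Expr) : Lean.Expr :=
  gs.foldl (fun a (k, l) => match l with
    | [] => a
    | q :: t =>
      if k = 0 then a else
      let sm := t.foldl (fun a q => bin ``Nat.add a (g q)) (g q)
      bin ``Nat.add a (if k = 1 then sm else bin ``Nat.mul (lit k) sm)) a

def wtE (gs : Gs) : Nat := gs.foldl (fun a (k, l) => a + k * l.length) 0

def lam (n : Lean.Name) (t b : Lean.Expr) : Lean.Expr := .lam n t b .default

def stepE (M : MMat) : Lean.Expr :=
  let xs := accs M.emp (fun e => bin ``Nat.shiftRight e (lit M.s)) M.n 0 (.bvar 1) {}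
  let os := accs M.emp id M.n 0 (.bvar 0) {}
  let g := fun q => xs.getD q (lit 0)
  let kB : Array Lean.Expr := (Array.range 2048).map fun k => bin ``Nat.mul (lit k) (.bvar 3)
  let body := treeE M.emp (fun c =>
    let (pos, neg) := M.row c
    let k := M.base + wtE neg - wtE pos
    let p := evalE g pos (kB.getD k (bin ``Nat.mul (lit k) (.bvar 3)))
    let q := evalE g neg (if M.old then os.getD c (lit 0) else lit 0)
    bin ``Nat.land (bin ``Nat.sub p q) (.bvar 2)) M.n 0
  lam `B (tyE 0) (lam `mask (tyE 0) (lam `x (tyE M.n) (lam `o (tyE M.n) body)))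

def buildE (M : MMat) : Lean.Expr :=
  lam `f (.forallE `c (tyE 0) (tyE 0) .default) (treeE M.emp (fun c => .app (.bvar 0) (lit c)) M.n 0)

def digM (c j : Nat) : Nat := c / 3 ^ j % 3
def dsumM : Nat → Nat → Nat
  | 0, _ => 0
  | k + 1, c => c % 3 + dsumM k (c / 3)
def hopsM (c j k : Nat) (t : List Nat) : List Nat :=
  let t := if digM c j ≤ 1 ∧ 1 ≤ digM c k then (c + 3 ^ j - 3 ^ k) :: t else t
  if 1 ≤ digM c j ∧ digM c k ≤ 1 then (c + 3 ^ k - 3 ^ j) :: t else t
def zzM (a b : Nat) : Nat := 2 + a * b - (a + b)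
def spinMatM (l kind m f eP eN s t lo hi : Nat) : MMat where
  n := (l + 2) / 2
  emp := fun n c => 3 ^ (l + 1) ≤ c * 9 ^ n || hi < dsumM (l + 1) c || dsumM (l + 1) c + 4 * n < lo
  row := fun c =>
    let P := m * (List.range l).foldl (fun a j => a + zzM (digM c j) (digM c (j + 1))) 0 + eP +
      (if kind ≤ 1 then m * zzM (digM c l) (digM c 0)
       else f * (digM c 0 + if kind = 2 then 2 - digM c l else digM c l))
    ([(m, (List.range l).foldl (fun t j => hopsM c j (j + 1) t) (if kind = 0 then hopsM c l 0 [] else [])),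
      (P - eN, [c])],
     [(m, if kind = 1 then hopsM c l 0 [] else []), (eN - P, [c])])
  s := s
  base := (t + 1) * 2 ^ (s + 1)
  old := true

def mpsMatM (N Q D : Nat) (f f' : Int) (dl n s t : Nat) : MMat where
  n := n
  emp := mpsEmp Q D dl
  row := fun c => splitRow (mpsEnt N Q D f f' c)
  s := s
  base := 2 ^ (s + 1) * t + 2 ^ s
  old := false

/-- the non-empty codes in increasing order -/
partial def codesM (emp : Nat → Nat → Bool) (n c : Nat) (acc : Array Nat) : Array Nat :=
  if emp n c then acc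
  else match n with
    | 0 => acc.push c
    | k + 1 => (List.range 9).foldl (fun acc d => codesM emp k (9 * c + d) acc) acc

def repM (w a m : Nat) : Nat := (List.range m).foldl (fun b _ => (b <<< w) + a) 0

/-- the states `(x, o)` after the numbers of steps in `cuts` (increasing), as terms; `l0` holds the
codes of the slots `1, 2, …` -/
def statesE (M : MMat) (w F : Nat) (l0 : Array Nat) (cuts : Array Nat) : Array Lean.Expr := Id.run do
  let m := l0.size + 1
  let cs := codesM M.emp M.n 0 #[]
  let mut idx : Std.HashMap Nat Nat := {}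
  for i in [0:cs.size] do idx := idx.insert cs[i]! i
  let B := repM w (2 ^ (w - 1)) m
  let B' := repM w (2 ^ (w - 1 - M.s)) m
  let mask := repM w (2 ^ w - 2 ^ M.s) m
  let cv := fun (gs : Gs) => (gs.filter fun g => g.1 ≠ 0 ∧ g.2 ≠ []).toArray.map fun g =>
    (g.1, g.2.toArray.map fun q => idx.getD q 0)
  let rows := cs.map fun c =>
    let (pos, neg) := M.row c
    ((M.base + wtE neg - wtE pos) * B', cv pos, cv neg)
  let mut x := cs.map fun c => B + ((c + 12345) ^ 7 % 288230376151711717) <<< M.s
  for i in [0:l0.size] do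
    let j := idx.getD l0[i]! 0
    x := x.set! j (x[j]! + 2 ^ (w * (i + 1) + F + M.s))
  let mut o := cs.map fun _ => B
  let mut res : Array Lean.Expr := #[]
  let mut k := 0
  let ev := fun (y : Array Nat) (gs : Array (Nat × Array Nat)) (a : Nat) =>
    gs.foldl (fun a g => a + g.1 * g.2.foldl (fun b q => b + y[q]!) 0) a
  for cut in cuts do
    while k < cut do
      let y := x.map fun v => v >>> M.s
      let mut z : Array Nat := Array.mkEmpty cs.size
      for i in [0:cs.size] do
        let (b, pos, neg) := rows[i]!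
        z := z.push ((ev y pos b - ev y neg (if M.old then o[i]! else 0)) &&& mask)
      o := x
      x := z
      k := k + 1
    let tr := fun (v : Array Nat) => treeE M.emp (fun c => lit v[idx.getD c 0]!) M.n 0
    let ty := Lean.mkApp (Lean.mkConst ``T) (lit M.n)
    res := res.push (Lean.mkApp4 (Lean.mkConst ``Prod.mk [.zero, .zero]) ty ty (tr x) (tr o))
  return res

def closeWith (e : Lean.Expr) : Lean.Elab.Tactic.TacticM Unit := do
  (← Lean.Elab.Tactic.getMainGoal).assign e
  Lean.Elab.Tactic.replaceMainGoal []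

def spinOf (a : Array Nat) : MMat := spinMatM a[0]! a[1]! a[2]! a[3]! a[4]! a[5]! a[6]! a[7]! a[8]! a[9]!

/-- closes a goal with the straight-line step function of a spin matrix -/
elab "spin_step " ns:num* : tactic => closeWith (stepE (spinOf (ns.map (·.getNat))))

/-- closes a goal with the straight-line tree builder of a spin matrix -/
elab "spin_build " ns:num* : tactic => closeWith (buildE (spinOf (ns.map (·.getNat))))

/-- closes a goal `List (T n × T n)` with intermediate states of a run (they are only proposals: the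
kernel checks them); arguments: matrix / `w F` / cuts / codes of the slots -/
elab "spin_states " ns:num* " / " w:num F:num " / " cuts:num* " / " l0:num* : tactic => do
  let M := spinOf (ns.map (·.getNat))
  let r := statesE M w.getNat F.getNat (l0.map (·.getNat)) (cuts.map (·.getNat))
  let ty := Lean.mkApp (Lean.mkConst ``T) (lit M.n)
  let pty := Lean.mkApp2 (Lean.mkConst ``Prod [.zero, .zero]) ty ty
  closeWith (r.foldr (fun a l => Lean.mkApp3 (Lean.mkConst ``List.cons [.zero]) pty a l)
    (Lean.mkApp (Lean.mkConst ``List.nil [.zero]) pty))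

def natOf (t : Lean.Syntax) : Lean.Elab.Tactic.TacticM Nat := do
  let e ← Lean.Elab.Tactic.elabTerm t (some (Lean.mkConst ``Nat))
  let some v ← (Lean.Meta.evalNat (← Lean.Meta.whnfD e)).run | throwError "not a numeral"
  return v

/-- arguments `N Q / D (3 + f) (3 + f') dl n s t` -/
def mpsOf (N Q : Nat) (a : Array Nat) : MMat :=
  mpsMatM N Q a[0]! ((a[1]! : Int) - 3) ((a[2]! : Int) - 3) a[3]! a[4]! a[5]! a[6]!

elab "mps_step " N:ident Q:ident " / " ns:num* : tactic => do
  closeWith (stepE (mpsOf (← natOf N) (← natOf Q) (ns.map (·.getNat))))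

elab "mps_build " N:ident Q:ident " / " ns:num* : tactic => do
  closeWith (buildE (mpsOf (← natOf N) (← natOf Q) (ns.map (·.getNat))))

/-- closes `a = b` with `Eq.refl a`; the kernel checks it -/
elab "kernel_rfl" : tactic => do
  let g ← Lean.Elab.Tactic.getMainGoal
  let t ← Lean.instantiateMVars (← g.getType)
  let some (α, a, _) := t.eq? | throwError "not an equation"
  let u ← Lean.Meta.getLevel α
  g.assign (Lean.mkApp2 (Lean.mkConst ``Eq.refl [u]) α a)
  Lean.Elab.Tactic.replaceMainGoal []

end Crest.Agent.R347.Eng
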