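import Crest.Agent.R347.EngTree

/-!
# Row 347: packed arithmetic   (task R347/EngBits)

You may use `EngTree` (other task).
-/

set_option autoImplicit false

namespace Crest.Agent.R347.Eng

theorem bits_peel (w m : ℕ) (v : ℕ → ℕ) (u : ℕ) :
    ∑ j ∈ Finset.range (m + 1), 2 ^ (w * j) * v j + 2 ^ (w * (m + 1)) * u =
      2 ^ w * (∑ j ∈ Finset.range m, 2 ^ (w * j) * v (j + 1) + 2 ^ (w * m) * u) + v 0 := by
  rw [Finset.sum_range_succ', mul_add (2 ^ w), Finset.mul_sum]
  simp only [mul_add, mul_one, pow_add, mul_zero, pow_zero, one_mul]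
  rw [Finset.sum_congr rfl fun j _ =>
    (show 2 ^ (w * j) * 2 ^ w * v (j + 1) = 2 ^ w * (2 ^ (w * j) * v (j + 1)) by ring)]
  ring

theorem bits_land_add (w x y : ℕ) {a b : ℕ} (ha : a < 2 ^ w) (hb : b < 2 ^ w) :
    (2 ^ w * x + a) &&& (2 ^ w * y + b) = 2 ^ w * (x &&& y) + (a &&& b) := by
  apply Nat.eq_of_testBit_eq
  intro j
  rw [Nat.testBit_and, Nat.testBit_two_pow_mul_add x ha, Nat.testBit_two_pow_mul_add y hb,
    Nat.testBit_two_pow_mul_add _ (Nat.and_lt_two_pow a hb)]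
  split_ifs <;> simp

theorem bits_land_hi {w s a : ℕ} (hs : s ≤ w) (ha : a < 2 ^ w) :
    a &&& (2 ^ w - 2 ^ s) = 2 ^ s * (a / 2 ^ s) := by
  obtain ⟨d, rfl⟩ := Nat.exists_eq_add_of_le hs
  have h1 : 2 ^ (s + d) - 2 ^ s = 2 ^ s * (2 ^ d - 1) + 0 := by
    rw [pow_add, Nat.mul_sub_one, add_zero]
  have h2 : a / 2 ^ s < 2 ^ d := by
    rw [Nat.div_lt_iff_lt_mul (by positivity), ← pow_add, add_comm]
    exact ha
  rw [h1]
  conv_lhs => rw [← Nat.div_add_mod a (2 ^ s)]
  rw [bits_land_add s _ _ (Nat.mod_lt _ (by positivity)) (by positivity),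
    Nat.and_two_pow_sub_one_eq_mod, Nat.mod_eq_of_lt h2]
  simp

/-- digits in base `2^w`: if `x = ∑_{i<m} 2^(w i) v i + 2^(w m) u` with `v i < 2^w` then
`x / 2^(w i) % 2^w = v i` -/
theorem digit_eq (w m : ℕ) (v : ℕ → ℕ) (u : ℕ) (hv : ∀ i, i < m → v i < 2 ^ w) {i : ℕ}
    (hi : i < m) : (∑ j ∈ Finset.range m, 2 ^ (w * j) * v j + 2 ^ (w * m) * u) / 2 ^ (w * i) % 2 ^ w
      = v i := by
  induction m generalizing v i with
  | zero => omega
  | succ m ih =>
    rw [bits_peel]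
    have h0 := hv 0 (by omega)
    cases i with
    | zero => simp [Nat.mod_eq_of_lt h0]
    | succ i =>
      rw [show w * (i + 1) = w + w * i by ring, pow_add, ← Nat.div_div_eq_div_mul,
        Nat.mul_add_div (by positivity), Nat.div_eq_of_lt h0, add_zero]
      exact ih (fun j => v (j + 1)) (fun j hj => hv (j + 1) (by omega)) (by omega)

/-- masking clears the low `s` bits of each slot and everything above slot `m - 1`.  Induction on `m`
peeling off the lowest slot: for `a, b < 2^w`, `(a + 2^w x) &&& (b + 2^w y) = (a &&& b) + 2^w (x &&& y)`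
and `a &&& (2^w - 2^s) = 2^s (a / 2^s)` (`Nat.eq_of_testBit_eq`; `2^w - 2^s = (2^(w-s) - 1) <<< s`). -/
theorem land_mask (w s m : ℕ) (hs : s ≤ w) (v : ℕ → ℕ) (u : ℕ) (hv : ∀ i, i < m → v i < 2 ^ w) :
    Nat.land (∑ j ∈ Finset.range m, 2 ^ (w * j) * v j + 2 ^ (w * m) * u) (rep w (2 ^ w - 2 ^ s) m) =
      ∑ j ∈ Finset.range m, 2 ^ (w * j) * (2 ^ s * (v j / 2 ^ s)) := by
  rw [Nat.land_eq]
  rw [rep_eq]
  induction m generalizing v with
  | zero => simp
  | succ m ih =>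
    have h1 := bits_peel w m (fun _ => 2 ^ w - 2 ^ s) 0
    have h2 := bits_peel w m (fun j => 2 ^ s * (v j / 2 ^ s)) 0
    simp only [mul_zero, add_zero] at h1 h2
    have h0 := hv 0 (by omega)
    rw [bits_peel, h1, h2, bits_land_add w _ _ h0 (Nat.sub_lt (by positivity) (by positivity)),
      bits_land_hi hs h0, ih (fun j => v (j + 1)) fun j hj => hv (j + 1) (by omega)]

theorem Packed.shift {w s m x : ℕ} {y : ℕ → ℤ} (hs : s + 1 ≤ w) (h : Packed w s m x y) :
    ((Nat.shiftRight x s : ℕ) : ℤ) =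
      ∑ i ∈ Finset.range m, 2 ^ (w * i) * (2 ^ (w - 1 - s) + y i) := by
  have h1 : (2 : ℤ) ^ (w - 1) = 2 ^ s * 2 ^ (w - 1 - s) := by
    rw [← pow_add]; congr 1; omega
  have h2 : (x : ℤ) = 2 ^ s * ∑ i ∈ Finset.range m, 2 ^ (w * i) * (2 ^ (w - 1 - s) + y i) := by
    rw [h.1, Finset.mul_sum]
    refine Finset.sum_congr rfl fun i _ => ?_
    rw [h1]; ring
  change ((x >>> s : ℕ) : ℤ) = _
  rw [Nat.shiftRight_eq_div_pow]
  push_cast
  rw [h2, Int.mul_ediv_cancel_left _ (by positivity)]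

theorem Packed.slot {w s m x : ℕ} {y : ℕ → ℤ} (hs : s + 1 ≤ w) (h : Packed w s m x y) {i : ℕ}
    (hi : i < m) : ((x / 2 ^ (w * i + s) % 2 ^ (w - s) : ℕ) : ℤ) = 2 ^ (w - 1 - s) + y i := by
  have h1 : (2 : ℤ) ^ (w - 1) = 2 ^ s * 2 ^ (w - 1 - s) := by
    rw [← pow_add]; congr 1; omega
  have h3 : (2 : ℤ) ^ w = 2 ^ (w - 1) + 2 ^ (w - 1) := by
    rw [← two_mul, ← pow_succ']; congr 1; omega
  set v : ℕ → ℕ := fun j => (2 ^ (w - 1) + 2 ^ s * y j).toNat with hv
  have hc : ∀ j, j < m → (v j : ℤ) = 2 ^ (w - 1) + 2 ^ s * y j := fun j hj =>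
    Int.toNat_of_nonneg (by linarith [(h.2 j hj).1])
  have hlt : ∀ j, j < m → v j < 2 ^ w := fun j hj => by
    have : (v j : ℤ) < 2 ^ w := by rw [hc j hj]; linarith [(h.2 j hj).2]
    exact_mod_cast this
  have hx : x = ∑ j ∈ Finset.range m, 2 ^ (w * j) * v j + 2 ^ (w * m) * 0 := by
    have : (x : ℤ) = ((∑ j ∈ Finset.range m, 2 ^ (w * j) * v j + 2 ^ (w * m) * 0 : ℕ) : ℤ) := by
      rw [h.1]
      push_cast
      rw [mul_zero, add_zero]
      exact Finset.sum_congr rfl fun j hj => by rw [hc j (Finset.mem_range.1 hj)]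
    exact_mod_cast this
  have h4 := digit_eq w m v 0 hlt hi
  rw [← hx] at h4
  have h5 : x / 2 ^ (w * i + s) % 2 ^ (w - s) = v i / 2 ^ s := by
    rw [← h4, pow_add, ← Nat.div_div_eq_div_mul, ← Nat.mod_mul_right_div_self, ← pow_add,
      show s + (w - s) = w by omega]
  rw [h5]
  push_cast
  rw [hc i hi, h1, ← mul_add, Int.mul_ediv_cancel_left _ (by positivity)]

theorem bits_list_cast (g : ℕ → ℕ) (B : ℤ) (c : ℕ → ℤ) (m : ℕ) (y : ℕ → ℕ → ℤ) (l : List ℕ)
    (h : ∀ q ∈ l, (g q : ℤ) = B + ∑ i ∈ Finset.range m, c i * y q i) :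
    (((l.map g).sum : ℕ) : ℤ) =
      l.length * B + ∑ i ∈ Finset.range m, c i * (l.map fun q => y q i).sum := by
  induction l with
  | nil => simp
  | cons q l ih =>
    simp only [List.map_cons, List.sum_cons, List.length_cons, Nat.cast_add, Nat.cast_one, mul_add,
      Finset.sum_add_distrib]
    rw [ih fun q hq => h q (List.mem_cons_of_mem _ hq), h q List.mem_cons_self]
    ring

theorem bits_group_cast (g : ℕ → ℕ) (B : ℤ) (c : ℕ → ℤ) (m : ℕ) (y : ℕ → ℕ → ℤ) (gs : Gs)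
    (h : ∀ q ∈ codes gs, (g q : ℤ) = B + ∑ i ∈ Finset.range m, c i * y q i) :
    (((gs.map fun p => p.1 * (p.2.map g).sum).sum : ℕ) : ℤ) =
      (wt gs : ℤ) * B + ∑ i ∈ Finset.range m, c i * gsum (fun q => y q i) gs := by
  rw [wt_eq]
  unfold gsum
  induction gs with
  | nil => simp
  | cons p gs ih =>
    have h1 : ∀ q ∈ p.2, (g q : ℤ) = B + ∑ i ∈ Finset.range m, c i * y q i := fun q hq =>
      h q (by simp [codes, hq])
    have h2 : ∀ q ∈ codes gs, (g q : ℤ) = B + ∑ i ∈ Finset.range m, c i * y q i := fun q hq =>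
      h q (by
        simp only [codes, List.flatMap_cons, List.mem_append] at hq ⊢
        exact Or.inr hq)
    simp only [List.map_cons, List.sum_cons, Nat.cast_add, Nat.cast_mul, mul_add,
      Finset.sum_add_distrib]
    rw [ih h2, bits_list_cast g B c m y p.2 h1, mul_add, Finset.mul_sum,
      Finset.sum_congr rfl fun i _ => mul_left_comm (p.1 : ℤ) (c i) _]
    ring

theorem bits_shift_up (w m : ℕ) (hm : 1 ≤ m) (t : ℤ) :
    ∑ i ∈ Finset.range m, 2 ^ (w * i) * (2 ^ w * t) =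
      ∑ i ∈ Finset.range m, 2 ^ (w * i) * (if i = 0 then 0 else t) + 2 ^ (w * m) * t := by
  induction m, hm using Nat.le_induction with
  | base => simp
  | succ m hm ih =>
    rw [Finset.sum_range_succ, Finset.sum_range_succ, ih, if_neg (by omega)]
    ring

/-- Over `ℤ`, with `B' = ∑ 2^(w i) 2^(w-1-s)`: `P - Q = ∑_{i<m} 2^(w i) (2^(w-1) + pre i) + 2^(w m) t`
when `m ≥ 1` (the weights cancel the biases; `2^(s+1) t B' = ∑ 2^(w (i+1)) t` moves `t` one slot up).
All slots lie in `[0, 2^w)`, so the truncated subtraction is exact and `land_mask` applies;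
`(2^(w-1) + v) / 2^s = 2^(w-1-s) + v / 2^s`. -/
theorem leaf_packed (M : Mat) {ok : ℕ → Bool} {t : ℕ} (hM : Closed M ok t) {w m : ℕ}
    (hs : M.s + 1 ≤ w) (hm : 1 ≤ m) (x o : T M.n) (y yo : ℕ → ℕ → ℤ)
    (hx : ∀ q, ok q = true → Packed w M.s m (get M.n x q) (y q))
    (ho : ∀ q, ok q = true → Packed w M.s m (get M.n o q) (yo q)) {c : ℕ} (hc : ok c = true)
    (hv : ∀ i, i < m → -2 ^ (w - 1) ≤ pre M t y yo c i ∧ pre M t y yo c i < 2 ^ (w - 1)) :
    Packed w M.s m (leaf M (rep w (2 ^ (w - 1 - M.s)) m) (rep w (2 ^ w - 2 ^ M.s) m) x o c)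
      (fun i => pre M t y yo c i / 2 ^ M.s) := by
  have h1 : (2 : ℤ) ^ (w - 1) = 2 ^ M.s * 2 ^ (w - 1 - M.s) := by
    rw [← pow_add]; congr 1; omega
  have h3 : (2 : ℤ) ^ w = 2 ^ (w - 1) + 2 ^ (w - 1) := by
    rw [← two_mul, ← pow_succ']; congr 1; omega
  set B' := rep w (2 ^ (w - 1 - M.s)) m with hB'
  have hB : (B' : ℤ) = ∑ i ∈ Finset.range m, 2 ^ (w * i) * 2 ^ (w - 1 - M.s) := by
    rw [hB', rep_eq]; push_cast; rfl
  set g : ℕ → ℕ := fun q => Nat.shiftRight (get M.n x q) M.s with hg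
  have hgq : ∀ q, ok q = true →
      (g q : ℤ) = B' + ∑ i ∈ Finset.range m, 2 ^ (w * i) * y q i := by
    intro q hq
    rw [hg]
    simp only
    rw [(hx q hq).shift hs, hB, ← Finset.sum_add_distrib]
    exact Finset.sum_congr rfl fun i _ => mul_add _ _ _
  set v : ℕ → ℕ := fun j => (2 ^ (w - 1) + pre M t y yo c j).toNat with hvdef
  have hc' : ∀ j, j < m → (v j : ℤ) = 2 ^ (w - 1) + pre M t y yo c j := fun j hj =>
    Int.toNat_of_nonneg (by linarith [(hv j hj).1])
  have hlt : ∀ j, j < m → v j < 2 ^ w := fun j hj => by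
    have : (v j : ℤ) < 2 ^ w := by rw [hc' j hj]; linarith [(hv j hj).2]
    exact_mod_cast this
  set old : ℕ := Bool.rec (motive := fun _ => ℕ) 0 (get M.n o c) M.old with hold
  have hleaf : leaf M B' (rep w (2 ^ w - 2 ^ M.s) m) x o c =
      Nat.land (evalG g (M.row c).1 ((M.base + wt (M.row c).2 - wt (M.row c).1) * B') -
        evalG g (M.row c).2 old) (rep w (2 ^ w - 2 ^ M.s) m) := by
    unfold leaf
    generalize M.row c = r
    obtain ⟨a, b⟩ := r
    rfl
  have hO : (old : ℤ) = (if M.old = true then 2 ^ M.s else 0) * B' +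
      ∑ i ∈ Finset.range m, 2 ^ (w * i) * (if M.old = true then 2 ^ M.s * yo c i else 0) := by
    rw [hold]
    cases M.old with
    | false => simp
    | true =>
      simp only [if_true]
      rw [(ho c hc).1, hB, Finset.mul_sum, ← Finset.sum_add_distrib]
      refine Finset.sum_congr rfl fun i _ => ?_
      rw [h1]; ring
  have hP := bits_group_cast g B' (fun i => 2 ^ (w * i)) m y (M.row c).1 fun q hq =>
    hgq q (hM.closed c hc q (List.mem_append_left _ hq))
  have hQ := bits_group_cast g B' (fun i => 2 ^ (w * i)) m y (M.row c).2 fun q hq =>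
    hgq q (hM.closed c hc q (List.mem_append_right _ hq))
  have hbase : (M.base : ℤ) =
      2 ^ (M.s + 1) * t + 2 ^ M.s + (if M.old = true then 2 ^ M.s else 0) := by
    rw [hM.base]; push_cast; rfl
  have hB1 : (2 : ℤ) ^ M.s * B' = ∑ i ∈ Finset.range m, 2 ^ (w * i) * 2 ^ (w - 1) := by
    rw [hB, Finset.mul_sum]
    refine Finset.sum_congr rfl fun i _ => ?_
    rw [h1]; ring
  have hB2 : (2 : ℤ) ^ (M.s + 1) * t * B' =
      ∑ i ∈ Finset.range m, 2 ^ (w * i) * (if i = 0 then 0 else (t : ℤ)) + 2 ^ (w * m) * t := by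
    rw [← bits_shift_up w m hm, hB, Finset.mul_sum]
    refine Finset.sum_congr rfl fun i _ => ?_
    rw [h3, h1]; ring
  have hPQ : evalG g (M.row c).1 ((M.base + wt (M.row c).2 - wt (M.row c).1) * B') =
      (∑ j ∈ Finset.range m, 2 ^ (w * j) * v j + 2 ^ (w * m) * t) + evalG g (M.row c).2 old := by
    have hV : ((∑ j ∈ Finset.range m, 2 ^ (w * j) * v j : ℕ) : ℤ) =
        ∑ j ∈ Finset.range m, 2 ^ (w * j) * 2 ^ (w - 1) +
        ∑ j ∈ Finset.range m, 2 ^ (w * j) * gsum (fun q => y q j) (M.row c).1 -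
        ∑ j ∈ Finset.range m, 2 ^ (w * j) * gsum (fun q => y q j) (M.row c).2 -
        ∑ j ∈ Finset.range m, 2 ^ (w * j) * (if M.old = true then 2 ^ M.s * yo c j else 0) +
        ∑ j ∈ Finset.range m, 2 ^ (w * j) * (if j = 0 then 0 else (t : ℤ)) := by
      push_cast
      rw [← Finset.sum_add_distrib, ← Finset.sum_sub_distrib, ← Finset.sum_sub_distrib,
        ← Finset.sum_add_distrib]
      refine Finset.sum_congr rfl fun j hj => ?_
      rw [hc' j (Finset.mem_range.1 hj)]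
      unfold pre
      ring
    apply Int.natCast_inj.1
    rw [evalG_eq, evalG_eq, Nat.cast_add, Nat.cast_add, Nat.cast_add, Nat.cast_add, hP, hQ, hV, hO,
      Nat.cast_mul, Nat.cast_sub (hM.wt_le c hc), Nat.cast_add, hbase]
    push_cast
    linear_combination hB1 + hB2
  constructor
  · rw [hleaf, hPQ, Nat.add_sub_cancel, land_mask w M.s m (by omega) v t hlt]
    push_cast
    refine Finset.sum_congr rfl fun j hj => ?_
    rw [hc' j (Finset.mem_range.1 hj), h1, add_comm (2 ^ M.s * 2 ^ (w - 1 - M.s)),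
      Int.add_mul_ediv_left _ _ (by positivity)]
    ring
  · intro i hi
    have h2 : (0 : ℤ) < 2 ^ M.s := by positivity
    constructor
    · have : -2 ^ (w - 1 - M.s) ≤ pre M t y yo c i / 2 ^ M.s :=
        Int.le_ediv_of_mul_le h2 (by linarith [(hv i hi).1])
      have := mul_le_mul_of_nonneg_left this h2.le
      linarith
    · have := Int.mul_ediv_self_le (x := pre M t y yo c i) h2.ne'
      linarith [(hv i hi).2]

end Crest.Agent.R347.Eng
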