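import Crest.Agent.R347.EngRun

/-!
# Row 347: rounding errors of the Chebyshev recurrence   (task R347/EngCheb)

You may use `EngTree`, `EngRun` (other tasks).
-/

set_option autoImplicit false

namespace Crest.Agent.R347

open Matrix

variable {ι : Type} [Fintype ι] [DecidableEq ι]

/-- the Euclidean norm -/
noncomputable def chebNN (x : ι → ℂ) : ℝ := ‖(WithLp.toLp 2 x : EuclideanSpace ℂ ι)‖

/-- the real inner product -/
noncomputable def chebIp (x y : ι → ℂ) : ℝ := (star x ⬝ᵥ y).re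

omit [DecidableEq ι] in
theorem cheb_nn_nonneg (x : ι → ℂ) : 0 ≤ chebNN x := norm_nonneg _

omit [DecidableEq ι] in
theorem cheb_nn_sq (x : ι → ℂ) : chebNN x ^ 2 = ∑ p, ‖x p‖ ^ 2 := EuclideanSpace.norm_sq_eq _

omit [DecidableEq ι] in
theorem cheb_nn_add (x y : ι → ℂ) : chebNN (x + y) ≤ chebNN x + chebNN y := by
  unfold chebNN
  rw [WithLp.toLp_add]
  exact norm_add_le _ _

omit [DecidableEq ι] in
theorem cheb_apply_le (x : ι → ℂ) (p : ι) : ‖x p‖ ≤ chebNN x :=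
  PiLp.norm_apply_le (WithLp.toLp 2 x : EuclideanSpace ℂ ι) p

omit [DecidableEq ι] in
theorem cheb_nn_le {d : ℕ} (hd : Fintype.card ι ≤ d ^ 2) {x : ι → ℂ} {B : ℝ} (hB : 0 ≤ B)
    (h : ∀ p, ‖x p‖ ≤ B) : chebNN x ≤ B * d := by
  refine le_of_pow_le_pow_left₀ two_ne_zero (by positivity) ?_
  rw [cheb_nn_sq]
  have hd' : (Fintype.card ι : ℝ) ≤ (d : ℝ) ^ 2 := by exact_mod_cast hd
  calc ∑ p, ‖x p‖ ^ 2 ≤ ∑ _p : ι, B ^ 2 :=
        Finset.sum_le_sum fun p _ => pow_le_pow_left₀ (norm_nonneg _) (h p) 2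
    _ = Fintype.card ι * B ^ 2 := by simp
    _ ≤ (d : ℝ) ^ 2 * B ^ 2 := by gcongr
    _ = _ := by ring

omit [DecidableEq ι] in
theorem cheb_ip_self (x : ι → ℂ) : chebIp x x = chebNN x ^ 2 := by
  rw [cheb_nn_sq, chebIp, dotProduct, Complex.re_sum]
  refine Finset.sum_congr rfl fun p _ => ?_
  simp [Complex.sq_norm, Complex.normSq_apply]

omit [DecidableEq ι] in
theorem cheb_ip_comm (x y : ι → ℂ) : chebIp x y = chebIp y x := by
  simp only [chebIp, dotProduct, Complex.re_sum]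
  refine Finset.sum_congr rfl fun p _ => ?_
  simp [mul_comm]

omit [DecidableEq ι] in
theorem cheb_ip_herm {A : Matrix ι ι ℂ} (hA : A.IsHermitian) (x y : ι → ℂ) :
    chebIp x (A *ᵥ y) = chebIp y (A *ᵥ x) := by
  rw [cheb_ip_comm y, chebIp, chebIp, star_mulVec, hA.eq, dotProduct_mulVec]

omit [DecidableEq ι] in
theorem cheb_ip_add (x y z : ι → ℂ) : chebIp x (y + z) = chebIp x y + chebIp x z := by
  simp [chebIp]

omit [DecidableEq ι] in
theorem cheb_ip_sub (x y z : ι → ℂ) : chebIp x (y - z) = chebIp x y - chebIp x z := by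
  simp [chebIp]

omit [DecidableEq ι] in
theorem cheb_ip_add' (x y z : ι → ℂ) : chebIp (x + y) z = chebIp x z + chebIp y z := by
  simp [chebIp]

omit [DecidableEq ι] in
theorem cheb_ip_sub' (x y z : ι → ℂ) : chebIp (x - y) z = chebIp x z - chebIp y z := by
  simp [chebIp]

omit [DecidableEq ι] in
theorem cheb_ip_smul (a b : ℝ) (x y : ι → ℂ) :
    chebIp ((a : ℂ) • x) ((b : ℂ) • y) = a * b * chebIp x y := by
  simp only [chebIp, star_smul, smul_dotProduct, dotProduct_smul, Complex.star_def,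
    Complex.conj_ofReal, smul_eq_mul, Complex.re_ofReal_mul]
  ring

omit [DecidableEq ι] in
theorem cheb_ip_le {A : Matrix ι ι ℂ} (hA : A.IsHermitian) (h : Spec A (-2) 2) (x y : ι → ℂ) :
    chebIp x (A *ᵥ y) ≤ 2 * (chebNN x * chebNN y) := by
  have key : ∀ x y : ι → ℂ, chebIp x (A *ᵥ y) ≤ chebIp x x + chebIp y y := by
    intro x y
    have h1 : chebIp (x + y) (A *ᵥ (x + y)) ≤ 2 * chebIp (x + y) (x + y) := (h (x + y)).2
    have h2 : -2 * chebIp (x - y) (x - y) ≤ chebIp (x - y) (A *ᵥ (x - y)) := (h (x - y)).1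
    simp only [mulVec_add, mulVec_sub, cheb_ip_add, cheb_ip_sub, cheb_ip_add', cheb_ip_sub'] at h1 h2
    linarith [cheb_ip_herm hA x y]
  have hz : ∀ x : ι → ℂ, chebNN x = 0 → x = 0 := fun x hx => funext fun p =>
    norm_le_zero_iff.1 ((cheb_apply_le x p).trans hx.le)
  rcases (cheb_nn_nonneg x).eq_or_lt with hx | hx
  · rw [← hx, hz x hx.symm]; simp [chebIp]
  rcases (cheb_nn_nonneg y).eq_or_lt with hy | hy
  · rw [← hy, hz y hy.symm]; simp [chebIp]
  have h1 := key ((chebNN y : ℂ) • x) ((chebNN x : ℂ) • y)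
  rw [mulVec_smul, cheb_ip_smul, cheb_ip_smul, cheb_ip_smul, cheb_ip_self, cheb_ip_self] at h1
  refine le_of_mul_le_mul_left (h1.trans_eq (by ring)) (mul_pos hy hx)

theorem cheb_succ (A : Matrix ι ι ℂ) (k : ℕ) (v : ι → ℂ) :
    chU A (k + 2) *ᵥ v = A *ᵥ (chU A (k + 1) *ᵥ v) - chU A k *ᵥ v := by
  rw [chU, sub_mulVec, mulVec_mulVec]

theorem cheb_inv {A : Matrix ι ι ℂ} (hA : A.IsHermitian) (v : ι → ℂ) (k : ℕ) :
    chebIp (chU A (k + 1) *ᵥ v) (chU A (k + 1) *ᵥ v) + chebIp (chU A k *ᵥ v) (chU A k *ᵥ v) -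
      chebIp (chU A (k + 1) *ᵥ v) (A *ᵥ (chU A k *ᵥ v)) = chebIp v v := by
  induction k with
  | zero => simp [chU]
  | succ k ih =>
    rw [← ih, cheb_succ]
    generalize chU A (k + 1) *ᵥ v = x
    generalize chU A k *ᵥ v = y
    simp only [cheb_ip_sub, cheb_ip_sub']
    linarith [cheb_ip_herm hA x y, cheb_ip_comm (A *ᵥ x) y]

theorem cheb_nn_chU {A : Matrix ι ι ℂ} (hA : A.IsHermitian) (h : Spec A (-2) 2) (k : ℕ)
    (v : ι → ℂ) : chebNN (chU A k *ᵥ v) ≤ ((k : ℝ) + 1) * chebNN v := by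
  induction k with
  | zero => simp [chU]
  | succ k ih =>
    have h1 := cheb_inv hA v k
    have h2 := cheb_ip_le hA h (chU A (k + 1) *ᵥ v) (chU A k *ᵥ v)
    rw [cheb_ip_self, cheb_ip_self, cheb_ip_self] at h1
    have h3 : chebNN (chU A (k + 1) *ᵥ v) - chebNN (chU A k *ᵥ v) ≤ chebNN v :=
      le_of_pow_le_pow_left₀ two_ne_zero (cheb_nn_nonneg v) (by nlinarith)
    push_cast
    linarith

theorem cheb_nn_error {A : Matrix ι ι ℂ} (hA : A.IsHermitian) (h : Spec A (-2) 2) {d : ℕ}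
    (hd : Fintype.card ι ≤ d ^ 2) (k : ℕ) : ∀ (Y δ : ℕ → ι → ℂ), (∀ l p, ‖δ l p‖ ≤ 1) →
    Y 1 = A *ᵥ Y 0 + δ 0 → (∀ k, Y (k + 2) = A *ᵥ Y (k + 1) - Y k + δ (k + 1)) →
    chebNN (Y k - chU A k *ᵥ Y 0) ≤ d * ((k : ℝ) + 1) ^ 2 := by
  induction k with
  | zero =>
    intro Y δ _ _ _
    simp [chU, chebNN]
  | succ k ih =>
    intro Y δ hδ h1 h2
    have e0 : Y (0 + 1) - chU A (0 + 1) *ᵥ Y 0 = δ 0 := by
      simp [chU, h1]
    have a1 := ih (fun j => Y (j + 1) - chU A (j + 1) *ᵥ Y 0) (fun l => δ (l + 1))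
      (fun l p => hδ _ p) (by
        simp only [zero_add]
        rw [h2 0, cheb_succ A 0, mulVec_sub]
        simp only [zero_add, chU, one_mulVec]
        abel) (fun j => by
        rw [h2 (j + 1), cheb_succ A (j + 1), mulVec_sub]
        abel)
    simp only [e0] at a1
    have a2 := cheb_nn_chU hA h k (δ 0)
    have a3 := cheb_nn_le hd zero_le_one (hδ 0)
    have a4 := cheb_nn_add (Y (k + 1) - chU A (k + 1) *ᵥ Y 0 - chU A k *ᵥ δ 0) (chU A k *ᵥ δ 0)
    rw [sub_add_cancel] at a4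
    have hk : (0 : ℝ) ≤ k := Nat.cast_nonneg k
    have hd0 : (0 : ℝ) ≤ d := Nat.cast_nonneg d
    have a5 : ((k : ℝ) + 1) * chebNN (δ 0) ≤ ((k : ℝ) + 1) * (1 * d) := by gcongr
    push_cast
    nlinarith [mul_nonneg hk hd0]

/-- Spectral theorem: `chU A k = U diag (u_k (λ)) U†` with the scalar recurrence `u_{k+2} = λ u_{k+1} - u_k`,
and `|u_k (2 cos θ)| ≤ k + 1`, e.g. from `u_k (2 cos θ) = ∑_{j ≤ k} exp (i (k - 2j) θ)`, or by induction
from `u_{k+1} = cos θ * u_k + cos ((k+1) θ)` (`Polynomial.Chebyshev.U_complex_cos` is not needed). -/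
theorem chU_normSq_le {A : Matrix ι ι ℂ} (hA : A.IsHermitian) (h : Spec A (-2) 2) (k : ℕ)
    (v : ι → ℂ) : ∑ p, ‖(chU A k *ᵥ v) p‖ ^ 2 ≤ ((k : ℝ) + 1) ^ 2 * ∑ p, ‖v p‖ ^ 2 := by
  rw [← cheb_nn_sq, ← cheb_nn_sq, ← mul_pow]
  exact pow_le_pow_left₀ (cheb_nn_nonneg _) (cheb_nn_chU hA h k v) 2

/-- Duhamel: if `Y 1 = A Y 0 + δ 0`, `Y (k+2) = A Y (k+1) - Y k + δ (k+1)` then
`Y k = chU k Y 0 + ∑_{l<k} chU (k-1-l) δ l`; each `δ l` has `ℓ²` norm `≤ d`. -/
theorem cheb_error {A : Matrix ι ι ℂ} (hA : A.IsHermitian) (h : Spec A (-2) 2) {d : ℕ}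
    (hd : Fintype.card ι ≤ d ^ 2) (Y δ : ℕ → ι → ℂ) (hδ : ∀ l p, ‖δ l p‖ ≤ 1)
    (h1 : Y 1 = A *ᵥ Y 0 + δ 0) (h2 : ∀ k, Y (k + 2) = A *ᵥ Y (k + 1) - Y k + δ (k + 1)) (k : ℕ)
    (p : ι) : ‖Y k p - (chU A k *ᵥ Y 0) p‖ ≤ d * ((k : ℝ) + 1) ^ 2 := by
  exact (cheb_apply_le (Y k - chU A k *ᵥ Y 0) p).trans (cheb_nn_error hA h hd k Y δ hδ h1 h2)

namespace Eng

theorem cheb_gsum {y : ℕ → ℤ} {y' : ℕ → ℂ} (gs : Gs) (h : ∀ q ∈ codes gs, (y q : ℂ) = y' q) :
    ((gsum y gs : ℤ) : ℂ) = gsum y' gs := by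
  simp only [gsum, Int.cast_list_sum, List.map_map]
  congr 1
  refine List.map_congr_left fun p hp => ?_
  simp only [Function.comp, Int.cast_mul, Int.cast_natCast, Int.cast_list_sum, List.map_map]
  congr 2
  exact List.map_congr_left fun q hq => h q (List.mem_flatMap.2 ⟨p, hp, hq⟩)

theorem cheb_round {s : ℕ} (τ : ℤ) (h0 : 0 ≤ τ) (h1 : τ ≤ 2 ^ s) (G yo : ℤ) (z : ℂ)
    (hz : (G : ℂ) = 2 ^ s * z) :
    ‖(((G - 2 ^ s * yo + τ) / 2 ^ s : ℤ) : ℂ) - (z - yo)‖ ≤ 1 := by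
  have hp : (0 : ℤ) < 2 ^ s := by positivity
  have a1 := Int.emod_add_mul_ediv (G - 2 ^ s * yo + τ) (2 ^ s)
  have a2 := Int.emod_nonneg (G - 2 ^ s * yo + τ) hp.ne'
  have a3 := Int.emod_lt_of_pos (G - 2 ^ s * yo + τ) hp
  generalize (G - 2 ^ s * yo + τ) % 2 ^ s = r at a1 a2 a3
  generalize (G - 2 ^ s * yo + τ) / 2 ^ s = q at a1 ⊢
  have e : (2 : ℂ) ^ s * ((q : ℂ) - (z - yo)) = ((τ - r : ℤ) : ℂ) := by
    have := congrArg (Int.cast : ℤ → ℂ) a1
    push_cast at this ⊢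
    linear_combination this + hz
  have e2 := congrArg norm e
  rw [norm_mul, norm_pow, Complex.norm_ofNat, Complex.norm_intCast] at e2
  have e3 : |((τ - r : ℤ) : ℝ)| ≤ 2 ^ s := by
    have : |τ - r| ≤ 2 ^ s := abs_le.2 ⟨by linarith, by linarith⟩
    exact_mod_cast this
  refine le_of_mul_le_mul_left ?_ (by positivity : (0 : ℝ) < 2 ^ s)
  rw [e2, mul_one]
  exact e3

/-- Recipe.  Fix a slot `i < m`, put `Y k p = iter k c i` if `p = dec c` with `ok c`, and `0` otherwise.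
`R.row` (with `closed`, `inj`) and `hblock` give the recurrence with `‖δ‖ ≤ 1` (floor division,
`0 ≤ t ≤ 2^s`).  `Y 0` is `2^F` times a unit vector for `i ≥ 1` and has entries `< 2^58` for `i = 0`, so
`‖Y k p‖ ≤ (k+1)(2^F + 2^58 d) + d (k+1)^2`; this is the hypothesis `hb` of `run_sound`. -/
theorem cheb_sound {M : Mat} {J : Job} {ok : ℕ → Bool} {t : ℕ} {dec : ℕ → ι} {A : Matrix ι ι ℂ}
    (R : Rep M ok t dec A)
    (hblock : ∀ p, (∀ c, ok c = true → dec c ≠ p) → ∀ c, ok c = true → A p (dec c) = 0)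
    (hA : A.IsHermitian) (hS : Spec A (-2) 2) (hold : M.old = true) {d : ℕ}
    (hd : Fintype.card ι ≤ d ^ 2) (hwf : J.wf ok = true)
    (hsz : M.s + 1 ≤ J.w ∧ 2 ^ M.s * ((J.e.length + 1) * (2 ^ J.F + 2 ^ 58 * d) +
      d * (J.e.length + 1) ^ 2 + 1) ≤ 2 ^ (J.w - 1))
    (h : check M J = true) (k : ℕ) (hk : k < J.e.length) :
    ‖(J.val1 M.s k : ℂ) - 2 ^ J.F * J.tr dec J.l1 (chU A k)‖ ≤ wsum J.l1 * (d * ((k : ℝ) + 1) ^ 2) ∧
    ‖(J.val2 M.s k : ℂ) - 2 ^ J.F * J.tr dec J.l2 (chU A k)‖ ≤ wsum J.l2 * (d * ((k : ℝ) + 1) ^ 2) := by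
  classical
  obtain ⟨hs, hsz⟩ := hsz
  have hwf' := hwf
  simp only [Job.wf, Bool.and_eq_true, decide_eq_true_eq, List.all_eq_true, beq_iff_eq] at hwf'
  obtain ⟨⟨⟨⟨-, hl0⟩, hok0⟩, hok1⟩, hok2⟩ := hwf'
  have hsrc : ∀ i, 1 ≤ i → i < J.m → ok (J.src i) = true := by
    intro i hi him
    have hlen : J.l0.length = J.m - 1 := by simpa using congrArg List.length hl0
    have hlt : i - 1 < J.l0.length := by omega
    rw [Job.src, List.getD_eq_getElem _ _ hlt]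
    exact (hok0 _ (List.getElem_mem hlt)).1.1
  let Y : ℕ → ℕ → ι → ℂ := fun i k p =>
    if h : ∃ c, ok c = true ∧ dec c = p then ((iter M t J k).1 h.choose i : ℂ) else 0
  have hY : ∀ i k c, ok c = true → Y i k (dec c) = ((iter M t J k).1 c i : ℂ) := by
    intro i k c hc
    have hex : ∃ c', ok c' = true ∧ dec c' = dec c := ⟨c, hc, rfl⟩
    simp only [Y, dif_pos hex]
    rw [R.inj _ _ hex.choose_spec.1 hc hex.choose_spec.2]
  have hY0 : ∀ i k p, (¬ ∃ c, ok c = true ∧ dec c = p) → Y i k p = 0 := fun i k p hp => by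
    simp only [Y, dif_neg hp]
  have hAY : ∀ i k p, (¬ ∃ c, ok c = true ∧ dec c = p) → (A *ᵥ Y i k) p = 0 := by
    intro i k p hp
    refine Finset.sum_eq_zero fun q _ => ?_
    by_cases hq : ∃ c, ok c = true ∧ dec c = q
    · obtain ⟨c, hc, rfl⟩ := hq
      simp only [hblock p (fun c hc e => hp ⟨c, hc, e⟩) c hc, zero_mul]
    · simp only [hY0 i k q hq, mul_zero]
  have hstep : ∀ i k c, ok c = true → ‖((iter M t J (k + 1)).1 c i : ℂ) -
      ((A *ᵥ Y i k) (dec c) - ((iter M t J k).2 c i : ℂ))‖ ≤ 1 := by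
    intro i k c hc
    have hcl := R.closed c hc
    have h1 := R.row c hc (Y i k)
    rw [← cheb_gsum (y := fun q => (iter M t J k).1 q i) _
        (fun q hq => (hY i k q (hcl q (List.mem_append_left _ hq))).symm),
      ← cheb_gsum (y := fun q => (iter M t J k).1 q i) _
        (fun q hq => (hY i k q (hcl q (List.mem_append_right _ hq))).symm)] at h1
    have h2 := cheb_round (s := M.s) (if i = 0 then 0 else (t : ℤ))
      (by split_ifs <;> positivity) (by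
        split_ifs
        · positivity
        · exact_mod_cast R.t_le)
      (gsum (fun q => (iter M t J k).1 q i) (M.row c).1 -
        gsum (fun q => (iter M t J k).1 q i) (M.row c).2) ((iter M t J k).2 c i)
      ((A *ᵥ Y i k) (dec c)) (by push_cast; exact h1)
    simpa only [iter, pre, hold, if_true] using h2
  have herr : ∀ i k p, ‖Y i k p - (chU A k *ᵥ Y i 0) p‖ ≤ d * ((k : ℝ) + 1) ^ 2 := by
    intro i k p
    refine cheb_error hA hS hd (Y i) (fun l => match l with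
      | 0 => Y i 1 - A *ᵥ Y i 0
      | l + 1 => Y i (l + 2) - (A *ᵥ Y i (l + 1) - Y i l)) (fun l p => ?_) (by simp)
      (fun k => by simp) k p
    by_cases hp : ∃ c, ok c = true ∧ dec c = p
    · obtain ⟨c, hc, rfl⟩ := hp
      cases l with
      | zero => simpa [hY i _ c hc, iter] using hstep i 0 c hc
      | succ l =>
        have := hstep i (l + 1) c hc
        simp only [Pi.sub_apply, hY i _ c hc]
        exact this
    · cases l <;> simp [hY0 i _ p hp, hAY i _ p hp]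
  have hinit : ∀ i, 1 ≤ i → i < J.m → Y i 0 = (2 : ℂ) ^ J.F • Pi.single (dec (J.src i)) 1 := by
    intro i hi him
    funext p
    by_cases hp : ∃ c, ok c = true ∧ dec c = p
    · obtain ⟨c, hc, rfl⟩ := hp
      rw [hY i 0 c hc]
      simp only [iter, Job.y0, if_neg (show i ≠ 0 by omega), Pi.smul_apply, Pi.single_apply]
      by_cases e : c = J.src i
      · simp [e]
      · have : dec c ≠ dec (J.src i) := fun e' => e (R.inj _ _ hc (hsrc i hi him) e')
        simp [e, this]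
    · have : p ≠ dec (J.src i) := fun e => hp ⟨_, hsrc i hi him, e.symm⟩
      simp [hY0 i 0 p hp, this]
  have hnn : ∀ i, i < J.m → chebNN (Y i 0) ≤ 2 ^ J.F + 2 ^ 58 * d := by
    intro i him
    rcases Nat.eq_zero_or_pos i with rfl | hi
    · refine (cheb_nn_le hd (B := 2 ^ 58) (by positivity) fun p => ?_).trans
        (le_add_of_nonneg_left (by positivity))
      by_cases hp : ∃ c, ok c = true ∧ dec c = p
      · obtain ⟨c, hc, rfl⟩ := hp
        rw [hY 0 0 c hc]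
        simp only [iter, Job.y0, if_true, Int.cast_natCast, Complex.norm_natCast]
        exact_mod_cast (rnd_lt c).le
      · rw [hY0 0 0 p hp, norm_zero]; positivity
    · refine le_trans (le_of_eq ?_) (le_add_of_nonneg_right (by positivity))
      rw [hinit i hi him, chebNN, WithLp.toLp_smul, norm_smul]
      simp
  have hb : ∀ k, k ≤ J.e.length → ∀ c, ok c = true → ∀ i, i < J.m →
      2 ^ M.s * |(iter M t J k).1 c i| + 2 ^ M.s ≤ 2 ^ (J.w - 1) := by
    intro k hk c hc i him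
    have h1 := herr i k (dec c)
    have h2 := (cheb_apply_le _ (dec c)).trans (cheb_nn_chU hA hS k (Y i 0))
    have h3 := norm_add_le (Y i k (dec c) - (chU A k *ᵥ Y i 0) (dec c)) ((chU A k *ᵥ Y i 0) (dec c))
    rw [sub_add_cancel, hY i k c hc, Complex.norm_intCast] at h3
    rw [hY i k c hc] at h1
    have hk' : (k : ℝ) ≤ J.e.length := by exact_mod_cast hk
    have h4 : |((iter M t J k).1 c i : ℝ)| ≤ ((J.e.length : ℝ) + 1) * (2 ^ J.F + 2 ^ 58 * d) +
        d * ((J.e.length : ℝ) + 1) ^ 2 := by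
      have b1 : ((k : ℝ) + 1) * chebNN (Y i 0) ≤ ((J.e.length : ℝ) + 1) * (2 ^ J.F + 2 ^ 58 * d) :=
        mul_le_mul (by linarith) (hnn i him) (cheb_nn_nonneg _) (by positivity)
      have b2 : (d : ℝ) * ((k : ℝ) + 1) ^ 2 ≤ d * ((J.e.length : ℝ) + 1) ^ 2 := by gcongr
      linarith
    have h5 : (2 : ℝ) ^ M.s * (((J.e.length : ℝ) + 1) * (2 ^ J.F + 2 ^ 58 * d) +
        d * ((J.e.length : ℝ) + 1) ^ 2 + 1) ≤ 2 ^ (J.w - 1) := by exact_mod_cast hsz
    have h6 : (2 : ℝ) ^ M.s * |((iter M t J k).1 c i : ℝ)| + 2 ^ M.s ≤ 2 ^ (J.w - 1) := by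
      refine le_trans ?_ h5
      rw [mul_add _ _ (1 : ℝ), mul_one]
      gcongr
    exact_mod_cast h6
  obtain ⟨e1, e2⟩ := run_sound M J R.toClosed hwf hs hb h k hk
  have fin : ∀ l : List (ℕ × ℕ × ℕ), (∀ e ∈ l, (ok e.2.1 = true ∧ 1 ≤ e.2.2) ∧ e.2.2 < J.m) →
      ‖(((l.map fun e => (e.1 : ℤ) * (iter M t J k).1 e.2.1 e.2.2).sum : ℤ) : ℂ) -
        2 ^ J.F * J.tr dec l (chU A k)‖ ≤ wsum l * (d * ((k : ℝ) + 1) ^ 2) := by
    intro l hl
    induction l with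
    | nil => simp [Job.tr, wsum]
    | cons e l ih =>
      have a1 := ih fun e' he' => hl e' (List.mem_cons_of_mem _ he')
      obtain ⟨⟨b1, b2⟩, b3⟩ := hl e List.mem_cons_self
      have a2 := herr e.2.2 k (dec e.2.1)
      rw [hY _ k _ b1, hinit _ b2 b3, mulVec_smul, Pi.smul_apply, mulVec_single_one, smul_eq_mul,
        col_apply] at a2
      simp only [Job.tr, wsum, List.map_cons, List.sum_cons] at a1 ⊢
      push_cast at a1 ⊢
      rw [add_mul]
      refine le_trans (le_of_eq ?_) ((norm_add_le _ _).trans (add_le_add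
        ((norm_mul_le (e.1 : ℂ) _).trans (mul_le_mul_of_nonneg_left a2 (norm_nonneg _))) a1)
        |>.trans (le_of_eq ?_))
      · congr 1
        ring
      · rw [Complex.norm_natCast]
  rw [e1, e2]
  exact ⟨fin _ hok1, fin _ hok2⟩

end Eng

end Crest.Agent.R347
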