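import Crest.Agent.R347.Eng

/-!
# Row 347: a version of `mpsMat` whose rows the kernel evaluates quickly, and its term builders
-/

set_option autoImplicit false

namespace Crest.Agent.R347.Eng

/-- adjacency lists: entries `(b, magnitude, negative)` -/
abbrev Adj := List (Nat × Nat × Bool)

noncomputable section

/-- `force n k = k n`, after evaluating `n` -/
def force {α : Type} (n : Nat) (k : Nat → α) : α :=
  Nat.rec (motive := fun _ => α) (k 0) (fun m _ => k (Nat.succ m)) n

def nth (t : List Adj) : Nat → Adj :=
  List.rec (motive := fun _ => Nat → Adj) (fun _ => [])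
    (fun h _ ih n => Nat.rec (motive := fun _ => Adj) h (fun m _ => ih m) n) t

def xor' (a b : Bool) : Bool :=
  Bool.rec (motive := fun _ => Bool) b (Bool.rec (motive := fun _ => Bool) true false b) a

/-- pushes the entries `(± m * mag, base + b)` for `(b, mag, ±)` in `l` -/
def loopE (m : Nat) (sg : Bool) (base : Nat) (k : Gs → Gs → Gs × Gs) (l : Adj) : Gs → Gs → Gs × Gs :=
  List.rec (motive := fun _ => Gs → Gs → Gs × Gs) k
    (fun e _ ih pos neg => Prod.rec (motive := fun _ => Gs × Gs) (fun b r =>
      Prod.rec (motive := fun _ => Gs × Gs) (fun mag ng =>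
        force (Nat.mul m mag) fun km => force (Nat.add base b) fun q =>
          Bool.rec (motive := fun _ => Gs × Gs) (ih ((km, [q]) :: pos) neg) (ih pos ((km, [q]) :: neg))
            (xor' sg ng)) r) e) l

/-- the loop over the first tensor -/
def loopF (D q wm : Nat) (ws : Bool) (l2 : Adj) (k : Gs → Gs → Gs × Gs) (l : Adj) : Gs → Gs → Gs × Gs :=
  List.rec (motive := fun _ => Gs → Gs → Gs × Gs) k
    (fun e _ ih => Prod.rec (motive := fun _ => Gs → Gs → Gs × Gs) (fun b r =>
      Prod.rec (motive := fun _ => Gs → Gs → Gs × Gs) (fun mag ng =>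
        force (Nat.mul mag wm) fun m => force (Nat.mul (Nat.add (Nat.mul b 7) q) D) fun base =>
          Bool.rec (motive := fun _ => Gs → Gs → Gs × Gs) (loopE m false base ih l2)
            (loopE m true base ih l2) (xor' ws ng)) r) e) l

/-- the loop over the entries `(q, k', k, magnitude, negative)` of the operator -/
def loopW (AT : List Adj) (D a' a : Nat) (l : List (Nat × Nat × Nat × Nat × Bool)) : Gs → Gs → Gs × Gs :=
  List.rec (motive := fun _ => Gs → Gs → Gs × Gs) (fun pos neg => (pos, neg))
    (fun e _ ih => Prod.rec (motive := fun _ => Gs → Gs → Gs × Gs) (fun q r =>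
      Prod.rec (motive := fun _ => Gs → Gs → Gs × Gs) (fun k' r =>
        Prod.rec (motive := fun _ => Gs → Gs → Gs × Gs) (fun k r =>
          Prod.rec (motive := fun _ => Gs → Gs → Gs × Gs) (fun wm ws =>
            force (Nat.add (Nat.mul 3 a') k') fun i' => force (Nat.add (Nat.mul 3 a) k) fun i =>
              loopF D q wm ws (nth AT i) ih (nth AT i')) r) r) r) e) l

def nthW (t : List (List (Nat × Nat × Nat × Nat × Bool))) : Nat → List (Nat × Nat × Nat × Nat × Bool) :=
  List.rec (motive := fun _ => Nat → List (Nat × Nat × Nat × Nat × Bool)) (fun _ => [])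
    (fun h _ ih n => Nat.rec (motive := fun _ => List (Nat × Nat × Nat × Nat × Bool)) h (fun m _ => ih m) n) t

def fastRow (AT : List Adj) (WT : List (List (Nat × Nat × Nat × Nat × Bool))) (D c : Nat) : Gs × Gs :=
  force (Nat.div (Nat.div c D) 7) fun a' => force (Nat.mod c D) fun a =>
    force (Nat.mod (Nat.div c D) 7) fun p => loopW AT D a' a (nthW WT p) [] []

def mpsMatF (AT : List Adj) (WT : List (List (Nat × Nat × Nat × Nat × Bool))) (Q D dl n s t : Nat) : Mat where
  n := n
  emp := mpsEmp Q D dl
  row := fastRow AT WT D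
  s := s
  base := Nat.add (Nat.mul (Nat.pow 2 (Nat.succ s)) t) (Nat.pow 2 s)
  old := false

/-- all rows with code in `[lo, lo + k)` that are in use have total weight `≤ Λ` -/
def rowsLe (AT : List Adj) (WT : List (List (Nat × Nat × Nat × Nat × Bool))) (Q D dl Λ lo : Nat)
    (k : Nat) : Bool :=
  Nat.rec (motive := fun _ => Bool) true (fun i ih => force (Nat.add lo i) fun c => and'
    (Bool.rec (motive := fun _ => Bool) true
      (Prod.rec (motive := fun _ => Bool) (fun pos neg => Nat.ble (Nat.add (wt pos) (wt neg)) Λ)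
        (fastRow AT WT D c)) (mpsOk Q D dl c)) ih) k

end

/-- the adjacency table that belongs to `N`, `Q` (without zero entries) -/
def mkAT (N Q D : Nat) : List Adj :=
  (List.range (3 * D)).map fun i => ((adj N Q D (i % 3) (i / 3)).filter fun e => e.2 != 0).map fun e =>
    (e.1, e.2.natAbs, decide (e.2 < 0))

/-- the operator table (without zero entries) -/
def mkWT (f f' : Int) : List (List (Nat × Nat × Nat × Nat × Bool)) :=
  (List.range 7).map fun p => ((wl f f' p).filter fun w => w.2.2.2 != 0).map fun w =>
    (w.1, w.2.1, w.2.2.1, w.2.2.2.natAbs, decide (w.2.2.2 < 0))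

/-! ### term builders (the kernel checks their output) -/

def fastRowM (AT : List Adj) (WT : List (List (Nat × Nat × Nat × Nat × Bool))) (D c : Nat) : Gs × Gs :=
  (WT.getD (c / D % 7) []).foldl (fun acc (q, k', k, wm, ws) =>
    (AT.getD (3 * (c / D / 7) + k') []).foldl (fun acc (b', mag', ng') =>
      (AT.getD (3 * (c % D) + k) []).foldl (fun (pos, neg) (b, mag, ng) =>
        let e := (mag' * wm * mag, [(b' * 7 + q) * D + b])
        if xor (xor ws ng') ng then (pos, e :: neg) else (e :: pos, neg)) acc) acc) ([], [])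

/-- arguments `N Q / D (3 + f) (3 + f') dl n s t` -/
def mpsOfF (N Q : Nat) (a : Array Nat) : MMat :=
  let AT := mkAT N Q a[0]!
  let WT := mkWT ((a[1]! : Int) - 3) ((a[2]! : Int) - 3)
  { mpsOf N Q a with row := fastRowM AT WT a[0]! }

elab "mpsf_step " N:ident Q:ident " / " ns:num* : tactic => do
  closeWith (stepE (mpsOfF (← natOf N) (← natOf Q) (ns.map (·.getNat))))

/-- as `spin_states`; the states are only proposals, the kernel checks them -/
elab "mps_states " N:ident Q:ident " / " ns:num* " / " w:num F:num " / " cuts:num* " / " l0:num* : tactic => do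
  let M := mpsOfF (← natOf N) (← natOf Q) (ns.map (·.getNat))
  let r := statesE M w.getNat F.getNat (l0.map (·.getNat)) (cuts.map (·.getNat))
  let ty := Lean.mkApp (Lean.mkConst ``T) (lit M.n)
  let pty := Lean.mkApp2 (Lean.mkConst ``Prod [.zero, .zero]) ty ty
  closeWith (r.foldr (fun a l => Lean.mkApp3 (Lean.mkConst ``List.cons [.zero]) pty a l)
    (Lean.mkApp (Lean.mkConst ``List.nil [.zero]) pty))

end Crest.Agent.R347.Eng
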