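import Crest.Agent.R347.EngRun

/-!
# Row 347: rounding errors of plain powers   (task R347/EngPow)

You may use `EngTree`, `EngRun` (other tasks).

Recipe.  `λ = Λ / 2^s ≥ 1`.  For functions `y` on codes, `|gsum y pos - gsum y neg| ≤ Λ * max |y|` over the
`ok` codes.  By induction `|iter k c i| ≤ (2^F + 2^58 + k) λ^k` (this gives `hb` of `run_sound`; `λ^k ≤ λ^K`),
and for `i ≥ 1` the error `ε k c = iter k c i - 2^F (A^k) (dec c) (dec (src i))` satisfies
`‖ε k c‖ ≤ k λ^k`, because `2^s (A^(k+1)) (dec c) u = gsum (fun q => (A^k) (dec q) u) pos - gsum … neg`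
(`R.row` with `y = fun p => (A^k) p u`); `k = 0` uses `R.inj`.
-/

set_option autoImplicit false

namespace Crest.Agent.R347.Eng

open Matrix

variable {ι : Type} [Fintype ι] [DecidableEq ι]

theorem pow_gsum_cast (y : ℕ → ℤ) (gs : Gs) :
    ((gsum y gs : ℤ) : ℂ) = gsum (fun q => (y q : ℂ)) gs := by
  unfold gsum
  induction gs with
  | nil => simp
  | cons p gs ih =>
    simp only [List.map_cons, List.sum_cons, Int.cast_add, Int.cast_mul, Int.cast_natCast, ih,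
      Int.cast_list_sum, List.map_map, Function.comp_def]

theorem pow_gsum_sub (y z : ℕ → ℂ) (gs : Gs) :
    gsum (fun q => y q - z q) gs = gsum y gs - gsum z gs := by
  have h : ∀ l : List ℕ, (l.map fun q => y q - z q).sum = (l.map y).sum - (l.map z).sum := by
    intro l
    induction l with
    | nil => simp
    | cons a l ih => simp only [List.map_cons, List.sum_cons, ih]; ring
  unfold gsum
  induction gs with
  | nil => simp
  | cons p gs ih => simp only [List.map_cons, List.sum_cons, ih]; rw [h]; ring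

theorem pow_gsum_norm {y : ℕ → ℂ} {B : ℝ} (gs : Gs) (h : ∀ q ∈ codes gs, ‖y q‖ ≤ B) :
    ‖gsum y gs‖ ≤ wt gs * B := by
  have h1 : ∀ l : List ℕ, (∀ q ∈ l, ‖y q‖ ≤ B) → ‖(l.map y).sum‖ ≤ l.length * B := by
    intro l hl
    induction l with
    | nil => simp
    | cons a l ih =>
      simp only [List.map_cons, List.sum_cons, List.length_cons, Nat.cast_add, Nat.cast_one]
      have h2 := hl a List.mem_cons_self
      have h3 := ih fun q hq => hl q (List.mem_cons_of_mem _ hq)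
      linarith [norm_add_le (y a) (l.map y).sum]
  rw [wt_eq]
  unfold gsum
  induction gs with
  | nil => simp
  | cons p gs ih =>
    simp only [codes, List.flatMap_cons, List.mem_append] at h
    have h2 := h1 p.2 fun q hq => h q (Or.inl hq)
    have h3 := ih fun q hq => h q (Or.inr hq)
    simp only [List.map_cons, List.sum_cons, Nat.cast_add, Nat.cast_mul]
    refine (norm_add_le _ _).trans ?_
    rw [norm_mul, Complex.norm_natCast, add_mul, mul_assoc]
    gcongr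

theorem pow_round (s : ℕ) (G r : ℤ) (h0 : 0 ≤ r) (h1 : r ≤ 2 ^ s) :
    ‖(2 : ℂ) ^ s * (((G + r) / 2 ^ s : ℤ) : ℂ) - G‖ ≤ 2 ^ s := by
  have hp : (0 : ℤ) < 2 ^ s := by positivity
  have e1 := Int.mul_ediv_add_emod (G + r) (2 ^ s)
  have e2 := Int.emod_nonneg (G + r) hp.ne'
  have e3 := Int.emod_lt_of_pos (G + r) hp
  have e4 : |2 ^ s * ((G + r) / 2 ^ s) - G| ≤ 2 ^ s := abs_le.2 ⟨by linarith, by linarith⟩
  have e5 : (2 : ℂ) ^ s * (((G + r) / 2 ^ s : ℤ) : ℂ) - G =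
      ((2 ^ s * ((G + r) / 2 ^ s) - G : ℤ) : ℂ) := by
    rw [Int.cast_sub, Int.cast_mul, Int.cast_pow, Int.cast_ofNat]
  rw [e5, Complex.norm_intCast]
  exact_mod_cast e4

theorem pow_err {M : Mat} {J : Job} {ok : ℕ → Bool} {t : ℕ} (hM : Closed M ok t)
    (hold : M.old = false) {Λ : ℕ}
    (hΛ : ∀ c, ok c = true → wt (M.row c).1 + wt (M.row c).2 ≤ Λ) (h1 : 2 ^ M.s ≤ Λ) (i : ℕ)
    (Z : ℕ → ℕ → ℂ) (hZ : ∀ k c, ok c = true →
      2 ^ M.s * Z (k + 1) c = gsum (Z k) (M.row c).1 - gsum (Z k) (M.row c).2)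
    {b : ℝ} (hb : 0 ≤ b) (h0 : ∀ c, ok c = true → ‖(J.y0 c i : ℂ) - Z 0 c‖ ≤ b) (k : ℕ) :
    ∀ c, ok c = true →
      ‖((iter M t J k).1 c i : ℂ) - Z k c‖ ≤ (b + k) * ((Λ : ℝ) / 2 ^ M.s) ^ k := by
  have hp : (0 : ℝ) < 2 ^ M.s := by positivity
  have hl : (1 : ℝ) ≤ (Λ : ℝ) / 2 ^ M.s := by
    rw [one_le_div hp]
    exact_mod_cast h1
  induction k with
  | zero => simpa [iter] using h0
  | succ k ih =>
    intro c hc
    set B := (b + k) * ((Λ : ℝ) / 2 ^ M.s) ^ k with hB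
    have hB0 : 0 ≤ B := by positivity
    set y : ℕ → ℤ := fun q => (iter M t J k).1 q i with hy
    have e1 : (iter M t J (k + 1)).1 c i =
        (gsum y (M.row c).1 - gsum y (M.row c).2 + (if i = 0 then 0 else (t : ℤ))) / 2 ^ M.s := by
      simp only [iter, pre, hold, Bool.false_eq_true, if_false, sub_zero, hy]
    have e2 := pow_round M.s (gsum y (M.row c).1 - gsum y (M.row c).2)
      (if i = 0 then 0 else (t : ℤ)) (by split_ifs <;> positivity) (by
        split_ifs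
        · positivity
        · exact_mod_cast hM.t_le)
    rw [← e1, Int.cast_sub, pow_gsum_cast, pow_gsum_cast] at e2
    have e3 := pow_gsum_norm (y := fun q => (y q : ℂ) - Z k q) (B := B) (M.row c).1 fun q hq =>
      ih q (hM.closed c hc q (List.mem_append_left _ hq))
    have e4 := pow_gsum_norm (y := fun q => (y q : ℂ) - Z k q) (B := B) (M.row c).2 fun q hq =>
      ih q (hM.closed c hc q (List.mem_append_right _ hq))
    rw [pow_gsum_sub] at e3 e4
    have e5 : (2 : ℂ) ^ M.s * (((iter M t J (k + 1)).1 c i : ℂ) - Z (k + 1) c) =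
        (2 ^ M.s * ((iter M t J (k + 1)).1 c i : ℂ) -
          (gsum (fun q => (y q : ℂ)) (M.row c).1 - gsum (fun q => (y q : ℂ)) (M.row c).2)) +
        ((gsum (fun q => (y q : ℂ)) (M.row c).1 - gsum (Z k) (M.row c).1) -
          (gsum (fun q => (y q : ℂ)) (M.row c).2 - gsum (Z k) (M.row c).2)) := by
      rw [mul_sub, hZ k c hc]
      ring
    have e6 : (2 : ℝ) ^ M.s * ‖((iter M t J (k + 1)).1 c i : ℂ) - Z (k + 1) c‖ ≤
        2 ^ M.s + Λ * B := by
      have e7 : (wt (M.row c).1 : ℝ) + wt (M.row c).2 ≤ Λ := by exact_mod_cast hΛ c hc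
      have e8 := mul_le_mul_of_nonneg_right e7 hB0
      have e9 : ‖(2 : ℂ) ^ M.s * (((iter M t J (k + 1)).1 c i : ℂ) - Z (k + 1) c)‖ =
          (2 : ℝ) ^ M.s * ‖((iter M t J (k + 1)).1 c i : ℂ) - Z (k + 1) c‖ := by
        rw [norm_mul, norm_pow, Complex.norm_ofNat]
      rw [← e9, e5]
      refine (norm_add_le _ _).trans (add_le_add e2 ((norm_sub_le _ _).trans ?_))
      linarith
    have e10 : ‖((iter M t J (k + 1)).1 c i : ℂ) - Z (k + 1) c‖ ≤ 1 + Λ / 2 ^ M.s * B := by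
      refine le_of_mul_le_mul_left (e6.trans (le_of_eq ?_)) hp
      field_simp
    refine e10.trans ?_
    have e11 : (1 : ℝ) ≤ ((Λ : ℝ) / 2 ^ M.s) ^ (k + 1) := one_le_pow₀ hl
    rw [hB, Nat.cast_succ]
    calc _ = 1 + (b + k) * ((Λ : ℝ) / 2 ^ M.s) ^ (k + 1) := by ring
      _ ≤ _ := by linarith

theorem pow_ok_src {J : Job} {ok : ℕ → Bool} (hwf : J.wf ok = true) {i : ℕ} (h1 : 1 ≤ i)
    (h2 : i < J.m) : ok (J.src i) = true := by
  simp only [Job.wf, Bool.and_eq_true, List.all_eq_true, beq_iff_eq, decide_eq_true_eq] at hwf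
  obtain ⟨⟨⟨⟨-, h3⟩, h4⟩, -⟩, -⟩ := hwf
  have h5 : J.l0.length = J.m - 1 := by simpa using congrArg List.length h3
  have h6 : i - 1 < J.l0.length := by omega
  rw [Job.src, List.getD_eq_getElem _ _ h6]
  exact (h4 _ (List.getElem_mem h6)).1.1

theorem pow_list {y : ℕ × ℕ × ℕ → ℤ} {z : ℕ × ℕ × ℕ → ℂ} {a : ℂ} {B : ℝ} (l : List (ℕ × ℕ × ℕ))
    (h : ∀ e ∈ l, ‖(y e : ℂ) - a * z e‖ ≤ B) :
    ‖(((l.map fun e => (e.1 : ℤ) * y e).sum : ℤ) : ℂ) - a * (l.map fun e => (e.1 : ℂ) * z e).sum‖ ≤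
      wsum l * B := by
  unfold wsum
  induction l with
  | nil => simp
  | cons e l ih =>
    have h1 := h e List.mem_cons_self
    have h2 := ih fun q hq => h q (List.mem_cons_of_mem _ hq)
    simp only [List.map_cons, List.sum_cons, Int.cast_add, Int.cast_mul, Int.cast_natCast,
      Nat.cast_add]
    have e1 : ∀ u v : ℂ, (e.1 : ℂ) * y e + u - a * (e.1 * z e + v) =
        e.1 * (y e - a * z e) + (u - a * v) := fun u v => by ring
    rw [e1]
    refine (norm_add_le _ _).trans ?_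
    rw [norm_mul, Complex.norm_natCast, add_mul]
    gcongr

theorem pow_sound {M : Mat} {J : Job} {ok : ℕ → Bool} {t : ℕ} {dec : ℕ → ι} {A : Matrix ι ι ℂ}
    (R : Rep M ok t dec A) (hold : M.old = false) {Λ : ℕ}
    (hΛ : ∀ c, ok c = true → wt (M.row c).1 + wt (M.row c).2 ≤ Λ) (hwf : J.wf ok = true)
    (hsz : M.s + 1 ≤ J.w ∧ 2 ^ M.s ≤ Λ ∧
      2 ^ M.s * ((2 ^ J.F + 2 ^ 58 + J.e.length + 1) * Λ ^ J.e.length) ≤
        2 ^ (J.w - 1) * 2 ^ (M.s * J.e.length))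
    (h : check M J = true) (k : ℕ) (hk : k < J.e.length) :
    ‖(J.val1 M.s k : ℂ) - 2 ^ J.F * J.tr dec J.l1 (A ^ k)‖ ≤
      wsum J.l1 * (k * ((Λ : ℝ) / 2 ^ M.s) ^ k) ∧
    ‖(J.val2 M.s k : ℂ) - 2 ^ J.F * J.tr dec J.l2 (A ^ k)‖ ≤
      wsum J.l2 * (k * ((Λ : ℝ) / 2 ^ M.s) ^ k) := by
  obtain ⟨hs1, hs2, hs3⟩ := hsz
  have hp : (0 : ℝ) < 2 ^ M.s := by positivity
  have hl : (1 : ℝ) ≤ (Λ : ℝ) / 2 ^ M.s := by
    rw [one_le_div hp]
    exact_mod_cast hs2
  have hb : ∀ k, k ≤ J.e.length → ∀ c, ok c = true → ∀ i, i < J.m →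
      2 ^ M.s * |(iter M t J k).1 c i| + 2 ^ M.s ≤ 2 ^ (J.w - 1) := by
    intro k hk c hc i _
    have h1 := pow_err (J := J) R.toClosed hold hΛ hs2 i (fun _ _ => 0)
      (fun k c _ => by simp [gsum]) (b := 2 ^ J.F + 2 ^ 58) (by positivity) (fun c _ => by
        rw [sub_zero, Job.y0]
        have h2 : (0 : ℝ) < 2 ^ J.F := by positivity
        split_ifs
        · have h3 : (rnd c : ℝ) < 2 ^ 58 := by exact_mod_cast rnd_lt c
          rw [Int.cast_natCast, Complex.norm_natCast]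
          linarith
        · rw [Int.cast_pow, Int.cast_ofNat, norm_pow, Complex.norm_ofNat]
          exact le_add_of_nonneg_right (by positivity)
        · rw [Int.cast_zero, norm_zero]
          positivity) k c hc
    rw [sub_zero, Complex.norm_intCast] at h1
    have h2 : (k : ℝ) ≤ J.e.length := by exact_mod_cast hk
    have h3 : ((Λ : ℝ) / 2 ^ M.s) ^ k ≤ ((Λ : ℝ) / 2 ^ M.s) ^ J.e.length := pow_le_pow_right₀ hl hk
    have h4 : (1 : ℝ) ≤ ((Λ : ℝ) / 2 ^ M.s) ^ J.e.length := one_le_pow₀ hl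
    have h5 : |((iter M t J k).1 c i : ℝ)| + 1 ≤
        (2 ^ J.F + 2 ^ 58 + J.e.length + 1) * ((Λ : ℝ) / 2 ^ M.s) ^ J.e.length := by
      have : ((2 : ℝ) ^ J.F + 2 ^ 58 + k) * ((Λ : ℝ) / 2 ^ M.s) ^ k ≤
          (2 ^ J.F + 2 ^ 58 + J.e.length) * ((Λ : ℝ) / 2 ^ M.s) ^ J.e.length := by gcongr
      linarith
    have h6 : (2 : ℝ) ^ M.s * ((2 ^ J.F + 2 ^ 58 + J.e.length + 1) * (Λ : ℝ) ^ J.e.length) ≤
        2 ^ (J.w - 1) * 2 ^ (M.s * J.e.length) := by exact_mod_cast hs3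
    have h7 : (2 : ℝ) ^ M.s * ((2 ^ J.F + 2 ^ 58 + J.e.length + 1) *
        ((Λ : ℝ) / 2 ^ M.s) ^ J.e.length) ≤ 2 ^ (J.w - 1) := by
      rw [div_pow, ← pow_mul, ← mul_div_assoc, ← mul_div_assoc, div_le_iff₀ (by positivity)]
      exact h6
    have h8 : (2 : ℝ) ^ M.s * |((iter M t J k).1 c i : ℝ)| + 2 ^ M.s ≤ 2 ^ (J.w - 1) := by
      have := mul_le_mul_of_nonneg_left h5 hp.le
      linarith
    exact_mod_cast h8
  obtain ⟨h1, h2⟩ := run_sound M J R.toClosed hwf hs1 hb h k hk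
  have key : ∀ c i, ok c = true → 1 ≤ i → i < J.m →
      ‖((iter M t J k).1 c i : ℂ) - 2 ^ J.F * (A ^ k) (dec c) (dec (J.src i))‖ ≤
        k * ((Λ : ℝ) / 2 ^ M.s) ^ k := by
    intro c i hc hi1 hi2
    have h3 := pow_err (J := J) R.toClosed hold hΛ hs2 i
      (fun k c => 2 ^ J.F * (A ^ k) (dec c) (dec (J.src i)))
      (fun k c hc => by
        rw [R.row c hc fun p => 2 ^ J.F * (A ^ k) p (dec (J.src i)), pow_succ', Matrix.mul_apply,
          Finset.mul_sum]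
        congr 1
        exact Finset.sum_congr rfl fun q _ => by ring) (b := 0) le_rfl (fun c hc => by
        rw [Job.y0, if_neg (by omega), pow_zero, Matrix.one_apply]
        by_cases e : c = J.src i
        · simp [e]
        · rw [if_neg e, if_neg fun h => e (R.inj _ _ hc (pow_ok_src hwf hi1 hi2) h)]
          simp) k c hc
    rwa [zero_add] at h3
  simp only [Job.wf, Bool.and_eq_true, List.all_eq_true, beq_iff_eq, decide_eq_true_eq] at hwf
  obtain ⟨⟨-, h4⟩, h5⟩ := hwf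
  rw [h1, h2]
  exact ⟨pow_list (y := fun e => (iter M t J k).1 e.2.1 e.2.2)
      (z := fun e => (A ^ k) (dec e.2.1) (dec (J.src e.2.2))) J.l1
      fun e he => key _ _ (h4 e he).1.1 (h4 e he).1.2 (h4 e he).2,
    pow_list (y := fun e => (iter M t J k).1 e.2.1 e.2.2)
      (z := fun e => (A ^ k) (dec e.2.1) (dec (J.src e.2.2))) J.l2
      fun e he => key _ _ (h5 e he).1.1 (h5 e he).1.2 (h5 e he).2⟩

end Crest.Agent.R347.Eng
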