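import Crest.Agent.R347.EngBits

/-!
# Row 347: a successful check computes the integer iteration   (task R347/EngRun)

You may use `EngTree`, `EngBits` (other tasks).
-/

set_option autoImplicit false

namespace Crest.Agent.R347.Eng

theorem run_wf {J : Job} {ok : ℕ → Bool} (hwf : J.wf ok = true) :
    1 ≤ J.m ∧ J.l0.map (fun e => e.2.2) = List.range' 1 (J.m - 1) ∧
    (∀ e ∈ J.l0, ok e.2.1 = true ∧ J.lo ≤ e.2.1 ∧ e.2.1 ≤ J.hi) ∧
    (∀ e ∈ J.l1, ok e.2.1 = true ∧ e.2.2 < J.m) ∧ (∀ e ∈ J.l2, ok e.2.1 = true ∧ e.2.2 < J.m) := by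
  simp only [Job.wf, Bool.and_eq_true, decide_eq_true_eq, beq_iff_eq, List.all_eq_true] at hwf
  obtain ⟨⟨⟨⟨h1, h2⟩, h3⟩, h4⟩, h5⟩ := hwf
  exact ⟨h1, h2, fun e he => ⟨(h3 e he).1.1, (h3 e he).1.2, (h3 e he).2⟩,
    fun e he => ⟨(h4 e he).1.1, (h4 e he).2⟩, fun e he => ⟨(h5 e he).1.1, (h5 e he).2⟩⟩

theorem run_bound {s w : ℕ} {y : ℤ} (h : 2 ^ s * |y| + 2 ^ s ≤ 2 ^ w) :
    -2 ^ w ≤ 2 ^ s * y ∧ 2 ^ s * y < 2 ^ w := by
  have h0 : (0 : ℤ) < 2 ^ s := by positivity
  have h1 := mul_le_mul_of_nonneg_left (le_abs_self y) h0.le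
  have h2 := mul_le_mul_of_nonneg_left (neg_abs_le y) h0.le
  constructor <;> linarith

theorem run_pre {s w : ℕ} {p : ℤ} (h : 2 ^ s * |p / 2 ^ s| + 2 ^ s ≤ 2 ^ w) :
    -2 ^ w ≤ p ∧ p < 2 ^ w := by
  have h0 : (0 : ℤ) < 2 ^ s := by positivity
  have h1 := mul_le_mul_of_nonneg_left (le_abs_self (p / 2 ^ s)) h0.le
  have h2 := mul_le_mul_of_nonneg_left (neg_abs_le (p / 2 ^ s)) h0.le
  have h3 := Int.mul_ediv_add_emod p (2 ^ s)
  have h4 := Int.emod_nonneg p h0.ne'
  have h5 := Int.emod_lt_of_pos p h0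
  constructor <;> linarith

theorem run_sum_getD {α : Type} (f : α → ℕ) (d : α) (l : List α) :
    (l.map f).sum = ∑ i ∈ Finset.range l.length, f (l.getD i d) := by
  induction l with
  | nil => simp
  | cons a l ih =>
    rw [List.map_cons, List.sum_cons, List.length_cons, Finset.sum_range_succ', ih, add_comm]
    rfl

theorem run_out {ok : ℕ → Bool} {n w s m : ℕ} (hs : s + 1 ≤ w) (x : T n) (y : ℕ → ℕ → ℤ)
    (hx : ∀ q, ok q = true → Packed w s m (get n x q) (y q)) (l : List (ℕ × ℕ × ℕ))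
    (hl : ∀ e ∈ l, ok e.2.1 = true ∧ e.2.2 < m) :
    (out n w s l x : ℤ) =
      2 ^ (w - 1 - s) * wsum l + (l.map fun e => (e.1 : ℤ) * y e.2.1 e.2.2).sum := by
  rw [out_eq, wsum]
  induction l with
  | nil => simp
  | cons e l ih =>
    have h1 := hl e List.mem_cons_self
    have h2 := (hx _ h1.1).slot hs h1.2
    simp only [List.map_cons, List.sum_cons, Nat.cast_add, Nat.cast_mul]
    rw [ih fun e he => hl e (List.mem_cons_of_mem _ he), h2]
    ring

theorem init_packed (J : Job) {ok : ℕ → Bool} (hwf : J.wf ok = true) {s : ℕ} (hs : s + 1 ≤ J.w)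
    {c : ℕ} (hb : ∀ i, i < J.m → 2 ^ s * |J.y0 c i| + 2 ^ s ≤ 2 ^ (J.w - 1)) :
    Packed J.w s J.m (J.init s c) (J.y0 c) := by
  obtain ⟨hm, hl, hl0, -, -⟩ := run_wf hwf
  refine ⟨?_, fun i hi => run_bound (hb i hi)⟩
  have hlen : J.l0.length = J.m - 1 := by
    have h := congrArg List.length hl
    simpa using h
  have hlook : (Bool.rec (motive := fun _ => ℕ) 0 (Bool.rec (motive := fun _ => ℕ) 0
      (look J.w (J.F + s) J.l0 c) (Nat.ble c J.hi)) (Nat.ble J.lo c) : ℕ) =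
      look J.w (J.F + s) J.l0 c := by
    by_cases h : J.lo ≤ c ∧ c ≤ J.hi
    · rw [Nat.ble_eq_true_of_le h.1, Nat.ble_eq_true_of_le h.2]
    · have h0 : look J.w (J.F + s) J.l0 c = 0 := by
        rw [look_eq]
        refine List.sum_eq_zero fun a ha => ?_
        obtain ⟨e, he, rfl⟩ := List.mem_map.1 ha
        refine if_neg fun hc => h ?_
        rw [← hc]
        exact (hl0 e he).2
      rw [h0]
      cases Nat.ble J.lo c <;> cases Nat.ble c J.hi <;> rfl
  have e1 : J.init s c =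
      rep J.w (2 ^ (J.w - 1)) J.m + rnd c * 2 ^ s + look J.w (J.F + s) J.l0 c := by
    rw [← hlook, ← Nat.shiftLeft_eq]
    rfl
  have e2 : ∀ i, i < J.m - 1 → (J.l0.getD i (0, 0, 0)).2.2 = i + 1 := by
    intro i hi
    have h1 : (J.l0.map fun e => e.2.2)[i]? = (List.range' 1 (J.m - 1))[i]? := by rw [hl]
    rw [List.getElem?_map, List.getElem?_range' hi, List.getElem?_eq_getElem (hlen ▸ hi)] at h1
    rw [List.getD_eq_getElem _ _ (hlen ▸ hi)]
    simp only [Option.map_some, Option.some.injEq] at h1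
    omega
  rw [e1, rep_eq, look_eq, run_sum_getD _ (0, 0, 0), hlen]
  simp only [mul_add, Finset.sum_add_distrib]
  obtain ⟨m, hm'⟩ : ∃ m, J.m = m + 1 := ⟨J.m - 1, by omega⟩
  rw [hm', Nat.add_sub_cancel] at e2
  rw [hm', Nat.add_sub_cancel,
    Finset.sum_range_succ' (fun i => (2 : ℤ) ^ (J.w * i) * (2 ^ s * J.y0 c i))]
  have e3 : ∑ i ∈ Finset.range m, (2 : ℤ) ^ (J.w * (i + 1)) * (2 ^ s * J.y0 c (i + 1)) =
      ∑ i ∈ Finset.range m, ((if (J.l0.getD i (0, 0, 0)).2.1 = c then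
        2 ^ (J.w * (J.l0.getD i (0, 0, 0)).2.2 + (J.F + s)) else 0 : ℕ) : ℤ) := by
    refine Finset.sum_congr rfl fun i hi => ?_
    rw [e2 i (Finset.mem_range.1 hi), Job.y0, if_neg (Nat.succ_ne_zero i), Job.src,
      Nat.add_sub_cancel]
    by_cases h : (J.l0.getD i (0, 0, 0)).2.1 = c
    · rw [if_pos h, if_pos h.symm]
      push_cast
      ring
    · rw [if_neg h, if_neg fun h' => h h'.symm]
      simp
  rw [e3, Job.y0, if_pos rfl]
  push_cast
  ring

/-- Unfold `check`, `checkWith`, `part`, `start`.  Generalise: for every suffix `e` of `J.e` starting at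
index `k` and trees `x, o` whose `ok` leaves are `Packed` with `(iter k).1`, `(iter k).2`,
`runK … e x o = true` gives the outputs from index `k` on.  In the step use `get_genStep`,
`leaf_packed`; the bound on `pre` follows from `hb (k+1)` since `pre = 2^s * (pre / 2^s) + pre % 2^s`. -/
theorem run_sound (M : Mat) (J : Job) {ok : ℕ → Bool} {t : ℕ} (hM : Closed M ok t)
    (hwf : J.wf ok = true) (hs : M.s + 1 ≤ J.w)
    (hb : ∀ k, k ≤ J.e.length → ∀ c, ok c = true → ∀ i, i < J.m →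
      2 ^ M.s * |(iter M t J k).1 c i| + 2 ^ M.s ≤ 2 ^ (J.w - 1))
    (h : check M J = true) (k : ℕ) (hk : k < J.e.length) :
    J.val1 M.s k = (J.l1.map fun e => (e.1 : ℤ) * (iter M t J k).1 e.2.1 e.2.2).sum ∧
    J.val2 M.s k = (J.l2.map fun e => (e.1 : ℤ) * (iter M t J k).1 e.2.1 e.2.2).sum := by
  obtain ⟨hm, -, -, hl1, hl2⟩ := run_wf hwf
  have key : ∀ (e : List (ℕ × ℕ)) (k0 : ℕ) (x o : T M.n), k0 + e.length = J.e.length →
      (∀ q, ok q = true → Packed J.w M.s J.m (get M.n x q) ((iter M t J k0).1 q)) →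
      (∀ q, ok q = true → Packed J.w M.s J.m (get M.n o q) ((iter M t J k0).2 q)) →
      part M.n M.s (genStep M) J (atEnd M.n) e x o = true → ∀ j, j < e.length →
      ((e.getD j (0, 0)).1 : ℤ) - 2 ^ (J.w - 1 - M.s) * wsum J.l1 =
        (J.l1.map fun e => (e.1 : ℤ) * (iter M t J (k0 + j)).1 e.2.1 e.2.2).sum ∧
      ((e.getD j (0, 0)).2 : ℤ) - 2 ^ (J.w - 1 - M.s) * wsum J.l2 =
        (J.l2.map fun e => (e.1 : ℤ) * (iter M t J (k0 + j)).1 e.2.1 e.2.2).sum := by
    intro e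
    induction e with
    | nil => intro k0 x o _ _ _ _ j hj; exact absurd hj (Nat.not_lt_zero j)
    | cons p e ih =>
      intro k0 x o hk0 hx ho hr j hj
      obtain ⟨a, b⟩ := p
      have hr' : and' (Nat.beq (out M.n J.w M.s J.l1 x) a) (and' (Nat.beq (out M.n J.w M.s J.l2 x) b)
          (part M.n M.s (genStep M) J (atEnd M.n) e
            (genStep M (rep J.w (2 ^ (J.w - 1 - M.s)) J.m) (rep J.w (2 ^ J.w - 2 ^ M.s) J.m) x o)
            x)) = true := hr
      simp only [and'_iff] at hr'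
      obtain ⟨ha, hb', hr''⟩ := hr'
      rw [List.length_cons] at hk0 hj
      cases j with
      | zero =>
        rw [List.getD_cons_zero, ← Nat.eq_of_beq_eq_true ha, ← Nat.eq_of_beq_eq_true hb',
          run_out hs x _ hx _ hl1, run_out hs x _ hx _ hl2]
        exact ⟨add_sub_cancel_left _ _, add_sub_cancel_left _ _⟩
      | succ j =>
        rw [List.getD_cons_succ, show k0 + (j + 1) = k0 + 1 + j by omega]
        refine ih (k0 + 1) _ x (by omega) (fun q hq => ?_) hx hr'' j (by omega)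
        rw [get_genStep M _ _ x o (hM.valid q hq)]
        refine leaf_packed M hM hs hm x o _ _ hx ho hq fun i hi => ?_
        exact run_pre (hb (k0 + 1) (by omega) q hq i hi)
  have h0 := key J.e 0 (genBuild M (J.init M.s))
    (genBuild M fun _ => rep J.w (2 ^ (J.w - 1)) J.m) (Nat.zero_add _) (fun q hq => ?_)
    (fun q hq => ?_) h k hk
  · rw [Nat.zero_add] at h0
    exact h0
  · rw [get_genBuild M _ (hM.valid q hq)]
    exact init_packed J hwf hs (hb 0 (Nat.zero_le _) q hq)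
  · rw [get_genBuild M _ (hM.valid q hq)]
    refine ⟨?_, fun i _ => ?_⟩
    · rw [rep_eq]
      simp [iter]
    · simp [iter]

end Crest.Agent.R347.Eng
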