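import Crest.Agent.R347.EngM

/-!
# Row 347: spin matrices reduced by signed symmetries (definitions and term builders)

A signed map sends a code to a code and a sign (`true` = minus).  `can gens q` is the smallest image of
`q` under products of the generators, with its sign, or `none` if a product fixes `q` with a minus sign.
-/

set_option autoImplicit false

namespace Crest.Agent.R347.Eng

abbrev SMap := Nat → Nat × Bool
abbrev Res := Option (Nat × Bool)

noncomputable section

def not' (a : Bool) : Bool := Bool.rec (motive := fun _ => Bool) true false a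

def pick (q c : Nat) (s : Bool) (k : Nat → Bool → Res) (m : Nat) (sg : Bool) : Res :=
  Bool.rec (motive := fun _ => Res)
    (Bool.rec (motive := fun _ => Res) (k c s) (k m sg) (Nat.ble m c)) none (and' s (Nat.beq c q))

def foldImg (q : Nat) (gens : List SMap) : Nat → Bool → (Nat → Bool → Res) → Nat → Bool → Res :=
  List.rec (motive := fun _ => Nat → Bool → (Nat → Bool → Res) → Nat → Bool → Res)
    (fun c s k => pick q c s k)
    (fun g _ ih c s k => ih c s fun m sg =>
      Prod.rec (motive := fun _ => Res) (fun c' s' => force c' fun c' =>
        Bool.rec (motive := fun _ => Res) (ih c' false k m sg) (ih c' true k m sg) (xor' s s')) (g c)) gens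

def can (gens : List SMap) (q : Nat) : Res := foldImg q gens q false (fun m sg => some (m, sg)) q false

def isRep (cn : Nat → Res) (c : Nat) : Bool :=
  Option.rec (motive := fun _ => Bool) false
    (fun e => Prod.rec (motive := fun _ => Bool) (fun r s => and' (Nat.beq r c) (not' s)) e) (cn c)

/-- sorts the representatives of the codes `l` by their signs -/
def sortL (cn : Nat → Res) (sg : Bool) (k : List Nat → List Nat → Gs × Gs) (l : List Nat) :
    List Nat → List Nat → Gs × Gs :=
  List.rec (motive := fun _ => List Nat → List Nat → Gs × Gs) k
    (fun q _ ih p n => force q fun q => Option.rec (motive := fun _ => Gs × Gs) (ih p n)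
      (fun e => Prod.rec (motive := fun _ => Gs × Gs) (fun r s =>
        Bool.rec (motive := fun _ => Gs × Gs) (ih (r :: p) n) (ih p (r :: n)) (xor' sg s)) e) (cn q)) l

def symRow (cn : Nat → Res) (l kind m f eP eN : Nat) (c : Nat) : Gs × Gs :=
  force (Nat.add (Nat.add (Nat.mul m (zzTo c l)) eP)
    (Bool.rec (motive := fun _ => Nat)
      (Nat.mul f (Nat.add (dig c 0) (Bool.rec (motive := fun _ => Nat) (dig c l) (Nat.sub 2 (dig c l)) (Nat.beq kind 2))))
      (Nat.mul m (zz (dig c l) (dig c 0))) (Nat.ble kind 1))) fun P =>
  sortL cn false
    (sortL cn true (fun p n => ([(m, p), (Nat.sub P eN, [c])], [(m, n), (Nat.sub eN P, [c])]))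
      (Bool.rec (motive := fun _ => List Nat) [] (hops c l 0 []) (Nat.beq kind 1)))
    (hopsTo c (Bool.rec (motive := fun _ => List Nat) [] (hops c l 0 []) (Nat.beq kind 0)) l) [] []

def symEmp (cn : Nat → Res) (L lo : Nat) (n c : Nat) : Bool :=
  Bool.rec (motive := fun _ => Bool)
    (Bool.rec (motive := fun _ => Bool) false (not' (isRep cn c)) (Nat.beq n 0)) true (spinEmp L lo lo n c)

def symMat (gens : List SMap) (l kind m f eP eN s t lo : Nat) : Mat where
  n := Nat.div (Nat.add l 2) 2
  emp := symEmp (can gens) (Nat.succ l) lo
  row := symRow (can gens) l kind m f eP eN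
  s := s
  base := Nat.mul (Nat.succ t) (Nat.pow 2 (Nat.succ s))
  old := true

/-! ### the generators -/

/-- the reversal of five digits, from a table -/
def rev5 (x : Nat) : Nat := Nat.mod (Nat.shiftRight
  1510137019244301864765424942062328592746716055150081660265600305960418233220201086676180045787333367979200679905656322292532467340037725513338593089150602463945855755725284224464365358810440761777757701510598866626156388375245483592241241244834369114692884038121961141541669662974848683244064209243642739787404845342429054705661217438510302222209636070060670560345671906290317209087092273385443793830152809729566503293431661018511930227007324287421799075080036144008983435585909712911555249468324541800024050835850879088192263208944497329014176407425820318311808138512661419319214887168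
  (Nat.mul 8 x)) 256

/-- parity of `5 +` the digit sum of five digits, from a table -/
def par5 (x : Nat) : Bool := Nat.beq (Nat.mod (Nat.shiftRight
  9423184345484716424444253337295565417746580783336634443315233073560638805 x) 2) 1

/-- reflection of `L = 9` or `10` sites -/
def genA (L : Nat) (chi : Bool) : SMap := fun c =>
  (Nat.add (Nat.mul (rev5 (Nat.mod c 243)) (Nat.pow 3 (Nat.sub L 5)))
    (Nat.div (rev5 (Nat.div c 243)) (Nat.pow 3 (Nat.sub 10 L))), chi)

/-- translation by five sites, with the gauge sign if `tw` -/
def genB (L : Nat) (tw chi : Bool) : SMap := fun c =>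
  (Nat.add (Nat.div c 243) (Nat.mul (Nat.mod c 243) (Nat.pow 3 (Nat.sub L 5))),
    xor' chi (and' tw (par5 (Nat.mod c 243))))

def genF (L : Nat) (chi : Bool) : SMap := fun c => (flipC L c, chi)

def bit (x i : Nat) : Bool := Nat.beq (Nat.mod (Nat.shiftRight x i) 2) 1

/-- the generators selected by the bits of `mode`, with the signs given by the bits of `chi` -/
def gensOf (L kind mode chi : Nat) : List SMap :=
  Bool.rec (motive := fun _ => List SMap → List SMap) (fun t => t) (fun t => genA L (bit chi 0) :: t) (bit mode 0)
    (Bool.rec (motive := fun _ => List SMap → List SMap) (fun t => t)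
      (fun t => genB L (Nat.beq kind 1) (bit chi 1) :: t) (bit mode 1)
      (Bool.rec (motive := fun _ => List SMap) [] [genF L (bit chi 2)] (bit mode 2)))

/-! ### the checks at a code of a sector -/

def okC (L lo c : Nat) : Bool := and' (Nat.blt c (Nat.pow 3 L)) (Nat.beq (dsum L c) lo)

/-- `g` commutes with the maps in `l` at `c` -/
def commOK (g : SMap) (c : Nat) (l : List SMap) : Bool :=
  List.rec (motive := fun _ => Bool) true
    (fun g' _ ih => and' (Nat.beq (g (g' c).1).1 (g' (g c).1).1)
      (and' (not' (xor' (xor' (g' c).2 (g (g' c).1).2) (xor' (g c).2 (g' (g c).1).2))) ih)) l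

/-- the maps in `l` keep the sector, are involutions and commute with `gens` at `c` -/
def goodAt (L lo : Nat) (gens : List SMap) (c : Nat) (l : List SMap) : Bool :=
  List.rec (motive := fun _ => Bool) true
    (fun g _ ih => and' (okC L lo (g c).1) (and' (Nat.beq (g (g c).1).1 c)
      (and' (not' (xor' (g (g c).1).2 (g c).2)) (and' (commOK g c gens) ih)))) l

/-- `goodAt` holds at all codes of the sector below the prefix `p` of depth `n` -/
def goodOK (L lo : Nat) (gens : List SMap) (n p : Nat) : Bool :=
  eqT n (build (spinEmp L lo lo) (fun c => force c fun c =>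
    Bool.rec (motive := fun _ => Nat) 1 0 (goodAt L lo gens c gens)) n p) (zero n)

/-- all values `can g c` have the representative `r`; counts the signs -/
def cancel (c r : Nat) (gs : List (List SMap)) : Nat → Nat → Bool :=
  List.rec (motive := fun _ => Nat → Nat → Bool)
    (fun a b => Bool.rec (motive := fun _ => Bool) (Nat.beq a b) true (Nat.beq r c))
    (fun g _ ih a b => Option.rec (motive := fun _ => Bool) (ih a b)
      (fun e => Prod.rec (motive := fun _ => Bool) (fun r' u => and' (Nat.beq r' r)
        (Bool.rec (motive := fun _ => Bool) (ih (Nat.succ a) b) (ih a (Nat.succ b)) u)) e) (can g c)) gs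

/-- `f c` for all `c < n` -/
def allLt (f : Nat → Bool) (n : Nat) : Bool :=
  Nat.rec (motive := fun _ => Bool) true (fun i ih => force i fun i => and' (f i) ih) n

end

/-- equality of step functions and of builders from the nine subtrees -/
theorem both_ext {α β γ : Type} (f g : Nat → Nat → β → β → V α) (u v : γ → V α)
    (h0 : ((fun a b x o => (f a b x o).a0) = fun a b x o => (g a b x o).a0) ∧
      (fun y => (u y).a0) = fun y => (v y).a0)
    (h1 : ((fun a b x o => (f a b x o).a1) = fun a b x o => (g a b x o).a1) ∧
      (fun y => (u y).a1) = fun y => (v y).a1)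
    (h2 : ((fun a b x o => (f a b x o).a2) = fun a b x o => (g a b x o).a2) ∧
      (fun y => (u y).a2) = fun y => (v y).a2)
    (h3 : ((fun a b x o => (f a b x o).a3) = fun a b x o => (g a b x o).a3) ∧
      (fun y => (u y).a3) = fun y => (v y).a3)
    (h4 : ((fun a b x o => (f a b x o).a4) = fun a b x o => (g a b x o).a4) ∧
      (fun y => (u y).a4) = fun y => (v y).a4)
    (h5 : ((fun a b x o => (f a b x o).a5) = fun a b x o => (g a b x o).a5) ∧
      (fun y => (u y).a5) = fun y => (v y).a5)
    (h6 : ((fun a b x o => (f a b x o).a6) = fun a b x o => (g a b x o).a6) ∧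
      (fun y => (u y).a6) = fun y => (v y).a6)
    (h7 : ((fun a b x o => (f a b x o).a7) = fun a b x o => (g a b x o).a7) ∧
      (fun y => (u y).a7) = fun y => (v y).a7)
    (h8 : ((fun a b x o => (f a b x o).a8) = fun a b x o => (g a b x o).a8) ∧
      (fun y => (u y).a8) = fun y => (v y).a8)
    : f = g ∧ u = v := by
  refine ⟨step_ext f g h0.1 h1.1 h2.1 h3.1 h4.1 h5.1 h6.1 h7.1 h8.1, funext fun y => ?_⟩
  have e := step_ext (β := γ) (fun _ _ y _ => u y) (fun _ _ y _ => v y)
    (funext fun _ => funext fun _ => funext fun y => funext fun _ => congrFun h0.2 y)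
    (funext fun _ => funext fun _ => funext fun y => funext fun _ => congrFun h1.2 y)
    (funext fun _ => funext fun _ => funext fun y => funext fun _ => congrFun h2.2 y)
    (funext fun _ => funext fun _ => funext fun y => funext fun _ => congrFun h3.2 y)
    (funext fun _ => funext fun _ => funext fun y => funext fun _ => congrFun h4.2 y)
    (funext fun _ => funext fun _ => funext fun y => funext fun _ => congrFun h5.2 y)
    (funext fun _ => funext fun _ => funext fun y => funext fun _ => congrFun h6.2 y)
    (funext fun _ => funext fun _ => funext fun y => funext fun _ => congrFun h7.2 y)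
    (funext fun _ => funext fun _ => funext fun y => funext fun _ => congrFun h8.2 y)
  exact congrFun (congrFun (congrFun (congrFun e 0) 0) y) y

/-! ### term builders (the kernel checks their output) -/

def revM (k c : Nat) : Nat := (List.range k).foldl (fun a j => 3 * a + c / 3 ^ j % 3) 0

def gensM (L kind mode chi : Nat) : List SMap :=
  (if mode.testBit 0 then [fun c => (revM L c, chi.testBit 0)] else []) ++
  (if mode.testBit 1 then [fun c => (c / 243 + c % 243 * 3 ^ (L - 5),
    xor (chi.testBit 1) (kind == 1 && (5 + dsumM 5 c) % 2 == 1))] else []) ++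
  (if mode.testBit 2 then [fun c => (3 ^ L - 1 - c, chi.testBit 2)] else [])

def imgsM : List SMap → Nat → Bool → List (Nat × Bool)
  | [], c, s => [(c, s)]
  | g :: gs, c, s => imgsM gs c s ++ imgsM gs (g c).1 (xor s (g c).2)

def canM (gens : List SMap) (q : Nat) : Res :=
  let l := imgsM gens q false
  if l.any (fun e => e.2 && e.1 == q) then none
  else some (l.foldl (fun a e => if a.1 ≤ e.1 then a else e) (q, false))

/-- arguments `l kind m f eP eN s t lo mode chi` -/
def symOf (a : Array Nat) : MMat :=
  let M := spinMatM a[0]! a[1]! a[2]! a[3]! a[4]! a[5]! a[6]! a[7]! a[8]! a[8]!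
  let g := gensM (a[0]! + 1) a[1]! a[9]! a[10]!
  let srt := fun (sg : Bool) (l : List Nat) (pn : List Nat × List Nat) =>
    l.foldl (fun (p, n) q => match canM g q with
      | none => (p, n)
      | some (r, s) => if xor sg s then (p, r :: n) else (r :: p, n)) pn
  { M with
    emp := fun n c => M.emp n c || (n == 0 && canM g c != some (c, false))
    row := fun c => match M.row c with
      | ([(m, hp), d], [(_, hn), e]) =>
        let (p, n) := srt true hn (srt false hp ([], []))
        ([(m, p), d], [(m, n), e])
      | r => r }

elab "sym_step " ns:num* : tactic => closeWith (stepE (symOf (ns.map (·.getNat))))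

elab "sym_build " ns:num* : tactic => closeWith (buildE (symOf (ns.map (·.getNat))))

/-- as `spin_states`; the states are only proposals, the kernel checks them -/
elab "sym_states " ns:num* " / " w:num F:num " / " cuts:num* " / " l0:num* : tactic => do
  let M := symOf (ns.map (·.getNat))
  let r := statesE M w.getNat F.getNat (l0.map (·.getNat)) (cuts.map (·.getNat))
  let ty := Lean.mkApp (Lean.mkConst ``T) (lit M.n)
  let pty := Lean.mkApp2 (Lean.mkConst ``Prod [.zero, .zero]) ty ty
  closeWith (r.foldr (fun a l => Lean.mkApp3 (Lean.mkConst ``List.cons [.zero]) pty a l)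
    (Lean.mkApp (Lean.mkConst ``List.nil [.zero]) pty))

end Crest.Agent.R347.Eng
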