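import Crest.Agent.R347.Eng
import Crest.Agent.R347.Defs

/-!
# Row 347: what the kernel engine computes (definitions only)
-/

set_option autoImplicit false

namespace Crest.Agent.R347.Eng

open Matrix

/-- `∑ k * ∑ y q` over the groups -/
def gsum {R : Type} [CommRing R] (y : ℕ → R) (gs : Gs) : R :=
  (gs.map fun p => (p.1 : R) * (p.2.map y).sum).sum

def codes (gs : Gs) : List ℕ := gs.flatMap fun p => p.2

/-- the leaf `c` exists and is not cut off -/
def Mat.valid (M : Mat) (c : ℕ) : Prop := c < 9 ^ M.n ∧ ∀ k, k ≤ M.n → M.emp k (c / 9 ^ k) = false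

/-- the combinatorial conditions on the set `ok` of codes in use -/
structure Closed (M : Mat) (ok : ℕ → Bool) (t : ℕ) : Prop where
  valid : ∀ c, ok c = true → M.valid c
  closed : ∀ c, ok c = true → ∀ q ∈ codes (M.row c).1 ++ codes (M.row c).2, ok q = true
  wt_le : ∀ c, ok c = true → wt (M.row c).1 ≤ M.base + wt (M.row c).2
  base : M.base = 2 ^ (M.s + 1) * t + 2 ^ M.s + (if M.old = true then 2 ^ M.s else 0)
  t_le : t ≤ 2 ^ M.s

/-- the rows of `M` are the rows of `2^s A` -/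
structure Rep {ι : Type} [Fintype ι] (M : Mat) (ok : ℕ → Bool) (t : ℕ) (dec : ℕ → ι)
    (A : Matrix ι ι ℂ) : Prop extends Closed M ok t where
  inj : ∀ c c', ok c = true → ok c' = true → dec c = dec c' → c = c'
  row : ∀ c, ok c = true → ∀ y : ι → ℂ,
    gsum (fun q => y (dec q)) (M.row c).1 - gsum (fun q => y (dec q)) (M.row c).2 =
      2 ^ M.s * ∑ q, A (dec c) q * y q

/-- `x` packs the `m` slots `2^(w-1) + 2^s * y i` of `w` bits -/
def Packed (w s m : ℕ) (x : ℕ) (y : ℕ → ℤ) : Prop :=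
  (x : ℤ) = ∑ i ∈ Finset.range m, 2 ^ (w * i) * (2 ^ (w - 1) + 2 ^ s * y i) ∧
    ∀ i, i < m → -2 ^ (w - 1) ≤ 2 ^ s * y i ∧ 2 ^ s * y i < 2 ^ (w - 1)

def wsum (l : List (ℕ × ℕ × ℕ)) : ℕ := (l.map fun e => e.1).sum

/-- the code of the unit vector in slot `i ≥ 1` -/
def Job.src (J : Job) (i : ℕ) : ℕ := (J.l0.getD (i - 1) (0, 0, 0)).2.1

def Job.wf (J : Job) (ok : ℕ → Bool) : Bool :=
  decide (1 ≤ J.m) && (J.l0.map (fun e => e.2.2) == List.range' 1 (J.m - 1)) &&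
  J.l0.all (fun e => ok e.2.1 && decide (J.lo ≤ e.2.1) && decide (e.2.1 ≤ J.hi)) &&
  J.l1.all (fun e => ok e.2.1 && decide (1 ≤ e.2.2) && decide (e.2.2 < J.m)) &&
  J.l2.all (fun e => ok e.2.1 && decide (1 ≤ e.2.2) && decide (e.2.2 < J.m))

/-- initial integer values (code, slot) -/
def Job.y0 (J : Job) (c i : ℕ) : ℤ :=
  if i = 0 then (rnd c : ℤ) else if c = J.src i then 2 ^ J.F else 0

/-- the value before rounding -/
def pre (M : Mat) (t : ℕ) (y yo : ℕ → ℕ → ℤ) (c i : ℕ) : ℤ :=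
  gsum (fun q => y q i) (M.row c).1 - gsum (fun q => y q i) (M.row c).2 -
    (if M.old = true then 2 ^ M.s * yo c i else 0) + (if i = 0 then 0 else (t : ℤ))

/-- the exact integer iteration: (current, previous) -/
def iter (M : Mat) (t : ℕ) (J : Job) : ℕ → (ℕ → ℕ → ℤ) × (ℕ → ℕ → ℤ)
  | 0 => (J.y0, fun _ _ => 0)
  | k + 1 => (fun c i => pre M t (iter M t J k).1 (iter M t J k).2 c i / 2 ^ M.s, (iter M t J k).1)

/-- the `k`-th outputs without the bias -/
def Job.val1 (J : Job) (s k : ℕ) : ℤ := ((J.e.getD k (0, 0)).1 : ℤ) - 2 ^ (J.w - 1 - s) * wsum J.l1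
def Job.val2 (J : Job) (s k : ℕ) : ℤ := ((J.e.getD k (0, 0)).2 : ℤ) - 2 ^ (J.w - 1 - s) * wsum J.l2

/-- `∑ weight * B (code) (source of the slot)` -/
noncomputable def Job.tr {ι : Type} (J : Job) (dec : ℕ → ι) (l : List (ℕ × ℕ × ℕ))
    (B : Matrix ι ι ℂ) : ℂ :=
  (l.map fun e => (e.1 : ℂ) * B (dec e.2.1) (dec (J.src e.2.2))).sum

/-! ### spin chains -/

def cfg (L c : ℕ) : Cfg L := fun k => ⟨c / 3 ^ k.val % 3, Nat.mod_lt _ (by decide)⟩

noncomputable def okS (L lo : ℕ) (c : ℕ) : Bool := Nat.blt c (3 ^ L) && Nat.beq (dsum L c) lo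

/-- the Hamiltonian of kind `kind` on `l + 1` sites -/
noncomputable def spinH (l kind : ℕ) : Matrix (Cfg (l + 1)) (Cfg (l + 1)) ℂ :=
  if kind = 0 then ringH (l + 1) none else if kind = 1 then ringH (l + 1) (some 2)
  else if kind = 2 then openH l 1 (-1) else openH l 1 1

/-- `m c₀` -/
def spinC (l kind m f eP eN : ℕ) : ℤ :=
  (eN : ℤ) - eP - (if kind ≤ 1 then m * (l + 1) else m * l + 2 * f)

/-- `(m H - m c₀) / 2^s` -/
noncomputable def spinA (l kind m f eP eN s : ℕ) : Matrix (Cfg (l + 1)) (Cfg (l + 1)) ℂ :=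
  ((1 : ℂ) / 2 ^ s) • ((m : ℂ) • spinH l kind - (spinC l kind m f eP eN : ℂ) • 1)

/-- a job in the sector with digit sum `lo` -/
structure Blk : Type where
  lo : ℕ
  J : Job

def reps (bs : List Blk) : List (ℕ × ℕ) := bs.flatMap fun b => b.J.l0.map fun e => (e.1, e.2.1)

/-- `fl`: the flip trace is wanted -/
noncomputable def Blk.wf (b : Blk) (L : ℕ) (fl : Bool) (K w F : ℕ) : Bool :=
  b.J.wf (okS L b.lo) && (b.J.l1 == b.J.l0) &&
  (b.J.l2 == if fl && b.lo == L then b.J.l0.map (fun e => (e.1, flipC L e.2.1, e.2.2)) else []) &&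
  (b.J.e.length == K + 1) && (b.J.w == w) && (b.J.F == F)

def sum1 (bs : List Blk) (s k : ℕ) : ℤ := (bs.map fun b => b.J.val1 s k).sum
def sumZ (bs : List Blk) (L s k : ℕ) : ℤ := (bs.map fun b => (-1) ^ (L + b.lo) * b.J.val1 s k).sum
def sumX (bs : List Blk) (L s k : ℕ) : ℤ := (-1) ^ L * (bs.map fun b => b.J.val2 s k).sum

/-- `V k / 2^F` are the Chebyshev moments of `A` against `G` up to `err / 2^F` -/
def Mom {ι : Type} [Fintype ι] [DecidableEq ι] (A G : Matrix ι ι ℂ) (F : ℕ) (V : List ℤ)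
    (err : ℕ) : Prop :=
  ∀ k, k < V.length → |(2 : ℝ) ^ F * (G * chU A k).trace.re - (V.getD k 0 : ℤ)| ≤ err

end Crest.Agent.R347.Eng
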