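import Crest.Agent.R347.Sector
import Crest.Agent.R347.EngSpec

/-!
# Row 347: the exponential through Chebyshev moments   (task R347/ExpApprox)

You may use `Sector` (other task).

Let `u_k (y)` be the scalar recurrence `u_0 = 1, u_1 = y, u_{k+2} = y u_{k+1} - u_k`; `|u_k| ≤ k+1` on
`[-2,2]` and `(u_{k+1} - u_{k-1})' = (k+1) u_k` (with `u_{-1} = 0`).  With `a_K = 1, a_{K+1} = a_{K+2} = 0`,
`q_k = a_k - a_{k+2} = -(k+1) a_{k+1} / b` for `k < K` and `q_K = 1`, the polynomial
`p = ∑ q_k u_k = a_0 + ∑_{k≥1} a_k (u_k - u_{k-2})` satisfies `p' + b p = b u_K`.  Hence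
`y ↦ e^{b y} (p y ∓ (K+1))` is antitone / monotone on `[-2, 2]`, and for `-2 ≤ y0 ≤ y ≤ 2`:
`|p y - e^{-b (y - y0)} p y0| ≤ K + 1`.
-/

set_option autoImplicit false

namespace Crest.Agent.R347

open Matrix

/-- `qgo b k a_k a_{k+1} [q_k, …] = [q_0, …]` -/
def qgo (b : ℚ) : ℕ → ℚ → ℚ → List ℚ → List ℚ
  | 0, _, _, acc => acc
  | k + 1, a1, a2, acc =>
    qgo b k (a2 + -((k : ℚ) + 1) * a1 / b) a1 ((-((k : ℚ) + 1) * a1 / b) :: acc)

/-- `[q_0, …, q_K]` -/
def qcoef (b : ℚ) (K : ℕ) : List ℚ := qgo b K 1 0 [1]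

/-- `evalU y [q_0, …] u_0 u_{-1} = ∑ q_k u_k (y)` -/
def evalU (y : ℚ) : List ℚ → ℚ → ℚ → ℚ
  | [], _, _ => 0
  | q :: l, u, u' => q * u + evalU y l (y * u - u') u

def dotQ : List ℚ → List ℤ → ℚ
  | q :: l, v :: l' => q * v + dotQ l l'
  | _, _ => 0

def absSum (l : List ℚ) : ℚ := (l.map fun q => |q|).sum

/-- the numerical check of `near_of_mom` -/
def NearOK (V : List ℤ) (F err card : ℕ) (b y0 κ z δ : ℚ) : Prop :=
  0 < b ∧ -2 ≤ y0 ∧ 0 ≤ κ ∧ 1 ≤ V.length ∧ 0 < evalU y0 (qcoef b (V.length - 1)) 1 0 ∧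
    |κ * (dotQ (qcoef b (V.length - 1)) V / 2 ^ F) / evalU y0 (qcoef b (V.length - 1)) 1 0 - z| +
      κ * (card * V.length + err * absSum (qcoef b (V.length - 1)) / 2 ^ F) /
        evalU y0 (qcoef b (V.length - 1)) 1 0 ≤ δ

instance (V : List ℤ) (F err card : ℕ) (b y0 κ z δ : ℚ) :
    Decidable (NearOK V F err card b y0 κ z δ) := by
  unfold NearOK; infer_instance

namespace ExpA

/-- `ev (k+1) = u_k`, `ev 0 = u_{-1} = 0` -/
def ev : ℕ → ℝ → ℝ
  | 0, _ => 0
  | 1, _ => 1
  | k + 2, y => y * ev (k + 1) y - ev k y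

/-- the derivative of `ev` -/
def ed : ℕ → ℝ → ℝ
  | 0, _ => 0
  | 1, _ => 0
  | k + 2, y => ev (k + 1) y + y * ed (k + 1) y - ed k y

theorem ev_zero (y : ℝ) : ev 0 y = 0 := rfl
theorem ev_one (y : ℝ) : ev 1 y = 1 := rfl
theorem ev_succ (k : ℕ) (y : ℝ) : ev (k + 2) y = y * ev (k + 1) y - ev k y := rfl
theorem ed_zero (y : ℝ) : ed 0 y = 0 := rfl
theorem ed_one (y : ℝ) : ed 1 y = 0 := rfl
theorem ed_succ (k : ℕ) (y : ℝ) : ed (k + 2) y = ev (k + 1) y + y * ed (k + 1) y - ed k y := rfl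

theorem hasDerivAt_ev (k : ℕ) (y : ℝ) : HasDerivAt (ev k) (ed k y) y := by
  induction k using Nat.twoStepInduction with
  | zero => exact hasDerivAt_const y (0 : ℝ)
  | one => exact hasDerivAt_const y (1 : ℝ)
  | more k h1 h2 =>
    have h3 : HasDerivAt (fun t => t * ev (k + 1) t - ev k t)
        (1 * ev (k + 1) y + y * ed (k + 1) y - ed k y) y := ((hasDerivAt_id' y).mul h2).sub h1
    rw [one_mul] at h3
    exact h3

theorem ev_inv (k : ℕ) (y : ℝ) :
    ev (k + 1) y ^ 2 - y * ev (k + 1) y * ev k y + ev k y ^ 2 = 1 := by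
  induction k with
  | zero => simp [ev_zero, ev_one]
  | succ k ih => rw [ev_succ]; linear_combination ih

theorem abs_ev_le (k : ℕ) {y : ℝ} (h : |y| ≤ 2) : |ev k y| ≤ k := by
  induction k with
  | zero => simp [ev_zero]
  | succ k ih =>
    have h1 := ev_inv k y
    set a := ev (k + 1) y
    set c := ev k y
    have h2 : y * a * c ≤ 2 * |a| * |c| := by
      refine (le_abs_self _).trans ?_
      rw [abs_mul, abs_mul]
      gcongr
    have h3 : (|a| - |c|) ^ 2 ≤ 1 := by
      have ha := sq_abs a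
      have hc := sq_abs c
      nlinarith
    have h4 : |a| - |c| ≤ 1 := by nlinarith
    push_cast
    linarith

theorem ed_sub (k : ℕ) (y : ℝ) : ed (k + 2) y - ed k y = (k + 1) * ev (k + 1) y := by
  induction k using Nat.twoStepInduction with
  | zero => simp [ed_succ, ed_zero, ed_one, ev_one]
  | one =>
    have e2 : ed 2 y = 1 := by simp [show ed 2 y = _ from ed_succ 0 y, ed_zero, ed_one, ev_one]
    have v2 : ev 2 y = y := by simp [show ev 2 y = _ from ev_succ 0 y, ev_zero, ev_one]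
    have e3 : ed 3 y = ev 2 y + y * ed 2 y - ed 1 y := ed_succ 1 y
    show ed 3 y - ed 1 y = ((1 : ℕ) + 1) * ev 2 y
    rw [e3, e2, v2, ed_one]
    push_cast
    ring
  | more k h1 h2 =>
    have e4 : ed (k + 2 + 2) y = ev (k + 2 + 1) y + y * ed (k + 1 + 2) y - ed (k + 2) y :=
      ed_succ (k + 2) y
    have e2 := ed_succ k y
    have v3 : ev (k + 2 + 1) y = y * ev (k + 1 + 1) y - ev (k + 1) y := ev_succ (k + 1) y
    push_cast at h2 ⊢
    rw [e4]
    linear_combination y * h2 - h1 - e2 - ((k : ℝ) + 2) * v3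

theorem ed_sub' (k : ℕ) (y : ℝ) : ed (k + 1) y - ed (k - 1) y = k * ev k y := by
  cases k with
  | zero => simp [ed_zero, ed_one]
  | succ k =>
    have := ed_sub k y
    push_cast
    simpa using this

/-- `∑ l_j f (k + j + 1)` -/
def sumL (f : ℕ → ℝ) : List ℚ → ℕ → ℝ
  | [], _ => 0
  | q :: l, k => q * f (k + 1) + sumL f l (k + 1)

theorem sumL_eq (f : ℕ → ℝ) (l : List ℚ) (k : ℕ) :
    sumL f l k = ∑ j ∈ Finset.range l.length, (l.getD j 0 : ℚ) * f (k + j + 1) := by
  induction l generalizing k with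
  | nil => simp [sumL]
  | cons q l ih =>
    rw [sumL, ih, List.length_cons, Finset.sum_range_succ', add_comm]
    congr 1
    refine Finset.sum_congr rfl fun j _ => ?_
    rw [List.getD_cons_succ, show k + 1 + j + 1 = k + (j + 1) + 1 by ring]

theorem hasDerivAt_sumL (l : List ℚ) (k : ℕ) (y : ℝ) :
    HasDerivAt (fun t => sumL (fun j => ev j t) l k) (sumL (fun j => ed j y) l k) y := by
  induction l generalizing k with
  | nil => exact hasDerivAt_const y (0 : ℝ)
  | cons q l ih => exact ((hasDerivAt_ev (k + 1) y).const_mul (q : ℝ)).add (ih (k + 1))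

theorem qgo_ode {b : ℚ} (hb : b ≠ 0) (y R : ℝ) (k : ℕ) (a1 a2 : ℚ) (acc : List ℚ)
    (h : sumL (fun j => ed j y) acc k - a1 * ed (k - 1) y - a2 * ed k y =
      k * a1 * ev k y - b * sumL (fun j => ev j y) acc k + R) :
    sumL (fun j => ed j y) (qgo b k a1 a2 acc) 0 =
      R - b * sumL (fun j => ev j y) (qgo b k a1 a2 acc) 0 := by
  induction k generalizing a1 a2 acc with
  | zero =>
    simp only [qgo]
    simp only [Nat.zero_sub, ed_zero, ev_zero] at h
    linarith
  | succ k ih =>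
    simp only [qgo]
    apply ih
    simp only [sumL]
    have hb' : (b : ℝ) ≠ 0 := by exact_mod_cast hb
    have hq : (b : ℝ) * ((-((k : ℚ) + 1) * a1 / b : ℚ) : ℝ) = -((k : ℝ) + 1) * a1 := by
      push_cast
      field_simp
    have h1 := ed_sub' k y
    rw [Nat.add_sub_cancel] at h
    rw [Rat.cast_add]
    set q : ℝ := ((-((k : ℚ) + 1) * a1 / b : ℚ) : ℝ)
    push_cast at h
    linear_combination h + ((a2 : ℝ) + q) * h1 + ev (k + 1) y * hq

theorem qcoef_ode {b : ℚ} (hb : b ≠ 0) (K : ℕ) (y : ℝ) :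
    sumL (fun j => ed j y) (qcoef b K) 0 =
      b * ev (K + 1) y - b * sumL (fun j => ev j y) (qcoef b K) 0 := by
  apply qgo_ode hb
  simp only [sumL]
  have := ed_sub' K y
  push_cast
  linear_combination this

theorem qgo_length (b : ℚ) (k : ℕ) (a1 a2 : ℚ) (acc : List ℚ) :
    (qgo b k a1 a2 acc).length = k + acc.length := by
  induction k generalizing a1 a2 acc with
  | zero => simp [qgo]
  | succ k ih => rw [qgo, ih, List.length_cons]; ring

theorem qcoef_length (b : ℚ) (K : ℕ) : (qcoef b K).length = K + 1 := by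
  rw [qcoef, qgo_length]; rfl

theorem evalU_cast (y : ℚ) (l : List ℚ) (k : ℕ) (u u' : ℚ) (hu : (u : ℝ) = ev (k + 1) y)
    (hu' : (u' : ℝ) = ev k y) : ((evalU y l u u' : ℚ) : ℝ) = sumL (fun j => ev j y) l k := by
  induction l generalizing k u u' with
  | nil => simp [evalU, sumL]
  | cons q l ih =>
    rw [evalU, sumL, Rat.cast_add, Rat.cast_mul, hu, ih (k + 1) _ _ ?_ hu]
    rw [ev_succ, ← hu, ← hu']
    push_cast
    ring

theorem le_of_deriv {f f' : ℝ → ℝ} (hf : ∀ t, HasDerivAt f (f' t) t) {a c : ℝ} (hac : a ≤ c)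
    (h : ∀ t, a ≤ t → t ≤ c → f' t ≤ 0) : f c ≤ f a := by
  have := antitoneOn_of_deriv_nonpos (convex_Icc a c)
    (fun t _ => (hf t).continuousAt.continuousWithinAt)
    (fun t _ => (hf t).differentiableAt.differentiableWithinAt)
    (fun t ht => by
      rw [(hf t).deriv]
      have := interior_subset ht
      exact h t this.1 this.2)
  exact this (Set.left_mem_Icc.2 hac) (Set.right_mem_Icc.2 hac) hac

theorem ode_bound {p u : ℝ → ℝ} {b C y0 y : ℝ} (hb : 0 < b) (hC : 0 ≤ C)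
    (hp : ∀ t, HasDerivAt p (b * u t - b * p t) t) (hy : y0 ≤ y)
    (hu : ∀ t, y0 ≤ t → t ≤ y → u t ≤ C) : p y - p y0 * Real.exp (-b * (y + -y0)) ≤ C := by
  have h1 : ∀ t, HasDerivAt (fun t => Real.exp (b * t) * (p t - C))
      (Real.exp (b * t) * (b * (u t - C))) t := by
    intro t
    have h3 : HasDerivAt (fun t => Real.exp (b * t) * (p t - C))
        (Real.exp (b * t) * (b * 1) * (p t - C) + Real.exp (b * t) * (b * u t - b * p t)) t :=
      (((hasDerivAt_id' t).const_mul b).exp).mul ((hp t).sub_const C)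
    exact h3.congr_deriv (by ring)
  have h2 := le_of_deriv h1 hy fun t h1 h2 =>
    mul_nonpos_of_nonneg_of_nonpos (Real.exp_pos _).le
      (mul_nonpos_of_nonneg_of_nonpos hb.le (sub_nonpos.2 (hu t h1 h2)))
  have h3 : Real.exp (b * y0) = Real.exp (b * y) * Real.exp (-b * (y + -y0)) := by
    rw [← Real.exp_add]; congr 1; ring
  rw [h3, mul_assoc] at h2
  have h4 := le_of_mul_le_mul_left h2 (Real.exp_pos _)
  have h5 := mul_nonneg (Real.exp_pos (-b * (y + -y0))).le hC
  nlinarith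

theorem scalar_bound {b : ℚ} (hb : 0 < b) (K : ℕ) {y0 y : ℝ} (h0 : -2 ≤ y0) (hy : y0 ≤ y)
    (h2 : y ≤ 2) :
    |sumL (fun j => ev j y0) (qcoef b K) 0 * Real.exp (-(b : ℝ) * (y + -y0)) -
      sumL (fun j => ev j y) (qcoef b K) 0| ≤ (K : ℝ) + 1 := by
  have hb' : (0 : ℝ) < b := by exact_mod_cast hb
  have hp : ∀ t, HasDerivAt (fun t => sumL (fun j => ev j t) (qcoef b K) 0)
      (b * ev (K + 1) t - b * sumL (fun j => ev j t) (qcoef b K) 0) t := fun t => by
    rw [← qcoef_ode hb.ne']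
    exact hasDerivAt_sumL _ _ _
  have hu : ∀ t, y0 ≤ t → t ≤ y → |ev (K + 1) t| ≤ (K : ℝ) + 1 := fun t h1 h3 => by
    have := abs_ev_le (K + 1) (y := t) (abs_le.2 ⟨by linarith, by linarith⟩)
    push_cast at this
    exact this
  have hC : (0 : ℝ) ≤ (K : ℝ) + 1 := by positivity
  have e1 := ode_bound hb' hC hp hy fun t h1 h3 => (abs_le.1 (hu t h1 h3)).2
  have e2 := ode_bound (p := fun t => -sumL (fun j => ev j t) (qcoef b K) 0)
    (u := fun t => -ev (K + 1) t) hb' hC
      (fun t => (hp t).fun_neg.congr_deriv (by ring)) hy fun t h1 h3 => by have := (abs_le.1 (hu t h1 h3)).1; linarith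
  rw [abs_le]
  constructor <;> linarith

variable {ι : Type} [Fintype ι] [DecidableEq ι]

theorem chU_conj (U : Matrix ι ι ℂ) (hU : star U * U = 1) (hU' : U * star U = 1) (d : ι → ℝ)
    (k : ℕ) : chU (U * Matrix.diagonal (fun i => ((d i : ℝ) : ℂ)) * star U) k =
      U * Matrix.diagonal (fun i => ((ev (k + 1) (d i) : ℝ) : ℂ)) * star U := by
  induction k using Nat.twoStepInduction with
  | zero => simp [chU, ev_one, hU']
  | one =>
    have : ∀ y, ev (1 + 1) y = y := fun y => by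
      simp [show ev (1 + 1) y = _ from ev_succ 0 y, ev_zero, ev_one]
    simp only [chU, this]
  | more k h1 h2 =>
    rw [chU, h1, h2]
    calc _ = U * (Matrix.diagonal (fun i => ((d i : ℝ) : ℂ)) * (star U * U) *
          Matrix.diagonal (fun i => ((ev (k + 1 + 1) (d i) : ℝ) : ℂ)) -
          Matrix.diagonal (fun i => ((ev (k + 1) (d i) : ℝ) : ℂ))) * star U := by
          simp only [Matrix.mul_sub, Matrix.sub_mul, Matrix.mul_assoc]
      _ = _ := by
          rw [hU, Matrix.mul_one, Matrix.diagonal_mul_diagonal, Matrix.diagonal_sub]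
          congr 3
          funext i
          rw [show ev (k + 2 + 1) (d i) = _ from ev_succ (k + 1) (d i)]
          push_cast
          ring

theorem trace_cj (G U : Matrix ι ι ℂ) (d : ι → ℝ) :
    (G * (U * Matrix.diagonal (fun i => ((d i : ℝ) : ℂ)) * star U)).trace.re =
      ∑ i, ((star U * G * U) i i).re * d i := by
  have : (G * (U * Matrix.diagonal (fun i => ((d i : ℝ) : ℂ)) * star U)).trace =
      (star U * G * U * Matrix.diagonal (fun i => ((d i : ℝ) : ℂ))).trace := by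
    rw [← Matrix.mul_assoc, Matrix.trace_mul_comm]
    simp only [Matrix.mul_assoc]
  rw [this, Matrix.trace, Complex.re_sum]
  refine Finset.sum_congr rfl fun i _ => ?_
  rw [Matrix.diag_apply, Matrix.mul_diagonal, Complex.re_mul_ofReal]

theorem abs_diag_le {W : Matrix ι ι ℂ} (hW : Wᴴ * W = 1) (i : ι) : |(W i i).re| ≤ 1 := by
  have h1 : ∑ j, Complex.normSq (W j i) = 1 := by
    have := congrArg Complex.re (congrFun (congrFun hW i) i)
    rw [Matrix.mul_apply, Complex.re_sum] at this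
    simp only [Matrix.one_apply_eq, Complex.one_re] at this
    rw [← this]
    refine Finset.sum_congr rfl fun j _ => ?_
    rw [Matrix.conjTranspose_apply, Complex.star_def, ← Complex.normSq_eq_conj_mul_self,
      Complex.ofReal_re]
  have h2 : Complex.normSq (W i i) ≤ 1 := by
    rw [← h1]
    exact Finset.single_le_sum (f := fun j => Complex.normSq (W j i))
      (fun j _ => Complex.normSq_nonneg _) (Finset.mem_univ i)
  have h3 := Complex.re_sq_le_normSq (W i i)
  rw [abs_le]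
  constructor <;> nlinarith

theorem eig_mem {A : Matrix ι ι ℂ} (hA : A.IsHermitian) {lo hi : ℝ} (hS : Spec A lo hi) (i : ι) :
    lo ≤ hA.eigenvalues i ∧ hA.eigenvalues i ≤ hi := by
  set U : Matrix ι ι ℂ := (hA.eigenvectorUnitary : Matrix ι ι ℂ) with hUdef
  have hU : star U * U = 1 := hA.eigenvectorUnitary.2.1
  have hU' : U * star U = 1 := hA.eigenvectorUnitary.2.2
  have hl : star U *ᵥ (U *ᵥ Pi.single i 1) = Pi.single i 1 := by
    rw [Matrix.mulVec_mulVec, hU, Matrix.one_mulVec]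
  have key : ∀ d : ι → ℂ, star (U *ᵥ Pi.single i 1) ⬝ᵥ
      ((U * Matrix.diagonal d * star U) *ᵥ (U *ᵥ Pi.single i 1)) = d i := by
    intro d
    rw [conj_diag_form, hl, Finset.sum_eq_single i]
    · simp
    · intro j _ hj
      simp [Pi.single_eq_of_ne hj]
    · intro h; exact absurd (Finset.mem_univ i) h
  have h1 := key fun _ => 1
  rw [Matrix.diagonal_one, Matrix.mul_one, hU', Matrix.one_mulVec] at h1
  have h2 := key fun k => ((hA.eigenvalues k : ℝ) : ℂ)
  rw [← spec_eq hA] at h2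
  have h3 := hS (U *ᵥ Pi.single i 1)
  rw [h1, h2] at h3
  simpa using h3

theorem dotQ_eq (q : List ℚ) (V : List ℤ) (h : q.length = V.length) :
    dotQ q V = ∑ k ∈ Finset.range q.length, q.getD k 0 * (V.getD k 0 : ℤ) := by
  induction q generalizing V with
  | nil => simp [dotQ]
  | cons a q ih =>
    cases V with
    | nil => simp at h
    | cons v V =>
      rw [dotQ, ih V (by simpa using h), List.length_cons, Finset.sum_range_succ', add_comm]
      simp

theorem absSum_eq (q : List ℚ) : absSum q = ∑ k ∈ Finset.range q.length, |q.getD k 0| := by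
  induction q with
  | nil => simp [absSum]
  | cons a q ih =>
    rw [List.length_cons, Finset.sum_range_succ', add_comm]
    simp only [List.getD_cons_zero, List.getD_cons_succ]
    rw [← ih]
    simp [absSum]

end ExpA

open ExpA

variable {ι : Type} [Fintype ι] [DecidableEq ι]

/-- In the eigenbasis of `A` (eigenvalues in `[y0, 2]`), `p0 • boltz - ∑ q_k chU k = U diag(r) U†` with
`|r| ≤ K+1`, and `|tr (G U diag r U†)| ≤ ∑ |r|` because `U† G U` is unitary (entries of norm `≤ 1`). -/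
theorem exp_approx {A G : Matrix ι ι ℂ} (hA : A.IsHermitian) {b y0 : ℚ} (hb : 0 < b)
    (hy : -2 ≤ y0) (hS : Spec A y0 2) (hG : Gᴴ * G = 1) (K : ℕ) :
    |(evalU y0 (qcoef b K) 1 0 : ℚ) * (G * boltz A (-(y0 : ℝ)) b).trace.re -
      ∑ k ∈ Finset.range (K + 1), ((qcoef b K).getD k 0 : ℚ) * (G * chU A k).trace.re| ≤
      Fintype.card ι * ((K : ℝ) + 1) := by
  set U : Matrix ι ι ℂ := (hA.eigenvectorUnitary : Matrix ι ι ℂ) with hUdef
  have hU : star U * U = 1 := hA.eigenvectorUnitary.2.1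
  have hU' : U * star U = 1 := hA.eigenvectorUnitary.2.2
  have hW : (star U * G * U)ᴴ * (star U * G * U) = 1 := by
    rw [← Matrix.star_eq_conjTranspose, star_mul, star_mul, star_star,
      Matrix.star_eq_conjTranspose G]
    calc star U * (Gᴴ * U) * (star U * G * U) = star U * (Gᴴ * (U * star U) * G) * U := by
          simp only [Matrix.mul_assoc]
      _ = 1 := by rw [hU', Matrix.mul_one, hG, Matrix.mul_one, hU]
  have hch : ∀ k, (G * chU A k).trace.re =
      ∑ i, ((star U * G * U) i i).re * ev (k + 1) (hA.eigenvalues i) := by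
    intro k
    have := chU_conj U hU hU' hA.eigenvalues k
    rw [← spec_eq hA] at this
    rw [this, trace_cj]
  have hy' : (-2 : ℝ) ≤ y0 := by exact_mod_cast hy
  rw [boltz_spectral hA, trace_cj, evalU_cast y0 _ 0 1 0 (by simp [ev_one]) (by simp [ev_zero])]
  simp only [hch, Finset.mul_sum]
  rw [Finset.sum_comm, ← Finset.sum_sub_distrib]
  refine (Finset.abs_sum_le_sum_abs _ _).trans ?_
  rw [← nsmul_eq_mul, ← Finset.card_univ]
  refine Finset.sum_le_card_nsmul _ _ _ fun i _ => ?_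
  have h1 := scalar_bound hb K hy' (eig_mem hA hS i).1 (eig_mem hA hS i).2
  have h2 := abs_diag_le hW i
  rw [sumL_eq (fun j => ev j (hA.eigenvalues i)), qcoef_length] at h1
  have h3 : sumL (fun j => ev j (y0 : ℝ)) (qcoef b K) 0 * (((star U * G * U) i i).re *
      Real.exp (-(b : ℝ) * (hA.eigenvalues i + -(y0 : ℝ)))) -
      ∑ k ∈ Finset.range (K + 1), (((qcoef b K).getD k 0 : ℚ) : ℝ) *
        (((star U * G * U) i i).re * ev (k + 1) (hA.eigenvalues i)) =
      ((star U * G * U) i i).re * (sumL (fun j => ev j (y0 : ℝ)) (qcoef b K) 0 *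
        Real.exp (-(b : ℝ) * (hA.eigenvalues i + -(y0 : ℝ))) -
        ∑ k ∈ Finset.range (K + 1), (((qcoef b K).getD k 0 : ℚ) : ℝ) *
          ev (0 + k + 1) (hA.eigenvalues i)) := by
    rw [mul_sub, Finset.mul_sum]
    congr 1
    · ring
    · refine Finset.sum_congr rfl fun k _ => ?_
      rw [zero_add]; ring
  rw [h3, abs_mul]
  exact (mul_le_mul h2 h1 (abs_nonneg _) zero_le_one).trans (by rw [one_mul])

theorem near_of_mom {A G : Matrix ι ι ℂ} (hA : A.IsHermitian) {y0 : ℚ} (hS : Spec A y0 2)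
    (hG : Gᴴ * G = 1) {F err : ℕ} {V : List ℤ} (hM : Eng.Mom A G F V err) {card : ℕ}
    (hcard : Fintype.card ι = card) {b κ z δ : ℚ} (hc : NearOK V F err card b y0 κ z δ) :
    |(κ : ℝ) * (G * boltz A (-(y0 : ℝ)) b).trace.re - z| ≤ δ := by
  obtain ⟨hb, hy, hκ, hV, hp, hδ⟩ := hc
  obtain ⟨K, hK⟩ : ∃ K, V.length = K + 1 := ⟨V.length - 1, by omega⟩
  have hK' : V.length - 1 = K := by omega
  rw [hK'] at hp hδ
  have h1 := exp_approx hA hb hy hS hG K
  rw [dotQ_eq _ _ (by rw [qcoef_length, hK]), absSum_eq, qcoef_length, hK] at hδ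
  have hδ' := (Rat.cast_le (K := ℝ)).2 hδ
  have hp' : (0 : ℝ) < (evalU y0 (qcoef b K) 1 0 : ℚ) := by exact_mod_cast hp
  have hκ' : (0 : ℝ) ≤ κ := by exact_mod_cast hκ
  push_cast at hδ'
  rw [hcard] at h1
  set p0 : ℝ := ((evalU y0 (qcoef b K) 1 0 : ℚ) : ℝ)
  set T : ℝ := (G * boltz A (-(y0 : ℝ)) b).trace.re
  set S : ℝ := ∑ k ∈ Finset.range (K + 1), ((qcoef b K).getD k 0 : ℚ) * (G * chU A k).trace.re
    with hSdef
  set D : ℝ := ∑ k ∈ Finset.range (K + 1), (((qcoef b K).getD k 0 : ℚ) : ℝ) * ((V.getD k 0 : ℤ) : ℝ)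
    with hD
  set B : ℝ := ∑ k ∈ Finset.range (K + 1), |(((qcoef b K).getD k 0 : ℚ) : ℝ)| with hB
  have hF : (0 : ℝ) < 2 ^ F := by positivity
  have h2 : |(2 : ℝ) ^ F * S - D| ≤ err * B := by
    rw [hSdef, hD, hB, Finset.mul_sum, Finset.mul_sum, ← Finset.sum_sub_distrib]
    refine (Finset.abs_sum_le_sum_abs _ _).trans (Finset.sum_le_sum fun k hk => ?_)
    have := hM k (by rw [hK]; exact Finset.mem_range.1 hk)
    rw [show (2 : ℝ) ^ F * ((((qcoef b K).getD k 0 : ℚ) : ℝ) * (G * chU A k).trace.re) -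
        (((qcoef b K).getD k 0 : ℚ) : ℝ) * ((V.getD k 0 : ℤ) : ℝ) =
        ((2 : ℝ) ^ F * (G * chU A k).trace.re - ((V.getD k 0 : ℤ) : ℝ)) *
          (((qcoef b K).getD k 0 : ℚ) : ℝ) by ring, abs_mul]
    exact mul_le_mul_of_nonneg_right this (abs_nonneg _)
  have h3 : |S - D / 2 ^ F| ≤ err * B / 2 ^ F := by
    rw [le_div_iff₀ hF, ← abs_of_pos hF, ← abs_mul, abs_of_pos hF]
    refine le_trans (le_of_eq ?_) h2
    congr 1
    field_simp
  have h4 : |p0 * T - D / 2 ^ F| ≤ card * ((K : ℝ) + 1) + err * B / 2 ^ F :=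
    (abs_sub_le _ S _).trans (add_le_add h1 h3)
  have h5 : (κ : ℝ) * T - z =
      ((κ : ℝ) * (D / 2 ^ F) / p0 - z) + κ * (p0 * T - D / 2 ^ F) / p0 := by
    field_simp
    ring
  rw [h5]
  refine (abs_add_le _ _).trans (le_trans (add_le_add le_rfl ?_) hδ')
  rw [abs_div, abs_mul, abs_of_nonneg hκ', abs_of_pos hp']
  exact div_le_div_of_nonneg_right (mul_le_mul_of_nonneg_left h4 hκ') hp'.le

/-- rescaling: `b (A - y0) = β (H + c)` -/
theorem boltz_affine (H : Matrix ι ι ℂ) {a m c0 c β b y0 : ℝ} (h1 : b * (a * m) = β)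
    (h2 : -y0 = a * (m * c + c0)) :
    boltz ((a : ℂ) • ((m : ℂ) • H - (c0 : ℂ) • 1)) (-y0) b = boltz H c β := by
  unfold boltz
  rw [h2, ← h1]
  congr 1
  push_cast
  module

end Crest.Agent.R347
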