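import Crest.Agent.R347.Moments2

/-!
# Row 347: the moment lists, added up job by job
-/

set_option autoImplicit false

namespace Crest.Agent.R347.Eng

/-- the weighted sums of the outputs of the jobs -/
def fastL (s n : ℕ) (ps : List (ℤ × Job)) : List ℤ :=
  ps.foldr (fun p acc => List.zipWith
    (fun a x => p.1 * ((a.1 : ℤ) - 2 ^ (p.2.w - 1 - s) * wsum p.2.l1) + x) p.2.e acc) (List.replicate n 0)

theorem fastL_eq (s n : ℕ) (ps : List (ℤ × Job)) (h : (ps.all fun p => p.2.e.length == n) = true) :
    (List.range n).map (fun k => (ps.map fun p => p.1 * p.2.val1 s k).sum) = fastL s n ps := by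
  induction ps with
  | nil => simp [fastL]
  | cons p ps ih =>
    simp only [List.all_cons, Bool.and_eq_true, beq_iff_eq] at h
    have e : fastL s n (p :: ps) = List.zipWith
        (fun a x => p.1 * ((a.1 : ℤ) - 2 ^ (p.2.w - 1 - s) * wsum p.2.l1) + x) p.2.e (fastL s n ps) := rfl
    rw [e, ← ih h.2]
    refine List.ext_getElem (by simp [h.1]) fun k h1 h2 => ?_
    have hk : k < p.2.e.length := by simpa [h.1] using h1
    simp [Job.val1, List.getD_eq_getElem?_getD, List.getElem?_eq_getElem hk]

/-- all jobs, with the coefficients `σ lo chi` -/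
def pairs (σ : ℕ → ℕ → ℤ) (ss : List Sec) : List (ℤ × Job) :=
  ss.flatMap fun S => S.blks.flatMap fun b => b.2.map fun J => (σ S.lo b.1, J)

theorem pairs_sum (σ : ℕ → ℕ → ℤ) (ss : List Sec) (s k : ℕ) :
    ((pairs σ ss).map fun p => p.1 * p.2.val1 s k).sum =
      (ss.map fun S => (S.blks.map fun b => σ S.lo b.1 * (b.2.map fun J => J.val1 s k).sum).sum).sum := by
  have h : ∀ {α : Type} (l : List α) (f : α → List (ℤ × Job)) (g : ℤ × Job → ℤ),
      ((l.flatMap f).map g).sum = (l.map fun a => ((f a).map g).sum).sum := by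
    intro α l f g
    induction l with
    | nil => rfl
    | cons a l ih => simp [ih]
  unfold pairs
  rw [h]
  congr 2
  funext S
  rw [h]
  congr 2
  funext b
  rw [List.map_map, ← List.sum_map_mul_left]
  rfl

noncomputable def sX (L lo chi : ℕ) : ℤ := if lo = L then (-1) ^ L * if bit chi 2 then -1 else 1 else 0

variable {ss : List Sec} {L s n : ℕ} {V : List ℤ}

theorem tot1_fast (h : ((pairs (fun _ _ => 1) ss).all fun p => p.2.e.length == n) = true)
    (e : fastL s n (pairs (fun _ _ => 1) ss) = V) : (List.range n).map (tot1 ss s) = V := by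
  rw [← e, ← fastL_eq s n _ h]
  congr 1
  funext k
  simp only [pairs_sum, tot1, Sec.v1, one_mul]

theorem totZ_fast (h : ((pairs (fun lo _ => (-1) ^ (L + lo)) ss).all fun p => p.2.e.length == n) = true)
    (e : fastL s n (pairs (fun lo _ => (-1) ^ (L + lo)) ss) = V) :
    (List.range n).map (totZ ss L s) = V := by
  rw [← e, ← fastL_eq s n _ h]
  congr 1
  funext k
  simp only [pairs_sum, totZ, Sec.v1, List.sum_map_mul_left]

theorem totX_fast (h : ((pairs (sX L) ss).all fun p => p.2.e.length == n) = true)
    (e : fastL s n (pairs (sX L) ss) = V) : (List.range n).map (totX ss L s) = V := by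
  rw [← e, ← fastL_eq s n _ h]
  congr 1
  funext k
  rw [pairs_sum, totX, ← List.sum_map_mul_left]
  congr 2
  funext S
  by_cases hS : S.lo = L
  · simp only [sX, if_pos hS, Sec.vX, ← List.sum_map_mul_left, mul_assoc]
  · simp [sX, hS]

end Crest.Agent.R347.Eng
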