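import Crest.Agent.R347.Covar
import Crest.Agent.R347.PS

/-!
# Row 347: power sums in the temperature direction   (task R347/HSide)

You may use `SpinAlg`, `Tens`, `Sector`, `Covar` (other tasks).  Apply `sector4` (with `l = 0`) to
`T = η^L • boltz (ringH L g) (3L/2) (1/2)` (positive semidefinite; `T^j = (η^L)^j • boltz … (j/2)`),
`ρ h = tens L (rot h)`, then `Zr_cases`.
-/

set_option autoImplicit false
set_option linter.unusedSimpArgs false

namespace Crest.Agent.R347

open Crest.MathPhysics.SpinChain Matrix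

theorem hside_eta_pos : (0 : ℝ) < (eta : ℝ) := by
  unfold eta
  norm_num

theorem hside_finP_congr {φ ψ : ℕ → ℝ} (h : FinP φ) (e : ∀ j, φ j = ψ j) : FinP ψ := by
  rwa [← funext e]

open scoped ComplexOrder in
theorem Zr_sector (L : ℕ) (g a : Aux) : FinP fun j => (Zr L g none j +
    (sgn (some 0) a : ℝ) * Zr L g (some 0) j + (sgn (some 1) a : ℝ) * Zr L g (some 1) j +
    (sgn (some 2) a : ℝ) * Zr L g (some 2) j) / 4 := by
  have hρ := tens_rep L rot_rep
  have hB := boltz_posSemidef (ringH_herm L g) (3 * L / 2) (1 / 2)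
  have hT : ((((eta : ℝ) ^ L : ℝ) : ℂ) • boltz (ringH L g) (3 * L / 2) (1 / 2)).PosSemidef :=
    hB.smul (Complex.zero_le_real.2 (pow_pos hside_eta_pos L).le)
  have hsq : ∀ h, tens L (rot h) * tens L (rot h) = 1 := fun h => by
    rw [hρ.mul, gmul_self, hρ.one]
  have hc : ∀ h, tens L (rot h) * boltz (ringH L g) (3 * L / 2) (1 / 2) =
      boltz (ringH L g) (3 * L / 2) (1 / 2) * tens L (rot h) := fun h => by
    have := boltz_conj (hsq h) (rot_comm_ringH L g h) (3 * L / 2) (1 / 2)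
    conv_rhs => rw [← this, mul_assoc, hsq, mul_one]
  have hZ : ∀ h j, (tens L (rot h) *
      ((((eta : ℝ) ^ L : ℝ) : ℂ) • boltz (ringH L g) (3 * L / 2) (1 / 2)) ^ j).trace.re =
        Zr L g h j := fun h j => by
    rw [smul_pow, ← boltz_pow, Matrix.mul_smul, Matrix.trace_smul, ← Complex.ofReal_pow,
      smul_eq_mul, Complex.re_ofReal_mul, Zr]
  obtain ⟨x, w, -, hx, h1, -⟩ := sector4 hρ _ hT.isHermitian
    (fun h => by rw [Matrix.mul_smul, Matrix.smul_mul, hc]) a 0 (fun h => by simp)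
  refine ⟨Cfg L, inferInstance, x, hx hT, fun j hj => ?_⟩
  have h0 := hZ none j
  rw [hρ.one, one_mul] at h0
  rw [← h1 j hj, h0, hZ, hZ, hZ]

theorem Zr_pos (L : ℕ) (g : Aux) (j : ℕ) : 0 < Zr L g none j := by
  have h1 := (tens_rep L rot_rep).one
  rw [Zr, h1, one_mul, boltz_trace (ringH_herm L g)]
  exact mul_pos (pow_pos (pow_pos hside_eta_pos _) _)
    (Finset.sum_pos (fun _ _ => Real.exp_pos _) Finset.univ_nonempty)

theorem Zo_pos (k : ℕ) (s s' : ℝ) (j : ℕ) : 0 < Zo k s s' j := by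
  rw [Zo, boltz_trace (openH_herm _ s s')]
  exact mul_pos (pow_pos (pow_pos hside_eta_pos _) _)
    (Finset.sum_pos (fun _ _ => Real.exp_pos _) Finset.univ_nonempty)

theorem Zo_finP (k : ℕ) (s s' : ℝ) : FinP fun j => Zo k s s' j := by
  refine ⟨Cfg (k + 1 + 1), inferInstance, fun p => (eta : ℝ) ^ (k + 2) * Real.exp (-(1 / 2) *
    ((openH_herm (k + 1) s s').eigenvalues p + (3 * ((k : ℝ) + 2) / 2 + 1 / 5))),
    fun p => (mul_pos (pow_pos hside_eta_pos _) (Real.exp_pos _)).le, fun j _ => ?_⟩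
  dsimp only
  rw [Zo, boltz_trace (openH_herm _ s s'), Finset.mul_sum]
  refine Finset.sum_congr rfl fun p _ => ?_
  rw [mul_pow, ← Real.exp_nat_mul]
  congr 2
  ring

theorem finP_P0 (L : ℕ) : FinP fun j => (Zr L none none j + 3 * Zr L none (some 2) j) / 4 := by
  refine hside_finP_congr (Zr_sector L none none) fun j => ?_
  obtain ⟨h1, h2, -, -, h5, -, -⟩ := Zr_cases L j
  simp [sgn, h1, h2, h5]
  ring

theorem finP_P1 (L : ℕ) : FinP fun j => (Zr L none none j - Zr L none (some 2) j) / 4 := by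
  refine hside_finP_congr (Zr_sector L none (some 0)) fun j => ?_
  obtain ⟨h1, h2, -, -, h5, -, -⟩ := Zr_cases L j
  simp [sgn, h1, h2, h5]
  ring

theorem finP_Q0 (L : ℕ) : FinP fun j => (Zr L (some 2) none j + Zr L (some 2) (some 2) j -
    2 * -Zr L (some 2) (some 0) j) / 4 := by
  refine hside_finP_congr (Zr_sector L (some 2) none) fun j => ?_
  obtain ⟨h1, h2, -, -, h5, -, -⟩ := Zr_cases L j
  simp [sgn, h1, h2, h5]
  ring

theorem finP_Qz (L : ℕ) : FinP fun j => (Zr L (some 2) none j + Zr L (some 2) (some 2) j +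
    2 * -Zr L (some 2) (some 0) j) / 4 := by
  refine hside_finP_congr (Zr_sector L (some 2) (some 2)) fun j => ?_
  obtain ⟨h1, h2, -, -, h5, -, -⟩ := Zr_cases L j
  simp [sgn, h1, h2, h5]
  ring

theorem finP_Qx (L : ℕ) : FinP fun j => (Zr L (some 2) none j - Zr L (some 2) (some 2) j) / 4 := by
  refine hside_finP_congr (Zr_sector L (some 2) (some 0)) fun j => ?_
  obtain ⟨h1, h2, -, -, h5, -, -⟩ := Zr_cases L j
  simp [sgn, h1, h2, h5]
  ring

end Crest.Agent.R347
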