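import Crest.Agent.R347.ORules2

/-!
# Row 347: the final doubling induction   (task R347/Induct)

You may use `TopBasic`, `TopPsi`, `SysBasic`, `ORules`, `ORules2` (other tasks).  `Z = Za`; `topZa`, `topZa'` give
`A j ^ i ≤ Z i j`, `C i ^ j ≤ Z i j` and `Top.ratio` in both directions.
-/

set_option autoImplicit false

namespace Crest.Agent.R347

theorem Induct_ratio2 {φ : ℕ → ℝ} {X t : ℝ} (h : Top φ X) {i : ℕ} (hi : 1 ≤ i)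
    (h1 : φ i ≤ (1 + t) * X ^ i) : φ (2 * i) ≤ (1 + t ^ 2) * X ^ (2 * i) :=
  h.ratio hi (by omega) h1 (sq_nonneg t) (by rw [pow_mul])

theorem Induct_ratio4 {φ : ℕ → ℝ} {X ε : ℝ} (h : Top φ X) {i : ℕ} (hi : 1 ≤ i) (h0 : 0 ≤ ε)
    (hε : ε ≤ 1 / 20) (h1 : φ i ≤ (1 + ε) * X ^ i) :
    φ (2 * (2 * i)) ≤ (1 + 10 * ε ^ 2) * X ^ (2 * (2 * i)) := by
  refine h.ratio hi (by omega) h1 (by positivity) ?_
  rw [show 2 * (2 * i) = 4 * i by ring, pow_mul]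
  refine pow_le_pow_left₀ (by positivity) ?_ i
  have h2 : ε ^ 2 ≤ 1 := by nlinarith
  have h3 : 0 ≤ ε ^ 2 := sq_nonneg ε
  calc ε ^ 4 = ε ^ 2 * ε ^ 2 := by ring
    _ ≤ 10 * ε ^ 2 := by nlinarith

theorem Induct_psi {φ : ℕ → ℝ} {X ε K : ℝ} (h : Top φ X) {j : ℕ} (hj : 1 ≤ j) (h0 : 0 < ε)
    (hε : ε ≤ 1 / 20) (hK : φ j ^ 2 ≤ K * φ (2 * j)) (hK1 : K ≤ (1 + ε) ^ 5 * (1 + ε ^ 2)) :
    φ (2 * j) ≤ (1 + 9 * ε ^ 2) * X ^ (2 * j) := by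
  have e2 : ε ^ 2 ≤ ε / 20 := by nlinarith
  have e5 : (1 + ε) ^ 5 ≤ 1 + 5 * ε + 11 * ε ^ 2 := by
    have e3 : ε ^ 3 ≤ ε ^ 2 / 20 := by nlinarith [sq_nonneg ε]
    have e4 : ε ^ 4 ≤ ε ^ 3 / 20 := by nlinarith [pow_pos h0 3]
    have e5 : ε ^ 5 ≤ ε ^ 4 / 20 := by nlinarith [pow_pos h0 4]
    nlinarith [sq_nonneg ε]
  have e6 : (1 + ε ^ 2) * (1 + 9 * ε ^ 2) ≤ 1 + 41 / 4 * ε ^ 2 := by
    have : ε ^ 2 ≤ 1 / 400 := by nlinarith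
    nlinarith [sq_nonneg ε]
  have e7 : (1 + 5 * ε + 11 * ε ^ 2) * (1 + 41 / 4 * ε ^ 2) < (1 + 3 * ε) ^ 2 := by
    have e3 : ε ^ 3 ≤ ε ^ 2 / 20 := by nlinarith [sq_nonneg ε]
    have e4 : ε ^ 4 ≤ ε ^ 3 / 20 := by nlinarith [pow_pos h0 3]
    nlinarith [sq_nonneg ε]
  have hc : K * (1 + (3 * ε) ^ 2) < (1 + 3 * ε) ^ 2 := by
    calc K * (1 + (3 * ε) ^ 2) ≤ (1 + ε) ^ 5 * (1 + ε ^ 2) * (1 + (3 * ε) ^ 2) :=
          mul_le_mul_of_nonneg_right hK1 (by positivity)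
      _ = (1 + ε) ^ 5 * ((1 + ε ^ 2) * (1 + 9 * ε ^ 2)) := by ring
      _ ≤ (1 + 5 * ε + 11 * ε ^ 2) * (1 + 41 / 4 * ε ^ 2) :=
          mul_le_mul e5 e6 (by positivity) (by positivity)
      _ < _ := e7
  have hK2 : K < 2 := by
    by_contra hn
    have hn := not_lt.1 hn
    have : 2 * (1 + (3 * ε) ^ 2) ≤ K * (1 + (3 * ε) ^ 2) :=
      mul_le_mul_of_nonneg_right hn (by positivity)
    nlinarith
  have := Induct_ratio2 h hj (h.psi2 hj hK (by positivity) hc hK2)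
  calc _ ≤ _ := this
    _ = _ := by ring

theorem Induct_key (S : Sys) {i j : ℕ} {ε : ℝ} (hi : 1 ≤ i) (hj : 1 ≤ j) (h0 : 0 ≤ ε)
    (t21 : S.Za (2 * i) j ≤ (1 + ε) * S.C (2 * i) ^ j)
    (s12 : S.Za i (2 * j) ≤ (1 + ε) * S.A (2 * j) ^ i) :
    S.A j ^ (4 * i) ≤ (1 + ε) ^ 2 * (1 + ε ^ 2) * S.A (2 * j) ^ (2 * i) := by
  have hi2 : 1 ≤ 2 * i := by omega
  have hj2 : 1 ≤ 2 * j := by omega
  have a1 : S.A j ^ (2 * i) ≤ (1 + ε) * S.C (2 * i) ^ j :=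
    ((S.topZa hj).pow_le hi2).trans t21
  have a2 : S.C (2 * i) ^ (2 * j) ≤ (1 + ε ^ 2) * S.A (2 * j) ^ (2 * i) :=
    ((S.topZa' hi2).pow_le hj2).trans (Induct_ratio2 (S.topZa hj2) hi s12)
  calc S.A j ^ (4 * i) = (S.A j ^ (2 * i)) ^ 2 := by ring
    _ ≤ ((1 + ε) * S.C (2 * i) ^ j) ^ 2 :=
        pow_le_pow_left₀ (pow_nonneg (S.A_pos hj).le _) a1 2
    _ = (1 + ε) ^ 2 * S.C (2 * i) ^ (2 * j) := by ring
    _ ≤ (1 + ε) ^ 2 * ((1 + ε ^ 2) * S.A (2 * j) ^ (2 * i)) :=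
        mul_le_mul_of_nonneg_left a2 (by positivity)
    _ = _ := by ring

theorem Induct_pure (S : Sys) {i j : ℕ} {ε : ℝ} (hi : 1 ≤ i) (hj : 1 ≤ j) (h0 : 0 < ε)
    (hε : ε ≤ 1 / 20) (t21 : S.Za (2 * i) j ≤ (1 + ε) * S.C (2 * i) ^ j)
    (s12 : S.Za i (2 * j) ≤ (1 + ε) * S.A (2 * j) ^ i)
    (s21 : S.Za (2 * i) j ≤ (1 + ε) * S.A j ^ (2 * i)) :
    S.Za (2 * (2 * i)) (2 * j) ≤ (1 + 9 * ε ^ 2) * S.C (2 * (2 * i)) ^ (2 * j) := by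
  have hi2 : 1 ≤ 2 * i := by omega
  have hi4 : 1 ≤ 2 * (2 * i) := by omega
  have hj2 : 1 ≤ 2 * j := by omega
  have k := Induct_key S hi hj h0.le t21 s12
  have a1 : S.Za (2 * (2 * i)) j ≤ (1 + ε ^ 2) * S.A j ^ (2 * (2 * i)) :=
    Induct_ratio2 (S.topZa hj) hi2 s21
  have a2 : S.A (2 * j) ^ (2 * (2 * i)) ≤ S.Za (2 * (2 * i)) (2 * j) := (S.topZa hj2).pow_le hi4
  refine Induct_psi (K := (1 + ε) ^ 4 * (1 + ε ^ 2) ^ 4) (S.topZa' hi4) hj h0 hε ?_ ?_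
  · have hA := (S.A_pos hj).le
    calc S.Za (2 * (2 * i)) j ^ 2 ≤ ((1 + ε ^ 2) * S.A j ^ (2 * (2 * i))) ^ 2 :=
          pow_le_pow_left₀ (S.pos _ _ hi4 hj).le a1 2
      _ = (1 + ε ^ 2) ^ 2 * (S.A j ^ (4 * i)) ^ 2 := by ring
      _ ≤ (1 + ε ^ 2) ^ 2 * ((1 + ε) ^ 2 * (1 + ε ^ 2) * S.A (2 * j) ^ (2 * i)) ^ 2 :=
          mul_le_mul_of_nonneg_left (pow_le_pow_left₀ (by positivity) k 2) (by positivity)
      _ = (1 + ε) ^ 4 * (1 + ε ^ 2) ^ 4 * S.A (2 * j) ^ (2 * (2 * i)) := by ring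
      _ ≤ _ := mul_le_mul_of_nonneg_left a2 (by positivity)
  · have e1 : (1 + ε ^ 2) ^ 3 ≤ 1 + ε := by
      have e2 : ε ^ 2 ≤ ε / 20 := by nlinarith
      have e3 : ε ^ 2 ≤ 1 / 400 := by nlinarith
      have e4 : 0 ≤ ε ^ 2 := sq_nonneg ε
      have e5 : (ε ^ 2) ^ 2 ≤ ε ^ 2 := by nlinarith
      have e6 : (ε ^ 2) ^ 3 ≤ ε ^ 2 := by nlinarith
      nlinarith
    calc (1 + ε) ^ 4 * (1 + ε ^ 2) ^ 4 = (1 + ε) ^ 4 * (1 + ε ^ 2) * (1 + ε ^ 2) ^ 3 := by ring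
      _ ≤ (1 + ε) ^ 4 * (1 + ε ^ 2) * (1 + ε) := mul_le_mul_of_nonneg_left e1 (by positivity)
      _ = _ := by ring

namespace OSys

variable {O : OSys} {i j : ℕ} {ε : ℝ}

/-- `A_j^(2i) ≤ Z(2i,j) ≤ (1+ε) C_{2i}^j` and `C_{2i}^(2j) ≤ Z(2i,2j) ≤ (1+ε²) A_{2j}^(2i)`
(`Top.ratio` from `s12`). -/
theorem St.keyA (h : O.St i j ε) (hi : 1 ≤ i) (hj : 1 ≤ j) (h0 : 0 ≤ ε) :
    O.A j ^ (4 * i) ≤ (1 + ε) ^ 2 * (1 + ε ^ 2) * O.A (2 * j) ^ (2 * i) :=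
  Induct_key O.toSys hi hj h0 h.t21 h.s12

theorem Induct_topo (O : OSys) (n : ℕ) : Top (fun j => O.Ze2 n j) (O.Co n) := O.topo n

theorem Induct_to1 (h : O.St i j ε) (hi : 1 ≤ i) (hj : 1 ≤ j) (h0 : 0 < ε) (h1 : ε ≤ 1 / 20) :
    O.Ze2 (2 * (2 * i)) (2 * j) ≤ (1 + 9 * ε ^ 2) * O.Co (2 * (2 * i)) ^ (2 * j) := by
  have hj2 : 1 ≤ 2 * j := by omega
  have k := h.keyA hi hj h0.le
  have hA := (O.A_pos hj).le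
  have hA2 := (O.A_pos hj2).le
  have hw := O.w_nonneg _ hj2
  have a1 : O.Ze2 (2 * (2 * i)) j ≤ O.A j ^ (2 * i) * ((1 + ε) * O.Co (2 * i) ^ j) := by
    have := Ze2_growth (O := O) hj (2 * i) (2 * i)
    rw [← two_mul] at this
    exact this.trans (mul_le_mul_of_nonneg_left h.to1 (by positivity))
  have a2 : O.Co (2 * i) ^ (2 * j) ≤ (1 + ε) * (O.ω (2 * j) * O.A (2 * j) ^ (2 * i)) :=
    ((Induct_topo O (2 * i)).pow_le hj2).trans h.so2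
  have a3 := top_le_Ze2 (O := O) hj2 (2 * (2 * i))
  have a4 : 0 ≤ O.Ze2 (2 * (2 * i)) j := (Induct_topo O _).toPow.1 j hj
  have hC := (Induct_topo O (2 * i)).nonneg
  refine Induct_psi (Induct_topo O (2 * (2 * i))) hj h0 h1 ?_ le_rfl
  calc O.Ze2 (2 * (2 * i)) j ^ 2 ≤ (O.A j ^ (2 * i) * ((1 + ε) * O.Co (2 * i) ^ j)) ^ 2 :=
        pow_le_pow_left₀ a4 a1 2
    _ = (1 + ε) ^ 2 * (O.A j ^ (4 * i) * O.Co (2 * i) ^ (2 * j)) := by ring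
    _ ≤ (1 + ε) ^ 2 * (((1 + ε) ^ 2 * (1 + ε ^ 2) * O.A (2 * j) ^ (2 * i)) *
          ((1 + ε) * (O.ω (2 * j) * O.A (2 * j) ^ (2 * i)))) :=
        mul_le_mul_of_nonneg_left (mul_le_mul k a2 (by positivity) (by positivity)) (by positivity)
    _ = (1 + ε) ^ 5 * (1 + ε ^ 2) * (O.ω (2 * j) * O.A (2 * j) ^ (2 * (2 * i))) := by ring
    _ ≤ _ := mul_le_mul_of_nonneg_left a3 (by positivity)

theorem Induct_so2 (h : O.St i j ε) (hi : 1 ≤ i) (hj : 1 ≤ j) (h0 : 0 < ε) (h1 : ε ≤ 1 / 20)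
    (s12 : O.Za (2 * i) (2 * (2 * j)) ≤ (1 + 9 * ε ^ 2) * O.A (2 * (2 * j)) ^ (2 * i)) :
    O.Ze2 (2 * (2 * i)) (2 * (2 * j)) ≤
      (1 + 9 * ε ^ 2) * (O.ω (2 * (2 * j)) * O.A (2 * (2 * j)) ^ (2 * (2 * i))) := by
  have hi2 : 1 ≤ 2 * i := by omega
  have hj2 : 1 ≤ 2 * j := by omega
  have hj4 : 1 ≤ 2 * (2 * j) := by omega
  obtain ⟨ρ, hρ, hρp⟩ : ∃ ρ : ℝ, 0 ≤ ρ ∧ ρ ^ (2 * i) = 9 * ε ^ 2 :=
    ⟨(9 * ε ^ 2) ^ (((2 * i : ℕ) : ℝ)⁻¹), by positivity,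
      Real.rpow_inv_natCast_pow (by positivity) (by omega)⟩
  set J := 2 * (2 * j) with hJ
  have hA := (O.A_pos hj4).le
  have hw := O.w_nonneg _ hj4
  have hZ : O.Za (2 * i) J = O.S0 (2 * i) J + 3 * O.S1 (2 * i) J := by
    unfold Sys.S0 Sys.S1
    ring
  have b0 : O.A J ^ (2 * i) ≤ O.S0 (2 * i) J := (O.topS0 hj4).pow_le hi2
  have b1 : O.A1 J ^ (2 * i) ≤ O.S1 (2 * i) J := (O.topS1 hj4).pow_le hi2
  have b2 : 0 ≤ O.S1 (2 * i) J := (O.topS1 hj4).toPow.1 _ hi2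
  have b3 : (ρ * O.A J) ^ (2 * i) = 9 * ε ^ 2 * O.A J ^ (2 * i) := by rw [mul_pow, hρp]
  have h3 : O.S0 (2 * i) J - O.A J ^ (2 * i) ≤ (ρ * O.A J) ^ (2 * i) := by
    rw [b3]
    linarith
  have h4 : O.A1 J ≤ ρ * O.A J := by
    refine le_of_pow_le_pow_left₀ (n := 2 * i) (by omega) (by positivity) ?_
    rw [b3]
    linarith
  have hd : 2 * (2 * i) - 2 * i = 2 * i := by omega
  have e2 : ε ^ 2 ≤ 1 / 400 := by nlinarith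
  have hE : ((1 + ε) * (1 + 9 * ε ^ 2)) ^ 2 ≤ 6 / 5 := by
    have : (1 + ε) * (1 + 9 * ε ^ 2) ≤ 21 / 20 * (409 / 400) :=
      mul_le_mul (by linarith) (by linarith) (by positivity) (by positivity)
    calc _ ≤ (21 / 20 * (409 / 400) : ℝ) ^ 2 := pow_le_pow_left₀ (by positivity) this 2
      _ ≤ _ := by norm_num
  have hE' : ((1 + ε) * (1 + 9 * ε ^ 2)) ^ 2 * (9 * ε ^ 2) ≤ 6 / 5 * (9 / 400) :=
    mul_le_mul hE (by linarith) (by positivity) (by positivity)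
  have o4 : O.Ze2 (2 * i) J ≤ (1 + 1) * (O.ω J * O.A J ^ (2 * i)) := by
    refine O4r (n2 := 2 * (2 * i)) (j0 := 2 * j) (i := 2 * i) (s := ε) (t := 9 * ε ^ 2) (ρ := ρ)
      (E := ((1 + ε) * (1 + 9 * ε ^ 2)) ^ 2) (by omega) hj2 (by omega) hi2 h.so2
      (Induct_to1 h hi hj h0 h1) hρ h3 h4 h0.le (by positivity) (by positivity) ?_ ?_ ?_
    · rw [← pow_mul]
    · rw [hd, hρp]
      linarith
    · rw [hd, hρp]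
      linarith
  have dec := Ze2_decay (O := O) hj4 hρ hi2 h3 h4 (2 * i) (2 * i)
  rw [← two_mul, b3] at dec
  have b4 : 9 * ε ^ 2 * O.A J ^ (2 * i) * (O.Ze2 (2 * i) J - O.ω J * O.A J ^ (2 * i)) ≤
      9 * ε ^ 2 * O.A J ^ (2 * i) * (O.ω J * O.A J ^ (2 * i)) :=
    mul_le_mul_of_nonneg_left (by linarith) (by positivity)
  have b5 : 9 * ε ^ 2 * O.A J ^ (2 * i) * (O.ω J * O.A J ^ (2 * i)) =
      9 * ε ^ 2 * (O.ω J * O.A J ^ (2 * (2 * i))) := by ring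
  linarith

/-- Recipe (`κ = (1+ε)^2 (1+ε²)`; all numerical inequalities hold for `0 ≤ ε ≤ 1/20`, `nlinarith`/
`positivity`; treat `ε = 0` through `0 < ε`).
* `s21'`: `Z(4i,2j) ≤ (1+ε⁴) A^..` and `t12'`: `Z(2i,4j) ≤ (1+ε⁴) C^..` by `Top.ratio`.
* `t21'`: `Z(4i,j) ≤ (1+ε²) A_j^(4i)`, so `Z(4i,j)^2 ≤ (1+ε²)^2 κ^2 A_{2j}^(4i) ≤ K Z(4i,2j)`;
  `Top.psi2` with `z = 3ε`, then `Top.ratio` gives `9ε²` at `2j`.
* `s12'`: the same with the two directions exchanged (`C_i^(4j) ≤ κ C_{2i}^(2j)`), giving `9ε²` for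
  `Z(2i,4j)`.
* `to1'`: `Ze2(4i,j) ≤ A_j^(2i) (1+ε) Co(2i)^j`, `Co(2i)^(2j) ≤ Ze2(2i,2j) ≤ (1+ε) ω A_{2j}^(2i)`, so
  `Ze2(4i,j)^2 ≤ κ (1+ε)^3 ω A_{2j}^(4i) ≤ K Ze2(4i,2j)`; `psi2` with `3ε`, `ratio` gives `9ε²`.
* `so2'`: let `ρ = (9ε²)^(1/(2i))`; from `Z(2i,4j) = S0 + 3 S1 ≤ (1+9ε²) A^(2i)` both
  `S0 - A^(2i) ≤ (ρA)^(2i)` and `A1 ≤ ρ A`.  `O4r` with `n = 2i, n2 = 4i, j0 = 2j, j = 4j`,
  `E = ((1+ε)(1+9ε²))^2`, `s' = 1`; then `Ze2_decay` over `2i` steps gives `9ε²`. -/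
theorem St.step (h : O.St i j ε) (hi : 1 ≤ i) (hj : 1 ≤ j) (h0 : 0 < ε) (h1 : ε ≤ 1 / 20) :
    O.St (2 * i) (2 * j) (10 * ε ^ 2) := by
  have hi2 : 1 ≤ 2 * i := by omega
  have hj2 : 1 ≤ 2 * j := by omega
  have hi4 : 1 ≤ 2 * (2 * i) := by omega
  have hj4 : 1 ≤ 2 * (2 * j) := by omega
  have up : ∀ {a b : ℝ}, 0 ≤ b → a ≤ (1 + 9 * ε ^ 2) * b → a ≤ (1 + 10 * ε ^ 2) * b := by
    intro a b hb hab
    exact hab.trans (mul_le_mul_of_nonneg_right (by nlinarith [sq_nonneg ε]) hb)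
  have s12 : O.Za (2 * i) (2 * (2 * j)) ≤ (1 + 9 * ε ^ 2) * O.A (2 * (2 * j)) ^ (2 * i) :=
    Induct_pure O.toSys.dual hj hi h0 h1 h.s12 h.t21 h.t12
  refine ⟨up (pow_nonneg (O.C_pos hi4).le _) (Induct_pure O.toSys hi hj h0 h1 h.t21 h.s12 h.s21),
    Induct_ratio4 (O.topZa hj2) hi h0.le h1 h.s12, up (pow_nonneg (O.A_pos hj4).le _) s12,
    Induct_ratio4 (O.topZa' hi2) hj h0.le h1 h.t21,
    up (pow_nonneg (Induct_topo O _).nonneg _) (Induct_to1 h hi hj h0 h1),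
    up (mul_nonneg (O.w_nonneg _ hj4) (pow_nonneg (O.A_pos hj4).le _))
      (Induct_so2 h hi hj h0 h1 s12)⟩

end OSys

end Crest.Agent.R347
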