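import Crest.Agent.R347.TopBasic

/-!
# Row 347: the top term survives limits   (task R347/LimTop)

You may use everything in `TopBasic.lean` (proved in another task).

Recipe.  First prove the finite statement: for a `Fintype ι`, `x w : ι → ℝ`, `w ≥ 0`, let `k0`
maximise `|x k|` (if `ι` is empty take `x0 = ω0 = 0`); with `m t = ∑ x^t`, `a t = ∑ w x^t` all fields of
`WSpec` except the last hold for `(x k0, w k0)` (`top_sum` for `x k ^ 2`; for `rest_pow`: every `k ≠ k0`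
has `(x k ^ 2)^i ≤ m (2 i) - x0^(2 i) =: ρ^i`, so `rest (2n+2) ≤ ρ * rest (2n)`), and moreover every `k`
has `x k ^6 (…)^2 ≤ filt`, and `ω0 (x0 + c)(…)^2 ≤ wfilt` as soon as all `x k ≥ -c`.
The pairs `(x0 n, ω0 n)` are bounded (`x0^2 ≤ ∑ x^2`, `ω0 ≤ ∑ w`, both converge), so a subsequence
converges (`tendsto_subseq_of_bounded`, or `IsCompact.tendsto_subseq` on a product of intervals); all
inequalities are closed (`le_of_tendsto_of_tendsto'`).  For `wfilt_ge`: eventually `filt mₙ u' v' < R`,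
so then every `x n k > -c`.
`LimP.top` is `LimW.top` with `w = 0`.
-/

set_option autoImplicit false

namespace Crest.Agent.R347

open Filter Topology

theorem limTop_filt {ι : Type} [Fintype ι] (x : ι → ℝ) (u v : ℝ) :
    filt (fun t => ∑ k, x k ^ t) u v = ∑ k, x k ^ 6 * (x k ^ 2 + u * x k + v) ^ 2 := by
  simp only [filt, Finset.mul_sum, ← Finset.sum_add_distrib]
  exact Finset.sum_congr rfl fun k _ => by ring

theorem limTop_wfilt {ι : Type} [Fintype ι] (x w : ι → ℝ) (c u v : ℝ) :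
    wfilt (fun t => ∑ k, w k * x k ^ t) c u v =
      ∑ k, w k * ((x k + c) * (x k ^ 2 + u * x k + v) ^ 2) := by
  simp only [wfilt, Finset.mul_sum, ← Finset.sum_add_distrib]
  exact Finset.sum_congr rfl fun k _ => by ring

theorem limTop_step {ι : Type} (E : Finset ι) (x w : ι → ℝ) (hw : ∀ k, 0 ≤ w k) {ρ : ℝ}
    (h : ∀ k ∈ E, x k ^ 2 ≤ ρ) (n : ℕ) :
    ∑ k ∈ E, w k * x k ^ (2 * n + 2) ≤ ρ * ∑ k ∈ E, w k * x k ^ (2 * n) := by
  rw [Finset.mul_sum]
  refine Finset.sum_le_sum fun k hk => ?_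
  have h1 : 0 ≤ w k * x k ^ (2 * n) := mul_nonneg (hw k) ((even_two_mul n).pow_nonneg _)
  calc w k * x k ^ (2 * n + 2) = x k ^ 2 * (w k * x k ^ (2 * n)) := by ring
    _ ≤ _ := mul_le_mul_of_nonneg_right (h k hk) h1

/-- the finite statement -/
theorem limTop_fin {ι : Type} [Fintype ι] [Nonempty ι] (x w : ι → ℝ) (hw : ∀ k, 0 ≤ w k) :
    ∃ x0 ω0, WSpec (fun t => ∑ k, x k ^ t) (fun t => ∑ k, w k * x k ^ t) x0 ω0 := by
  classical
  obtain ⟨k0, h0⟩ := Finite.exists_max fun k => |x k|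
  have h2 : ∀ k, x k ^ 2 ≤ x k0 ^ 2 := fun k => sq_le_sq.2 (h0 k)
  set E := Finset.univ.erase k0 with hE
  have hr : ∀ f : ι → ℝ, ∑ k, f k - f k0 = ∑ k ∈ E, f k := fun f => by
    rw [← Finset.add_sum_erase _ f (Finset.mem_univ k0)]; ring
  have hm : ∀ t, ∑ k, x k ^ t - x k0 ^ t = ∑ k ∈ E, x k ^ t := fun t => hr fun k => x k ^ t
  have ha : ∀ t, ∑ k, w k * x k ^ t - w k0 * x k0 ^ t = ∑ k ∈ E, w k * x k ^ t :=
    fun t => hr fun k => w k * x k ^ t
  have hev : ∀ n k, 0 ≤ w k * x k ^ (2 * n) := fun n k =>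
    mul_nonneg (hw k) ((even_two_mul n).pow_nonneg _)
  have hf : ∀ u v k, x k ^ 6 * (x k ^ 2 + u * x k + v) ^ 2 ≤ filt (fun t => ∑ k, x k ^ t) u v := by
    intro u v k
    rw [limTop_filt]
    exact Finset.single_le_sum (f := fun k => x k ^ 6 * (x k ^ 2 + u * x k + v) ^ 2)
      (fun k _ => by positivity) (Finset.mem_univ k)
  refine ⟨x k0, w k0, ?_, fun u v => hf u v k0, hw k0, fun n => ?_, fun n i hi => ?_, fun n => ?_,
    fun n => ?_, fun c u v u' v' R hR hy => ?_⟩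
  · exact (top_sum (fun k => x k ^ 2) (fun k => sq_nonneg _) k0 h2).congr fun i _ => by
      simp only [ev, pow_mul]
  · exact Finset.single_le_sum (f := fun k => w k * x k ^ (2 * n)) (fun k _ => hev n k)
      (Finset.mem_univ k0)
  · simp only [ha, hm]
    rcases E.eq_empty_or_nonempty with h | h
    · simp [h, zero_pow (by omega : i ≠ 0)]
    · obtain ⟨k1, hk1, h1⟩ := Finset.exists_max_image E (fun k => x k ^ 2) h
      have s1 := limTop_step E x w hw h1 n
      have s2 : 0 ≤ ∑ k ∈ E, w k * x k ^ (2 * n + 2) :=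
        Finset.sum_nonneg fun k _ => hev (n + 1) k
      have s3 : 0 ≤ ∑ k ∈ E, w k * x k ^ (2 * n) := Finset.sum_nonneg fun k _ => hev n k
      refine (pow_le_pow_left₀ s2 s1 i).trans ?_
      rw [mul_pow, ← pow_mul]
      exact mul_le_mul_of_nonneg_right (Finset.single_le_sum (f := fun k => x k ^ (2 * i))
        (fun k _ => (even_two_mul i).pow_nonneg _) hk1) (pow_nonneg s3 i)
  · simp only [ha]
    exact limTop_step E x w hw (fun k _ => h2 k) n
  · simp only [ha]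
    refine (Finset.abs_sum_le_sum_abs _ _).trans ?_
    rw [Finset.mul_sum]
    refine Finset.sum_le_sum fun k _ => ?_
    rw [show w k * x k ^ (2 * n + 1) = x k * (w k * x k ^ (2 * n)) by ring, abs_mul,
      abs_of_nonneg (hev n k)]
    exact mul_le_mul_of_nonneg_right (h0 k) (hev n k)
  · rw [limTop_wfilt]
    refine Finset.single_le_sum (f := fun k => w k * ((x k + c) * (x k ^ 2 + u * x k + v) ^ 2))
      (fun k _ => mul_nonneg (hw k) (mul_nonneg ?_ (sq_nonneg _))) (Finset.mem_univ k0)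
    by_contra hk
    have := (hy (x k) (by linarith)).trans (hf u' v' k)
    linarith

/-- `WSpec` is closed under limits -/
theorem limTop_closed {m a : ℕ → ℕ → ℝ} {x ω : ℕ → ℝ} {m' a' : ℕ → ℝ} {x' ω' : ℝ}
    (h : ∀ n, WSpec (m n) (a n) (x n) (ω n))
    (hm : ∀ t, 2 ≤ t → Tendsto (fun n => m n t) atTop (𝓝 (m' t)))
    (ha : ∀ t, Tendsto (fun n => a n t) atTop (𝓝 (a' t))) (hx : Tendsto x atTop (𝓝 x'))
    (hω : Tendsto ω atTop (𝓝 ω')) : WSpec m' a' x' ω' := by
  have hev : ∀ i, 1 ≤ i → Tendsto (fun n => ev (m n) i) atTop (𝓝 (ev m' i)) := fun i hi =>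
    hm (2 * i) (by omega)
  have hr : ∀ i, 1 ≤ i →
      Tendsto (fun n => ev (m n) i - (x n ^ 2) ^ i) atTop (𝓝 (ev m' i - (x' ^ 2) ^ i)) :=
    fun i hi => (hev i hi).sub ((hx.pow 2).pow i)
  have hra : ∀ t, Tendsto (fun n => a n t - ω n * x n ^ t) atTop (𝓝 (a' t - ω' * x' ^ t)) :=
    fun t => (ha t).sub (hω.mul (hx.pow t))
  have hf : ∀ u v, Tendsto (fun n => filt (m n) u v) atTop (𝓝 (filt m' u v)) := fun u v =>
    ((((hm 10 (by norm_num)).add ((hm 9 (by norm_num)).const_mul _)).add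
      ((hm 8 (by norm_num)).const_mul _)).add ((hm 7 (by norm_num)).const_mul _)).add
      ((hm 6 (by norm_num)).const_mul _)
  have hwf : ∀ c u v, Tendsto (fun n => wfilt (a n) c u v) atTop (𝓝 (wfilt a' c u v)) :=
    fun c u v => (((((ha 5).add ((ha 4).const_mul _)).add ((ha 3).const_mul _)).add
      ((ha 2).const_mul _)).add ((ha 1).const_mul _)).add ((ha 0).const_mul _)
  have hq : ∀ u v, Tendsto (fun n => (x n ^ 2 + u * x n + v) ^ 2) atTop
      (𝓝 ((x' ^ 2 + u * x' + v) ^ 2)) := fun u v =>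
    (((hx.pow 2).add (hx.const_mul u)).add_const v).pow 2
  refine ⟨⟨sq_nonneg _, ⟨fun i hi => ?_, fun i i' hi hii => ?_⟩, fun i hi => ?_⟩, fun u v => ?_, ?_,
    fun k => ?_, fun k i hi => ?_, fun k => ?_, fun k => ?_, fun c u v u' v' R hR hy => ?_⟩
  · exact ge_of_tendsto' (hr i hi) fun n => (h n).top.rest.1 i hi
  · exact le_of_tendsto_of_tendsto' ((hr i' (hi.trans hii)).pow i) ((hr i hi).pow i')
      fun n => (h n).top.rest.2 i i' hi hii
  · exact le_of_tendsto_of_tendsto' (hev (i + 1) (by omega)) ((hx.pow 2).mul (hev i hi))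
      fun n => (h n).top.step i hi
  · exact le_of_tendsto_of_tendsto' ((hx.pow 6).mul (hq u v)) (hf u v) fun n => (h n).filt_ge u v
  · exact ge_of_tendsto' hω fun n => (h n).w_nonneg
  · exact le_of_tendsto_of_tendsto' (hω.mul (hx.pow _)) (ha _) fun n => (h n).top_le k
  · exact le_of_tendsto_of_tendsto' ((hra _).pow i)
      (((hm (2 * i) (by omega)).sub (hx.pow _)).mul ((hra _).pow i))
      fun n => (h n).rest_pow k i hi
  · exact le_of_tendsto_of_tendsto' (hra _) ((hx.pow 2).mul (hra _)) fun n => (h n).rest_anti k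
  · exact le_of_tendsto_of_tendsto' (hra _).abs (hx.abs.mul (hra _)) fun n => (h n).rest_odd k
  · refine le_of_tendsto_of_tendsto (hω.mul ((hx.add_const c).mul (hq u v))) (hwf c u v) ?_
    filter_upwards [(hf u' v').eventually (gt_mem_nhds hR)] with n hn
    exact (h n).wfilt_ge c u v u' v' R hn hy

theorem LimW.top {m a : ℕ → ℝ} (h : LimW m a) : ∃ x ω : ℝ, WSpec m a x ω := by
  obtain ⟨ι, inst, x, w, hw, hm, ha⟩ := h
  let x' : ∀ n, Option (ι n) → ℝ := fun n k => k.elim 0 (x n)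
  let w' : ∀ n, Option (ι n) → ℝ := fun n k => k.elim 0 (w n)
  have hw' : ∀ n k, 0 ≤ w' n k := fun n k => by
    cases k with
    | none => exact le_rfl
    | some k => exact hw n k
  choose x0 ω0 h0 using fun n => limTop_fin (x' n) (w' n) (hw' n)
  have hm' : ∀ t, 2 ≤ t → Tendsto (fun n => ∑ k, x' n k ^ t) atTop (𝓝 (m t)) := fun t ht =>
    (hm t ht).congr fun n => by
      simp [x', Fintype.sum_option, zero_pow (by omega : t ≠ 0)]
  have ha' : ∀ t, Tendsto (fun n => ∑ k, w' n k * x' n k ^ t) atTop (𝓝 (a t)) := fun t =>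
    (ha t).congr fun n => by simp [x', w', Fintype.sum_option]
  obtain ⟨B, hB⟩ := (hm' 2 le_rfl).bddAbove_range
  obtain ⟨B', hB'⟩ := (ha' 0).bddAbove_range
  have hmem : ∀ n, (x0 n, ω0 n) ∈ Set.Icc (-(B + 1)) (B + 1) ×ˢ Set.Icc 0 B' := by
    intro n
    have h1 := (h0 n).top.pow_le (i := 1) le_rfl
    have h2 : ∑ k, x' n k ^ 2 ≤ B := hB ⟨n, rfl⟩
    have h3 := (h0 n).top_le 0
    have h4 : ∑ k, w' n k * x' n k ^ 0 ≤ B' := hB' ⟨n, rfl⟩
    simp only [ev, pow_one, mul_one] at h1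
    simp only [mul_zero, pow_zero, mul_one] at h3 h4
    refine ⟨⟨?_, ?_⟩, (h0 n).w_nonneg, h3.trans h4⟩
    · show -(B + 1) ≤ x0 n
      nlinarith [sq_nonneg (x0 n + 1), sq_nonneg (x0 n)]
    · show x0 n ≤ B + 1
      nlinarith [sq_nonneg (x0 n - 1), sq_nonneg (x0 n)]
  obtain ⟨z, -, φ, hφ, hz⟩ := (isCompact_Icc.prod isCompact_Icc).tendsto_subseq hmem
  have hφ' := hφ.tendsto_atTop
  exact ⟨z.1, z.2, limTop_closed (fun n => h0 (φ n)) (fun t ht => (hm' t ht).comp hφ')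
    (fun t => (ha' t).comp hφ') ((continuous_fst.tendsto z).comp hz)
    ((continuous_snd.tendsto z).comp hz)⟩

theorem LimP.top {m : ℕ → ℝ} (h : LimP m) :
    ∃ x : ℝ, Top (ev m) (x ^ 2) ∧ ∀ u v : ℝ, x ^ 6 * (x ^ 2 + u * x + v) ^ 2 ≤ filt m u v := by
  obtain ⟨ι, inst, x, hm⟩ := h
  have hW : LimW m fun _ => 0 :=
    ⟨ι, inst, x, fun _ _ => 0, fun _ _ => le_rfl, hm, fun t => by simp⟩
  obtain ⟨x0, ω0, h0⟩ := hW.top
  exact ⟨x0, h0.top, h0.filt_ge⟩

end Crest.Agent.R347
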