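import Crest.Agent.R347.EngSpec

/-!
# Row 347: the orbit certificate   (task R347/Orbit)

Recipe.  Let `S m = ∑ c ∈ range (3^L), if m.testBit c then f c else 0`.  If all `i ∈ l` have `i < 3^L` and
`f i = v`, then `mark k l m n = true` gives `m' n'` with `k m' n' = true`, `n ≤ n'` and
`S m' = S m + (n' - n) * v` (induction on `l`).  All members of `imgs L sym c` are `< 3^L` with the value
`f c`.  By induction on `reps`: `cover L sym reps m = true → ∑ f = S m + ∑ weight * f rep`; at the end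
`m = 2^(3^L) - 1` has all bits set (`Nat.testBit_two_pow_sub_one`).
-/

set_option autoImplicit false

namespace Crest.Agent.R347.Eng

/-- the sum of `f` over the bits that are set -/
noncomputable def orbS (N : ℕ) (f : ℕ → ℂ) (m : ℕ) : ℂ :=
  ∑ c ∈ Finset.range N, if m.testBit c then f c else 0

theorem orbS_set {N : ℕ} (f : ℕ → ℂ) {m i : ℕ} (hi : i < N) (hm : m.testBit i = false) :
    orbS N f (m ||| 1 <<< i) = orbS N f m + f i := by
  have e : f i = ∑ c ∈ Finset.range N, if c = i then f c else 0 := by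
    rw [Finset.sum_ite_eq', if_pos (Finset.mem_range.2 hi)]
  rw [e, orbS, orbS, ← Finset.sum_add_distrib]
  refine Finset.sum_congr rfl fun c _ => ?_
  rw [Nat.testBit_or, Nat.one_shiftLeft, Nat.testBit_two_pow]
  by_cases h : c = i
  · subst h
    simp [hm]
  · simp [h, Ne.symm h]

theorem mark_cons (k : ℕ → ℕ → Bool) (i : ℕ) (l : List ℕ) (m n : ℕ) :
    mark k (i :: l) m n =
      if m.testBit i then mark k l m n else mark k l (m ||| 1 <<< i) (n + 1) := by
  have e : mark k (i :: l) m n = Bool.rec (motive := fun _ => Bool) (mark k l m n)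
      (mark k l (m ||| 1 <<< i) (n + 1)) (Nat.beq ((m >>> i) &&& 1) 0) := rfl
  rw [e, Nat.testBit, Nat.and_comm 1]
  generalize (m >>> i) &&& 1 = a
  cases a with
  | zero => rfl
  | succ a => rfl

theorem mark_sound {N : ℕ} (f : ℕ → ℂ) (v : ℂ) (k : ℕ → ℕ → Bool) (l : List ℕ)
    (hl : ∀ i ∈ l, i < N ∧ f i = v) : ∀ m n, mark k l m n = true →
      ∃ m' j, k m' (n + j) = true ∧ orbS N f m' = orbS N f m + j * v := by
  induction l with
  | nil => exact fun m n h => ⟨m, 0, h, by simp⟩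
  | cons i l ih =>
    intro m n h
    have hl' : ∀ i ∈ l, i < N ∧ f i = v := fun j hj => hl j (List.mem_cons_of_mem _ hj)
    rw [mark_cons] at h
    split_ifs at h with hm
    · exact ih hl' m n h
    · obtain ⟨m', j, h1, h2⟩ := ih hl' _ _ h
      obtain ⟨hi, hv⟩ := hl i List.mem_cons_self
      refine ⟨m', j + 1, by rwa [show n + (j + 1) = n + 1 + j by omega], ?_⟩
      rw [h2, orbS_set f hi (by simpa using hm), hv]
      push_cast
      ring

theorem mark_ex (k : ℕ → ℕ → Bool) (l : List ℕ) :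
    ∀ m n, mark k l m n = true → ∃ m' n', k m' n' = true := by
  induction l with
  | nil => exact fun m n h => ⟨m, n, h⟩
  | cons i l ih =>
    intro m n h
    rw [mark_cons] at h
    split_ifs at h
    · exact ih _ _ h
    · exact ih _ _ h

theorem orb_mem {L : ℕ} {P : ℕ → Prop} (h1 : ∀ c, P c → P (rotC L c)) (h2 : ∀ c, P c → P (flipC L c))
    {t : List ℕ} (ht : ∀ i ∈ t, P i) (k : ℕ) : ∀ c, P c → ∀ i ∈ orb L t k c, P i := by
  induction k with
  | zero => exact fun c _ => ht
  | succ k ih =>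
    intro c hc i hi
    have e : orb L t (k + 1) c = c :: flipC L c :: orb L t k (rotC L c) := rfl
    rw [e, List.mem_cons, List.mem_cons] at hi
    rcases hi with rfl | rfl | hi
    · exact hc
    · exact h2 c hc
    · exact ih _ (h1 c hc) i hi

theorem cover_aux {L : ℕ} {sym : Bool} (f : ℕ → ℂ) (hf : sym = true → ∀ c, c < 3 ^ L →
      (rotC L c < 3 ^ L ∧ f (rotC L c) = f c) ∧ (revC L c < 3 ^ L ∧ f (revC L c) = f c) ∧
      (flipC L c < 3 ^ L ∧ f (flipC L c) = f c)) (rs : List (ℕ × ℕ)) :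
    ∀ m, cover L sym rs m = true → ∑ c ∈ Finset.range (3 ^ L), f c =
      orbS (3 ^ L) f m + (rs.map fun p => (p.1 : ℂ) * f p.2).sum := by
  induction rs with
  | nil =>
    intro m h
    have h1 : m + 1 = 2 ^ 3 ^ L := Nat.eq_of_beq_eq_true h
    obtain rfl : m = 2 ^ 3 ^ L - 1 := by omega
    rw [List.map_nil, List.sum_nil, add_zero, orbS]
    refine Finset.sum_congr rfl fun c hc => ?_
    rw [Nat.testBit_two_pow_sub_one, if_pos (decide_eq_true (Finset.mem_range.1 hc))]
  | cons p rs ih =>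
    obtain ⟨w, c⟩ := p
    intro m h
    have h1 : mark (fun m' n => and' (Nat.beq n w) (and' (Nat.blt c (3 ^ L)) (cover L sym rs m')))
        (imgs L sym c) m 0 = true := h
    have hc : c < 3 ^ L := by
      obtain ⟨m', n', h2⟩ := mark_ex _ _ _ _ h1
      simp only [and'_iff] at h2
      exact Nat.blt_eq ▸ h2.2.1
    have hi : ∀ i ∈ imgs L sym c, i < 3 ^ L ∧ f i = f c := by
      cases sym with
      | false =>
        intro i hi
        obtain rfl : i = c := List.mem_singleton.1 hi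
        exact ⟨hc, rfl⟩
      | true =>
        have g1 : ∀ i, (i < 3 ^ L ∧ f i = f c) → rotC L i < 3 ^ L ∧ f (rotC L i) = f c :=
          fun i hi => ⟨(hf rfl i hi.1).1.1, (hf rfl i hi.1).1.2.trans hi.2⟩
        have g2 : ∀ i, (i < 3 ^ L ∧ f i = f c) → flipC L i < 3 ^ L ∧ f (flipC L i) = f c :=
          fun i hi => ⟨(hf rfl i hi.1).2.2.1, (hf rfl i hi.1).2.2.2.trans hi.2⟩
        exact orb_mem g1 g2 (orb_mem g1 g2 (t := []) (fun i hi => absurd hi List.not_mem_nil) L _
          (hf rfl c hc).2.1) L c ⟨hc, rfl⟩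
    obtain ⟨m', j, h2, h3⟩ := mark_sound f (f c) _ _ hi m 0 h1
    simp only [and'_iff] at h2
    obtain rfl : j = w := by simpa using Nat.eq_of_beq_eq_true h2.1
    rw [ih m' h2.2.2, h3, List.map_cons, List.sum_cons, add_assoc]

theorem cover_sound {L : ℕ} {sym : Bool} {rs : List (ℕ × ℕ)} (h : cover L sym rs 0 = true)
    (f : ℕ → ℂ) (hf : sym = true → ∀ c, c < 3 ^ L →
      (rotC L c < 3 ^ L ∧ f (rotC L c) = f c) ∧ (revC L c < 3 ^ L ∧ f (revC L c) = f c) ∧
      (flipC L c < 3 ^ L ∧ f (flipC L c) = f c)) :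
    ∑ c ∈ Finset.range (3 ^ L), f c = (rs.map fun p => (p.1 : ℂ) * f p.2).sum := by
  rw [cover_aux f hf rs 0 h, orbS]
  simp

/-- the weights add up to the dimension -/
theorem cover_wsum {L : ℕ} {sym : Bool} {rs : List (ℕ × ℕ)} (h : cover L sym rs 0 = true)
    (hf : sym = true → ∀ c, c < 3 ^ L → rotC L c < 3 ^ L ∧ revC L c < 3 ^ L ∧ flipC L c < 3 ^ L) :
    (rs.map fun p => p.1).sum = 3 ^ L := by
  have h1 := cover_sound h (fun _ => 1) fun hs c hc =>
    ⟨⟨(hf hs c hc).1, rfl⟩, ⟨(hf hs c hc).2.1, rfl⟩, (hf hs c hc).2.2, rfl⟩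
  have h2 : (((rs.map fun p => p.1).sum : ℕ) : ℂ) = (rs.map fun p => (p.1 : ℂ) * 1).sum := by
    rw [Nat.cast_list_sum, List.map_map]
    simp only [mul_one]
    rfl
  rw [← h2, Finset.sum_const, Finset.card_range, nsmul_eq_mul, mul_one] at h1
  exact_mod_cast h1.symm

end Crest.Agent.R347.Eng
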