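import Crest.Agent.R347.SpinRow

/-!
# Row 347: `spinMat` represents the spin Hamiltonian   (task R347/SpinRep)

You may use `SpinAlg`, `Tens`, `EngTree`, `SpinRow` (other tasks).
-/

set_option autoImplicit false

namespace Crest.Agent.R347.Eng

open Crest.MathPhysics.SpinChain Matrix

/-- total digit sum of a configuration (`L - M`) -/
def dsC {L : ℕ} (σ : Cfg L) : ℕ := ∑ k, (σ k).val

theorem dsC_cfg (L c : ℕ) : dsC (cfg L c) = dsum L c := (dsum_cfg L c).symm

theorem okS_iff (L lo c : ℕ) : okS L lo c = true ↔ c < 3 ^ L ∧ dsum L c = lo := by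
  simp [okS, Nat.blt_eq]

theorem dsum_succ (k c : ℕ) : dsum (k + 1) c = c % 3 + dsum k (c / 3) := rfl

theorem dsum_div_three {L c : ℕ} (hc : c < 3 ^ L) :
    dsum L (c / 3) ≤ dsum L c ∧ dsum L c ≤ dsum L (c / 3) + 2 := by
  cases L with
  | zero => exact ⟨le_rfl, Nat.le_add_right _ _⟩
  | succ L =>
    have h1 : dsum (L + 1) (c / 3) = dsum L (c / 3) := by
      rw [dsum_eq, dsum_eq, Finset.sum_range_succ, Nat.div_div_eq_div_mul, ← pow_succ',
        Nat.div_eq_of_lt hc]
      rfl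
    rw [h1, dsum_succ]
    omega

theorem dsum_div_pow {L c : ℕ} (hc : c < 3 ^ L) (j : ℕ) :
    dsum L (c / 3 ^ j) ≤ dsum L c ∧ dsum L c ≤ dsum L (c / 3 ^ j) + 2 * j := by
  induction j with
  | zero => simp
  | succ j ih =>
    have h := dsum_div_three (lt_of_le_of_lt (Nat.div_le_self c (3 ^ j)) hc)
    rw [Nat.div_div_eq_div_mul, ← pow_succ] at h
    omega

theorem spinEmp_false {L lo c : ℕ} (hc : c < 3 ^ L) (hd : dsum L c = lo) (k : ℕ) :
    spinEmp L lo lo k (c / 9 ^ k) = false := by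
  have h9 : 9 ^ k = 3 ^ (2 * k) := by rw [pow_mul]; norm_num
  have h := dsum_div_pow hc (2 * k)
  rw [← h9, hd] at h
  have h1 : Nat.ble (Nat.pow 3 L) (Nat.mul (c / 9 ^ k) (Nat.pow 9 k)) = false := by
    rw [Bool.eq_false_iff]
    intro h
    have h' : 3 ^ L ≤ c / 9 ^ k * 9 ^ k := Nat.le_of_ble_eq_true h
    have := Nat.div_mul_le_self c (9 ^ k)
    omega
  have h2 : Nat.blt lo (dsum L (c / 9 ^ k)) = false := by
    rw [Bool.eq_false_iff, Ne, Nat.blt_eq]
    omega
  have h3 : Nat.blt (Nat.add (dsum L (c / 9 ^ k)) (Nat.mul 4 k)) lo = false := by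
    rw [Bool.eq_false_iff, Ne, Nat.blt_eq]
    show ¬ (dsum L (c / 9 ^ k) + 4 * k < lo)
    omega
  unfold spinEmp
  rw [h1, h2, h3]

theorem mem_hops {L c j k : ℕ} (hc : c < 3 ^ L) (hj : j < L) (hk : k < L) (hjk : j ≠ k)
    {t : List ℕ} (ht : ∀ q ∈ t, q < 3 ^ L ∧ dsum L q = dsum L c) :
    ∀ q ∈ hops c j k t, q < 3 ^ L ∧ dsum L q = dsum L c := by
  intro q hq
  rw [hops_eq, List.mem_append, List.mem_append] at hq
  rcases hq with (hq | hq) | hq
  · split_ifs at hq with h
    · rw [List.mem_singleton] at hq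
      have := hop_code hc (j := ⟨k, hk⟩) (k := ⟨j, hj⟩) (fun e => hjk (Fin.mk.inj e).symm) h.2 h.1
      rw [hq]
      exact ⟨this.1, this.2.1⟩
    · simp at hq
  · split_ifs at hq with h
    · rw [List.mem_singleton] at hq
      have := hop_code hc (j := ⟨j, hj⟩) (k := ⟨k, hk⟩) (fun e => hjk (Fin.mk.inj e)) h.1 h.2
      rw [hq]
      exact ⟨this.1, this.2.1⟩
    · simp at hq
  · exact ht q hq

theorem mem_hopsTo {L c : ℕ} (hc : c < 3 ^ L) {t : List ℕ}
    (ht : ∀ q ∈ t, q < 3 ^ L ∧ dsum L q = dsum L c) {nb : ℕ} (h : nb < L) :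
    ∀ q ∈ hopsTo c t nb, q < 3 ^ L ∧ dsum L q = dsum L c := by
  induction nb with
  | zero => exact ht
  | succ j ih =>
    exact mem_hops (j := j) (k := j + 1) hc (by omega) h (by omega) (ih (by omega))

theorem length_hops (c j k : ℕ) (t : List ℕ) : (hops c j k t).length ≤ t.length + 2 := by
  rw [hops_eq]
  split_ifs <;> simp

theorem length_hopsTo (c : ℕ) (t : List ℕ) (nb : ℕ) :
    (hopsTo c t nb).length ≤ t.length + 2 * nb := by
  induction nb with
  | zero => exact le_rfl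
  | succ j ih =>
    have := length_hops c j (j + 1) (hopsTo c t j)
    show (hops c j (j + 1) (hopsTo c t j)).length ≤ _
    omega

theorem dig_le (c j : ℕ) : dig c j ≤ 2 := by
  rw [dig_eq]; omega

theorem zz_le (c j k : ℕ) : zz (dig c j) (dig c k) ≤ 2 := by
  have h1 := dig_le c j
  have h2 := dig_le c k
  generalize dig c j = a at *
  generalize dig c k = b at *
  interval_cases a <;> interval_cases b <;> decide

theorem zzTo_le (c nb : ℕ) : zzTo c nb ≤ 2 * nb := by
  induction nb with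
  | zero => exact le_rfl
  | succ j ih =>
    have := zz_le c j (j + 1)
    show zz (dig c j) (dig c (j + 1)) + zzTo c j ≤ _
    omega

/-- the optional hops of the last bond -/
noncomputable def lastHops (c l : ℕ) (b : Bool) : List ℕ :=
  Bool.rec (motive := fun _ => List Nat) [] (hops c l 0 []) b

/-- the last bond or the end fields on the diagonal -/
noncomputable def lastDiag (l kind m f c : ℕ) : ℕ :=
  Bool.rec (motive := fun _ => Nat)
    (Nat.mul f (Nat.add (dig c 0)
      (Bool.rec (motive := fun _ => Nat) (dig c l) (Nat.sub 2 (dig c l)) (Nat.beq kind 2))))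
    (Nat.mul m (zz (dig c l) (dig c 0))) (Nat.ble kind 1)

theorem spinRow_eq (l kind m f eP eN c : ℕ) : spinRow l kind m f eP eN c =
    ([(m, hopsTo c (lastHops c l (Nat.beq kind 0)) l),
      (m * zzTo c l + eP + lastDiag l kind m f c - eN, [c])],
     [(m, lastHops c l (Nat.beq kind 1)),
      (eN - (m * zzTo c l + eP + lastDiag l kind m f c), [c])]) := rfl

theorem mem_lastHops {l c : ℕ} (hl : 1 ≤ l) (hc : c < 3 ^ (l + 1)) (b : Bool) :
    ∀ q ∈ lastHops c l b, q < 3 ^ (l + 1) ∧ dsum (l + 1) q = dsum (l + 1) c := by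
  cases b
  · intro q hq
    exact absurd hq List.not_mem_nil
  · exact mem_hops (j := l) (k := 0) (t := []) hc (by omega) (by omega) (by omega)
      fun q hq => absurd hq List.not_mem_nil

theorem length_lastHops (c l : ℕ) (b : Bool) : (lastHops c l b).length ≤ 2 := by
  cases b
  · exact Nat.zero_le _
  · exact length_hops c l 0 []

theorem lastDiag_le (l kind m f c : ℕ) : lastDiag l kind m f c ≤ 2 * m + 4 * f := by
  have h0 := dig_le c 0
  have h1 := dig_le c l
  have h2 := zz_le c l 0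
  unfold lastDiag
  cases Nat.ble kind 1
  · cases Nat.beq kind 2
    · show f * (dig c 0 + dig c l) ≤ _
      nlinarith
    · show f * (dig c 0 + (2 - dig c l)) ≤ _
      have : 2 - dig c l ≤ 2 := Nat.sub_le _ _
      nlinarith
  · show m * zz (dig c l) (dig c 0) ≤ _
    nlinarith

theorem row_codes {l : ℕ} (kind m f eP eN : ℕ) (hl : 1 ≤ l) {c : ℕ} (hc : c < 3 ^ (l + 1)) :
    ∀ q ∈ codes (spinRow l kind m f eP eN c).1 ++ codes (spinRow l kind m f eP eN c).2,
      q < 3 ^ (l + 1) ∧ dsum (l + 1) q = dsum (l + 1) c := by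
  intro q hq
  simp only [spinRow_eq, codes, List.flatMap_cons, List.flatMap_nil, List.append_nil,
    List.mem_append, List.mem_singleton] at hq
  rcases hq with (hq | rfl) | hq | rfl
  · exact mem_hopsTo hc (mem_lastHops hl hc _) (by omega) q hq
  · exact ⟨hc, rfl⟩
  · exact mem_lastHops hl hc _ q hq
  · exact ⟨hc, rfl⟩

theorem gsum_eq_zero {y : ℕ → ℂ} {gs : Gs} (h : ∀ q ∈ codes gs, y q = 0) : gsum y gs = 0 := by
  refine List.sum_eq_zero fun x hx => ?_
  obtain ⟨p, hp, rfl⟩ := List.mem_map.1 hx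
  rw [List.sum_eq_zero, mul_zero]
  intro z hz
  obtain ⟨q, hq, rfl⟩ := List.mem_map.1 hz
  exact h q (List.mem_flatMap.2 ⟨p, hp, hq⟩)

/-- `valid`: `3^(l+1) ≤ 9^((l+2)/2)`; `dsum L (c / 9^k) ≤ dsum L c ≤ dsum L (c / 9^k) + 4 k`.
`closed`: `hops_eq`, `hop_code`.  `wt_le`: at most two hops per bond, `zz ≤ 2`, digits `≤ 2`. -/
theorem spin_closed {l kind m f eP eN s t : ℕ} (lo : ℕ) (hl : 1 ≤ l)
    (hw : 2 * m * (l + 1) + (2 * m * (l + 1) + 4 * f + eP - eN) ≤ (t + 1) * 2 ^ (s + 1))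
    (ht : t ≤ 2 ^ s) : Closed (spinMat l kind m f eP eN s t lo lo) (okS (l + 1) lo) t := by
  refine ⟨fun c hc => ?_, fun c hc q hq => ?_, fun c _ => ?_, ?_, ht⟩
  · obtain ⟨h1, h2⟩ := (okS_iff _ _ _).1 hc
    refine ⟨?_, fun k _ => spinEmp_false h1 h2 k⟩
    show c < 9 ^ ((l + 2) / 2)
    have h9 : 9 ^ ((l + 2) / 2) = 3 ^ (2 * ((l + 2) / 2)) := by rw [pow_mul]; norm_num
    rw [h9]
    exact h1.trans_le (Nat.pow_le_pow_right (by norm_num) (by omega))
  · obtain ⟨h1, h2⟩ := (okS_iff _ _ _).1 hc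
    have := row_codes kind m f eP eN hl h1 q hq
    exact (okS_iff _ _ _).2 ⟨this.1, this.2.trans h2⟩
  · refine le_trans ?_ (Nat.le_add_right _ _)
    show wt (spinRow l kind m f eP eN c).1 ≤ (t + 1) * 2 ^ (s + 1)
    refine le_trans ?_ hw
    rw [spinRow_eq, wt_eq]
    simp only [List.map_cons, List.map_nil, List.sum_cons, List.sum_nil, List.length_singleton,
      mul_one, add_zero]
    have h1 := length_hopsTo c (lastHops c l (Nat.beq kind 0)) l
    have h2 := length_lastHops c l (Nat.beq kind 0)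
    have h3 := Nat.mul_le_mul_left m (zzTo_le c l)
    have h4 := lastDiag_le l kind m f c
    refine add_le_add ?_ (Nat.sub_le_sub_right ?_ _)
    · calc _ ≤ m * (2 + 2 * l) := Nat.mul_le_mul_left m (by omega)
        _ = _ := by ring
    · have : 2 * m * (l + 1) = m * (2 * l) + 2 * m := by ring
      omega
  · show (t + 1) * 2 ^ (s + 1) = 2 ^ (s + 1) * t + 2 ^ s + (if true = true then 2 ^ s else 0)
    rw [if_pos rfl]
    ring

theorem spin_rep {l kind m f eP eN s t : ℕ} (lo : ℕ) (hl : 1 ≤ l) (hk : kind ≤ 3)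
    (hf : 2 ≤ kind → 5 * f = 3 * m)
    (hw : 2 * m * (l + 1) + (2 * m * (l + 1) + 4 * f + eP - eN) ≤ (t + 1) * 2 ^ (s + 1))
    (ht : t ≤ 2 ^ s) : Rep (spinMat l kind m f eP eN s t lo lo) (okS (l + 1) lo) t (cfg (l + 1))
      (spinA l kind m f eP eN s) := by
  refine ⟨spin_closed lo hl hw ht, fun c c' hc hc' e => ?_, fun c hc y => ?_⟩
  · exact cfg_inj ((okS_iff _ _ _).1 hc).1 ((okS_iff _ _ _).1 hc').1 e
  · refine (spin_row hl hk hf ((okS_iff _ _ _).1 hc).1 y).trans ?_
    show _ = 2 ^ s * _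
    rw [Finset.mul_sum]
    refine Finset.sum_congr rfl fun q _ => ?_
    rw [spinA, Matrix.smul_apply, smul_eq_mul]
    field_simp

theorem spinH_herm (l kind : ℕ) : (spinH l kind).IsHermitian := by
  unfold spinH
  split_ifs
  exacts [ringH_herm _ _, ringH_herm _ _, openH_herm _ _ _, openH_herm _ _ _]

theorem spinA_herm (l kind m f eP eN s : ℕ) : (spinA l kind m f eP eN s).IsHermitian := by
  unfold spinA Matrix.IsHermitian
  rw [conjTranspose_smul, conjTranspose_sub, conjTranspose_smul, conjTranspose_smul,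
    (spinH_herm l kind).eq, conjTranspose_one]
  simp

/-- conservation of the magnetisation, e.g. from `spin_row` (take `m = 5, f = 3`, `y` an indicator) and
`spin_closed`, or from `bond_int` and `onSite_two_apply` -/
theorem spinH_block {l kind : ℕ} (hl : 1 ≤ l) (hk : kind ≤ 3) {p q : Cfg (l + 1)}
    (h : dsC p ≠ dsC q) : spinH l kind p q = 0 := by
  obtain ⟨c, hc, rfl⟩ := cfg_surj p
  have hpq : cfg (l + 1) c ≠ q := fun e => h (by rw [e])
  have h1 := spin_row (m := 5) (f := 3) (eP := 0) (eN := 0) hl hk (fun _ => rfl) hc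
    (fun σ => if σ = q then 1 else 0)
  have h2 : ∀ x ∈ codes (spinRow l kind 5 3 0 0 c).1 ++ codes (spinRow l kind 5 3 0 0 c).2,
      (if cfg (l + 1) x = q then (1 : ℂ) else 0) = 0 := by
    intro x hx
    refine if_neg fun e => h ?_
    rw [← e, dsC_cfg, dsC_cfg, (row_codes kind 5 3 0 0 hl hc x hx).2]
  rw [gsum_eq_zero fun x hx => h2 x (List.mem_append_left _ hx),
    gsum_eq_zero fun x hx => h2 x (List.mem_append_right _ hx)] at h1
  simpa [Matrix.one_apply_ne hpq] using h1.symm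

theorem spinA_block {l kind : ℕ} (m f eP eN s : ℕ) (hl : 1 ≤ l) (hk : kind ≤ 3) {p q : Cfg (l + 1)}
    (h : dsC p ≠ dsC q) : spinA l kind m f eP eN s p q = 0 := by
  have hpq : p ≠ q := fun e => h (by rw [e])
  simp [spinA, spinH_block hl hk h, Matrix.one_apply_ne hpq]

theorem chU_block {ι : Type} [Fintype ι] [DecidableEq ι] {A : Matrix ι ι ℂ} (φ : ι → ℕ)
    (h : ∀ p q, φ p ≠ φ q → A p q = 0) (k : ℕ) {p q : ι} (hpq : φ p ≠ φ q) : chU A k p q = 0 := by
  induction k using Nat.twoStepInduction generalizing p q with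
  | zero => exact Matrix.one_apply_ne fun e => hpq (by rw [e])
  | one => exact h p q hpq
  | more k ih1 ih2 =>
    rw [chU, Matrix.sub_apply, ih1 hpq, sub_zero, Matrix.mul_apply]
    refine Finset.sum_eq_zero fun r _ => ?_
    by_cases hr : φ p = φ r
    · rw [ih2 (hr ▸ hpq), mul_zero]
    · rw [h p r hr, zero_mul]

/-- the hypothesis `hblock` of `cheb_sound` -/
theorem spin_hblock {l kind : ℕ} (m f eP eN s lo : ℕ) (hl : 1 ≤ l) (hk : kind ≤ 3)
    (p : Cfg (l + 1)) (hp : ∀ c, okS (l + 1) lo c = true → cfg (l + 1) c ≠ p) (c : ℕ)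
    (hc : okS (l + 1) lo c = true) : spinA l kind m f eP eN s p (cfg (l + 1) c) = 0 := by
  refine spinA_block m f eP eN s hl hk fun e => ?_
  obtain ⟨c', hc', rfl⟩ := cfg_surj p
  rw [dsC_cfg, dsC_cfg, ((okS_iff _ _ _).1 hc).2] at e
  exact hp c' ((okS_iff _ _ _).2 ⟨hc', e⟩) rfl

end Crest.Agent.R347.Eng
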