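import Crest.Agent.R347.EngCheb
import Crest.Agent.R347.SpinRep
import Crest.Agent.R347.Symm
import Crest.Agent.R347.Orbit

/-!
# Row 347: from checked jobs to Chebyshev moments   (task R347/Moments)

You may use all imported files (other tasks).

Recipe.  `tr (G B) = ∑ σ, F σ` with `F σ = B σ σ`, `(-1)^(L + dsC σ) B σ σ` (`tens_rotz`),
`(-1)^L B (flipS σ) σ` (`tens_rotx`); `sum_cfg` and `cover_sound` (with `inv_*`, `cfg_rotC`, … when
`kind ≤ 1`) turn this into a sum over `reps bs`, i.e. over the blocks.  In a block the entry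
`(k, c, i)` of `l0` has `src i = c` (slots are `1, 2, …` in order) and `dsum c = lo`.  For the flip trace,
`B (flipS σ) σ = 0` unless `dsC σ = L` (`chU_block`; `dsC (flipS σ) = 2L - dsC σ`), and `val2 = 0`-like
terms: for blocks with `l2 = []` both `wsum l2` and `tr` vanish, so `val2 = 0` by `cheb_sound`.
Add the errors of `cheb_sound` (`cover_wsum`; `|re z| ≤ ‖z‖`).
-/

set_option autoImplicit false

namespace Crest.Agent.R347.Eng

open Matrix

/-- parameters of a family of jobs -/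
structure Par : Type where
  (l kind m f eP eN s t K w F d : ℕ)
  fl : Bool

def Par.ok (P : Par) : Prop :=
  1 ≤ P.l ∧ P.kind ≤ 3 ∧ (2 ≤ P.kind → 5 * P.f = 3 * P.m) ∧
  2 * P.m * (P.l + 1) + (2 * P.m * (P.l + 1) + 4 * P.f + P.eP - P.eN) ≤ (P.t + 1) * 2 ^ (P.s + 1) ∧
  P.t ≤ 2 ^ P.s ∧ 3 ^ (P.l + 1) ≤ P.d ^ 2 ∧ P.s + 1 ≤ P.w ∧
  2 ^ P.s * ((P.K + 2) * (2 ^ P.F + 2 ^ 58 * P.d) + P.d * (P.K + 2) ^ 2 + 1) ≤ 2 ^ (P.w - 1) ∧
  (P.fl = true → P.kind ≤ 1)

instance (P : Par) : Decidable P.ok := by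
  unfold Par.ok; infer_instance

noncomputable def Par.mat (P : Par) (lo : ℕ) : Mat := spinMat P.l P.kind P.m P.f P.eP P.eN P.s P.t lo lo
noncomputable def Par.A (P : Par) : Matrix (Cfg (P.l + 1)) (Cfg (P.l + 1)) ℂ :=
  spinA P.l P.kind P.m P.f P.eP P.eN P.s
def Par.err (P : Par) : ℕ := 3 ^ (P.l + 1) * (P.d * (P.K + 1) ^ 2)

theorem mom_list {α : Type} (l : List α) (v : α → ℤ) (g : α → ℂ) (w : α → ℕ) (c : ℂ) (E : ℝ)
    (h : ∀ a ∈ l, ‖(v a : ℂ) - c * g a‖ ≤ w a * E) :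
    ‖((l.map v).sum : ℤ) - c * (l.map g).sum‖ ≤ ((l.map w).sum : ℕ) * E := by
  induction l with
  | nil => simp
  | cons a l ih =>
    have h1 := h a List.mem_cons_self
    have h2 := ih fun b hb => h b (List.mem_cons_of_mem _ hb)
    simp only [List.map_cons, List.sum_cons, Int.cast_add, Nat.cast_add]
    rw [show (v a : ℂ) + ((l.map v).sum : ℤ) - c * (g a + (l.map g).sum) =
      ((v a : ℂ) - c * g a) + (((l.map v).sum : ℤ) - c * (l.map g).sum) by ring, add_mul]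
    exact (norm_add_le _ _).trans (add_le_add h1 h2)

theorem mom_reps {M : Type} [AddCommMonoid M] (bs : List Blk) (g : ℕ × ℕ → M) :
    ((reps bs).map g).sum = (bs.map fun b => (b.J.l0.map fun e => g (e.1, e.2.1)).sum).sum := by
  induction bs with
  | nil => rfl
  | cons b bs ih =>
    rw [reps, List.flatMap_cons, List.map_append, List.sum_append, List.map_cons, List.sum_cons,
      List.map_map, ← ih]
    rfl

theorem mom_core {L : ℕ} (hL : 1 ≤ L) {sym : Bool} {bs : List Blk}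
    (hcov : cover L sym (reps bs) 0 = true) (Fn : Cfg L → ℂ) (hF : sym = true → Inv3 Fn)
    (v : Blk → ℤ) (F : ℕ) {E : ℝ}
    (h : ∀ b ∈ bs, ‖(v b : ℂ) - 2 ^ F * (b.J.l0.map fun e => (e.1 : ℂ) * Fn (cfg L e.2.1)).sum‖ ≤
      wsum b.J.l0 * E) :
    |(2 : ℝ) ^ F * (∑ σ, Fn σ).re - ((bs.map v).sum : ℤ)| ≤ (3 ^ L : ℕ) * E := by
  have h1 := cover_sound hcov (fun c => Fn (cfg L c)) fun hs c hc =>
    ⟨⟨(cfg_rotC hc hL).1, by rw [(cfg_rotC hc hL).2]; exact (hF hs _).1⟩,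
      ⟨(cfg_revC hc).1, by rw [(cfg_revC hc).2]; exact (hF hs _).2.1⟩,
      ⟨(cfg_flipC hc).1, by rw [(cfg_flipC hc).2]; exact (hF hs _).2.2⟩⟩
  have h2 := cover_wsum hcov fun _ c hc => ⟨(cfg_rotC hc hL).1, (cfg_revC hc).1, (cfg_flipC hc).1⟩
  rw [mom_reps] at h1 h2
  have h3 := mom_list bs v _ (fun b => wsum b.J.l0) _ E h
  rw [← h1, ← sum_cfg] at h3
  have h4 : (bs.map fun b => wsum b.J.l0).sum = 3 ^ L := h2
  rw [h4] at h3
  refine le_trans ?_ h3
  rw [abs_sub_comm]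
  refine le_trans (le_of_eq ?_) (Complex.abs_re_le_norm _)
  congr 1
  rw [Complex.sub_re, Complex.intCast_re, show (2 : ℂ) ^ F = ((2 ^ F : ℝ) : ℂ) by push_cast; rfl,
    Complex.re_ofReal_mul]

theorem mom_sign (n : ℕ) (v : ℤ) (c z : ℂ) :
    ‖(((-1) ^ n * v : ℤ) : ℂ) - c * ((-1) ^ n * z)‖ = ‖(v : ℂ) - c * z‖ := by
  rw [show (((-1) ^ n * v : ℤ) : ℂ) - c * ((-1) ^ n * z) = (-1) ^ n * ((v : ℂ) - c * z) by
    push_cast; ring, norm_mul, norm_pow, norm_neg, norm_one, one_pow, one_mul]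

theorem mom_l0 {J : Job} {L lo : ℕ} (h : J.wf (okS L lo) = true) {e : ℕ × ℕ × ℕ} (he : e ∈ J.l0) :
    J.src e.2.2 = e.2.1 ∧ e.2.1 < 3 ^ L ∧ dsC (cfg L e.2.1) = lo := by
  simp only [Job.wf, Bool.and_eq_true, List.all_eq_true, beq_iff_eq] at h
  obtain ⟨⟨⟨⟨-, h1⟩, h2⟩, -⟩, -⟩ := h
  have h3 := (h2 e he).1.1
  simp only [okS, Bool.and_eq_true, Nat.blt_eq, Nat.beq_eq] at h3
  refine ⟨?_, h3.1, by rw [dsC, ← dsum_cfg, h3.2]⟩
  obtain ⟨j, hj, rfl⟩ := List.getElem_of_mem he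
  have h4 : (J.l0.map fun e => e.2.2)[j]'(by simpa using hj) = 1 + j := by
    simp only [h1, List.getElem_range', one_mul]
  rw [List.getElem_map] at h4
  rw [Job.src, h4, Nat.add_sub_cancel_left, List.getD_eq_getElem _ _ hj]

theorem mom_dsC_flip {L : ℕ} (σ : Cfg L) : dsC (flipS σ) + dsC σ = 2 * L := by
  rw [dsC, dsC, ← Finset.sum_add_distrib, Finset.sum_congr rfl (g := fun _ => 2)]
  · simp [mul_comm]
  · intro k _
    have := (σ k).2
    simp only [flipS, Fin.val_rev]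
    omega

theorem mom_block (P : Par) (hP : P.ok) {b : Blk} (hchk : check (P.mat b.lo) b.J = true)
    (hwf : b.wf (P.l + 1) P.fl P.K P.w P.F = true) (hS : Spec P.A (-2) 2) {k : ℕ}
    (hk : k < P.K + 1) :
    b.J.wf (okS (P.l + 1) b.lo) = true ∧
    ‖(b.J.val1 P.s k : ℂ) - 2 ^ P.F * b.J.tr (cfg (P.l + 1)) b.J.l0 (chU P.A k)‖ ≤
      wsum b.J.l0 * (P.d * ((P.K : ℝ) + 1) ^ 2) ∧
    ‖(b.J.val2 P.s k : ℂ) - 2 ^ P.F * b.J.tr (cfg (P.l + 1)) b.J.l2 (chU P.A k)‖ ≤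
      wsum b.J.l2 * (P.d * ((P.K : ℝ) + 1) ^ 2) ∧
    b.J.l2 = if P.fl && b.lo == P.l + 1 then
      b.J.l0.map (fun e => (e.1, flipC (P.l + 1) e.2.1, e.2.2)) else [] := by
  obtain ⟨h1, h2, h3, h4, h5, h6, h7, h8, -⟩ := hP
  simp only [Blk.wf, Bool.and_eq_true, beq_iff_eq] at hwf
  obtain ⟨⟨⟨⟨⟨w1, w2⟩, w3⟩, w4⟩, w5⟩, w6⟩ := hwf
  have h := cheb_sound (J := b.J) (spin_rep (eP := P.eP) (eN := P.eN) b.lo h1 h2 h3 h4 h5)
    (spin_hblock P.m P.f P.eP P.eN P.s b.lo h1 h2) (spinA_herm _ _ _ _ _ _ _) hS rfl (d := P.d)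
    (by simpa using h6) w1 (by rw [w4, w5, w6]; exact ⟨h7, h8⟩) hchk k (by rwa [w4])
  rw [w2, w6] at h
  have hE : (P.d : ℝ) * ((k : ℝ) + 1) ^ 2 ≤ P.d * ((P.K : ℝ) + 1) ^ 2 := by
    have : (k : ℝ) ≤ P.K := by exact_mod_cast Nat.le_of_lt_succ hk
    gcongr
  refine ⟨w1, h.1.trans (mul_le_mul_of_nonneg_left hE (Nat.cast_nonneg _)),
    h.2.trans (mul_le_mul_of_nonneg_left hE (Nat.cast_nonneg _)), ?_⟩
  simpa only [Bool.and_eq_true, beq_iff_eq] using w3

theorem moments (P : Par) (hP : P.ok) (bs : List Blk)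
    (hchk : ∀ b ∈ bs, check (P.mat b.lo) b.J = true)
    (hwf : (bs.all fun b => b.wf (P.l + 1) P.fl P.K P.w P.F) = true)
    (hcov : cover (P.l + 1) (decide (P.kind ≤ 1)) (reps bs) 0 = true) (hS : Spec P.A (-2) 2) :
    Mom P.A 1 P.F ((List.range (P.K + 1)).map (sum1 bs P.s)) P.err ∧
    Mom P.A (tens (P.l + 1) (rot (some 2))) P.F
      ((List.range (P.K + 1)).map (sumZ bs (P.l + 1) P.s)) P.err ∧
    (P.fl = true → Mom P.A (tens (P.l + 1) (rot (some 0))) P.F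
      ((List.range (P.K + 1)).map (sumX bs (P.l + 1) P.s)) P.err) := by
  rw [List.all_eq_true] at hwf
  have hb := fun b hb k hk => mom_block P hP (hchk b hb) (hwf b hb) hS (k := k) hk
  have herr : ((3 ^ (P.l + 1) : ℕ) : ℝ) * (P.d * ((P.K : ℝ) + 1) ^ 2) = P.err := by
    rw [Par.err]; push_cast; ring
  have hget : ∀ (f : ℕ → ℤ) k, k < P.K + 1 → ((List.range (P.K + 1)).map f).getD k 0 = f k :=
    fun f k hk => by simp [List.getD_eq_getElem?_getD, List.getElem?_range hk]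
  have hL : 1 ≤ P.l + 1 := by omega
  refine ⟨fun k hk => ?_, fun k hk => ?_, fun hfl k hk => ?_⟩ <;>
    rw [List.length_map, List.length_range] at hk <;> rw [hget _ k hk, ← herr]
  · rw [Matrix.one_mul]
    refine mom_core hL hcov (fun σ => chU P.A k σ σ)
      (fun hs => inv_diag _ _ _ _ _ hP.1 (of_decide_eq_true hs) k) _ P.F fun b hb' => ?_
    obtain ⟨w, h1, -⟩ := hb b hb' k hk
    rwa [Job.tr, List.map_congr_left fun e he => by rw [(mom_l0 w he).1]] at h1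
  · have e : (tens (P.l + 1) (rot (some 2)) * chU P.A k).trace =
        ∑ σ, (-1) ^ (P.l + 1 + ∑ j, (σ j).val) * chU P.A k σ σ := by
      simp only [Matrix.trace, Matrix.diag_apply, Matrix.mul_apply, tens_rotz, ite_mul, zero_mul,
        Finset.sum_ite_eq', Finset.mem_univ, if_true]
    rw [e]
    refine mom_core hL hcov _ (fun hs σ => ?_) _ P.F fun b hb' => ?_
    · have a := inv_diag P.m P.f P.eP P.eN P.s hP.1 (of_decide_eq_true hs) k σ
      have a' := inv_sign (P.l + 1) σ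
      exact ⟨congrArg₂ _ a'.1 a.1, congrArg₂ _ a'.2.1 a.2.1, congrArg₂ _ a'.2.2 a.2.2⟩
    · obtain ⟨w, h1, -⟩ := hb b hb' k hk
      rw [← mom_sign (P.l + 1 + b.lo), Job.tr, ← List.sum_map_mul_left] at h1
      rwa [List.map_congr_left (g := fun e : ℕ × ℕ × ℕ => (-1) ^ (P.l + 1 + b.lo) *
        ((e.1 : ℂ) * chU P.A k (cfg (P.l + 1) e.2.1) (cfg (P.l + 1) (b.J.src e.2.2))))]
      intro e he
      rw [(mom_l0 w he).1, ← (mom_l0 w he).2.2, mul_left_comm]
      rfl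
  · have e : (tens (P.l + 1) (rot (some 0)) * chU P.A k).trace =
        ∑ σ, (-1) ^ (P.l + 1) * chU P.A k (flipS σ) σ := by
      simp only [Matrix.trace, Matrix.diag_apply, Matrix.mul_apply, tens_rotx, ite_mul, zero_mul,
        Finset.sum_ite_eq', Finset.mem_univ, if_true]
    rw [e, sumX, ← List.sum_map_mul_left]
    refine mom_core hL hcov _ (fun hs σ => ?_) _ P.F fun b hb' => ?_
    · have a := inv_flip P.m P.f P.eP P.eN P.s hP.1 (of_decide_eq_true hs) k σ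
      exact ⟨congrArg _ a.1, congrArg _ a.2.1, congrArg _ a.2.2⟩
    · obtain ⟨w, -, h1, h2⟩ := hb b hb' k hk
      rw [← mom_sign (P.l + 1), Job.tr, ← List.sum_map_mul_left, h2] at h1
      by_cases hlo : b.lo = P.l + 1
      · rw [if_pos (by simp [hfl, hlo]), wsum, List.map_map, List.map_map] at h1
        rwa [List.map_congr_left]
        intro e he
        simp only [Function.comp]
        rw [(mom_l0 w he).1, (cfg_flipC (mom_l0 w he).2.1).2, mul_left_comm]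
      · rw [if_neg (by simp [hlo])] at h1
        rw [List.sum_eq_zero]
        · refine le_trans ?_ (h1.trans ?_)
          · simp
          · simp only [wsum, List.map_nil, List.sum_nil, Nat.cast_zero, zero_mul]
            positivity
        · intro x hx
          obtain ⟨e, he, rfl⟩ := List.mem_map.1 hx
          have h3 := mom_dsC_flip (cfg (P.l + 1) e.2.1)
          have h4 := (mom_l0 w he).2.2
          rw [chU_block (A := P.A) dsC (fun p q h => spinA_block _ _ _ _ _ hP.1 hP.2.1 h) k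
            (by omega), mul_zero, mul_zero]

end Crest.Agent.R347.Eng
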