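import Crest.Agent.R347.SymGen
import Crest.Agent.R347.Moments

/-!
# Row 347: Chebyshev moments from the reduced matrices   (task R347/Moments2)

You may use `SymCan`, `ChebExt`, `SymExt`, `SymGen` (other tasks) and `Moments.lean` (`mom_list`, `cover_sound`,
`cover_wsum`, the proof of `moments` is the model).  Recipe.  Fix `k`, `B = chU P.A k`, a sector `S` and let
`u b r = B *ᵥ ext L S.lo (can (gens b)) (fun q => if q = r then 2^F else 0)`.  By `sym_ext`, `cheb_sound2` and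
`Sec.wf`, the sum of `val1` over the jobs of the block `b` is `∑_{(W,r) ∈ cols, r alive} (8 W / cnt r) * u b r (cfg r)`
up to `(∑ weights) * d (K+1)^2`; the terms with `r` not alive vanish (`ext_dead`), and `ext_sum` gives
`∑_b u b r = cnt r * 2^F * B (·, cfg r)`.  So the sum over all blocks of `S` is `8 * 2^F * ∑_{(W,r)} W * B (cfg r) (cfg r)`,
and the weights add up to `8 ∑ W`.  For the flip trace: if `S.lo = L` then `genF L (bit chi 2)` is a generator
(`genF_mem`), and `Ext.chU_mem`, `ext_cfg`, `extC_gen`, `cfg_flipC` give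
`u b r (flipS (cfg r)) = sg (bit chi 2) * u b r (cfg r)`; sectors with `S.lo ≠ L` contribute zero (`chU_block`).
-/

set_option autoImplicit false

namespace Crest.Agent.R347.Eng

open Matrix

/-- a sector: digit sum, generators in use, `(orbit size, code)` of the columns, and for each choice of
signs the jobs -/
structure Sec : Type where
  (lo mode : ℕ)
  cols : List (ℕ × ℕ)
  blks : List (ℕ × List Job)

def Par.ok3 (P : Par) : Prop :=
  (P.l = 8 ∨ P.l = 9) ∧ P.kind ≤ 1 ∧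
  2 * P.m * (P.l + 1) + (2 * P.m * (P.l + 1) + 4 * P.f + P.eP - P.eN) ≤ (P.t + 1) * 2 ^ (P.s + 1) ∧
  P.t ≤ 2 ^ P.s ∧ 3 ^ (P.l + 1) ≤ P.d ^ 2 ∧ P.s + 1 ≤ P.w ∧
  2 ^ P.s * ((P.K + 2) * ((2 ^ P.F + 2 ^ 58) * P.d) + P.d * (P.K + 2) ^ 2 + 1) ≤ 2 ^ (P.w - 1)

instance (P : Par) : Decidable P.ok3 := by
  unfold Par.ok3; infer_instance

/-- the moments come out multiplied by `8` -/
def Par.up (P : Par) : Par := { P with F := P.F + 3, d := 8 * P.d }

noncomputable def Par.gens (P : Par) (mode chi : ℕ) : List SMap := gensOf (P.l + 1) P.kind mode chi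

noncomputable def Par.smat (P : Par) (lo mode chi : ℕ) : Mat :=
  symMat (gensOf (P.l + 1) P.kind mode chi) P.l P.kind P.m P.f P.eP P.eN P.s P.t lo

noncomputable def Sec.gs (S : Sec) (P : Par) : List (List SMap) := S.blks.map fun b => P.gens S.mode b.1

noncomputable def Sec.cnt (S : Sec) (P : Par) (r : ℕ) : ℕ := (S.gs P).countP fun g => isRep (can g) r

noncomputable def Sec.wf (S : Sec) (P : Par) : Bool :=
  (S.blks.all fun b =>
    (b.2.all fun J => J.wf (okR (P.l + 1) S.lo (can (P.gens S.mode b.1))) && (J.l1 == J.l0) &&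
      (J.e.length == P.K + 1) && (J.w == P.w) && (J.F == P.F)) &&
    ((b.2.flatMap fun J => J.l0.map fun e => (e.1, e.2.1)) ==
      (S.cols.filter fun p => isRep (can (P.gens S.mode b.1)) p.2).map fun p =>
        (8 * p.1 / S.cnt P p.2, p.2))) &&
  (S.cols.all fun p => okS (P.l + 1) S.lo p.2 && (S.cnt P p.2 * (8 * p.1 / S.cnt P p.2) == 8 * p.1) &&
    (imgsM (P.gens S.mode 0) p.2 false).all fun e => cancel e.1 p.2 (S.gs P) 0 0) &&
  (!(P.fl && S.lo == P.l + 1) || bit S.mode 2)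

def Sec.v1 (S : Sec) (s k : ℕ) : ℤ := (S.blks.map fun b => (b.2.map fun J => J.val1 s k).sum).sum

noncomputable def Sec.vX (S : Sec) (s k : ℕ) : ℤ :=
  (S.blks.map fun b => (if bit b.1 2 then -1 else 1) * (b.2.map fun J => J.val1 s k).sum).sum

def tot1 (ss : List Sec) (s k : ℕ) : ℤ := (ss.map fun S => S.v1 s k).sum
def totZ (ss : List Sec) (L s k : ℕ) : ℤ := (ss.map fun S => (-1) ^ (L + S.lo) * S.v1 s k).sum
noncomputable def totX (ss : List Sec) (L s k : ℕ) : ℤ :=
  (-1) ^ L * (ss.map fun S => if S.lo = L then S.vX s k else 0).sum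

/-- everything that is checked for one sector -/
def Sec.OK (S : Sec) (P : Par) : Prop :=
  (∀ b ∈ S.blks, ∀ J ∈ b.2, check (P.smat S.lo S.mode b.1) J = true) ∧
  Good (fun c => okS (P.l + 1) S.lo c = true) (P.gens S.mode 0) ∧ S.wf P = true

theorem m2_swap {α β M : Type} [AddCommMonoid M] (l : List α) (l' : List β) (f : α → β → M) :
    (l.map fun a => (l'.map fun b => f a b).sum).sum =
      (l'.map fun b => (l.map fun a => f a b).sum).sum := by
  induction l with
  | nil => simp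
  | cons a l ih => simp only [List.map_cons, List.sum_cons, ih, List.sum_map_add]

theorem m2_flat {α β M : Type} [AddCommMonoid M] (l : List α) (f : α → List β) (g : β → M) :
    ((l.flatMap f).map g).sum = (l.map fun a => ((f a).map g).sum).sum := by
  induction l with
  | nil => rfl
  | cons a l ih =>
    rw [List.flatMap_cons, List.map_append, List.sum_append, List.map_cons, List.sum_cons, ih]

theorem m2_filter {α M : Type} [AddCommMonoid M] (l : List α) (q : α → Bool) (g : α → M) :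
    ((l.filter q).map g).sum = (l.map fun a => if q a then g a else 0).sum := by
  induction l with
  | nil => rfl
  | cons a l ih => cases h : q a <;> simp [h, ih]

theorem m2_count {α : Type} (l : List α) (q : α → Bool) (w : ℕ) :
    (l.map fun a => if q a then w else 0).sum = l.countP q * w := by
  induction l with
  | nil => simp
  | cons a l ih => cases h : q a <;> simp [h, ih, add_mul, add_comm]

theorem m2_mulVec {ι α : Type} [Fintype ι] (B : Matrix ι ι ℂ) (l : List α) (v : α → ι → ℂ) (x : ι) :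
    (l.map fun a => (B *ᵥ v a) x).sum = (B *ᵥ (l.map v).sum) x := by
  induction l with
  | nil => simp
  | cons a l ih => rw [List.map_cons, List.sum_cons, ih, List.map_cons, List.sum_cons,
      Matrix.mulVec_add, Pi.add_apply]

theorem m2_src {J : Job} {ok : ℕ → Bool} (h : J.wf ok = true) {e : ℕ × ℕ × ℕ} (he : e ∈ J.l0) :
    J.src e.2.2 = e.2.1 := by
  simp only [Job.wf, Bool.and_eq_true, List.all_eq_true, beq_iff_eq] at h
  obtain ⟨⟨⟨⟨-, h1⟩, -⟩, -⟩, -⟩ := h
  obtain ⟨j, hj, rfl⟩ := List.getElem_of_mem he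
  have h4 : (J.l0.map fun e => e.2.2)[j]'(by simpa using hj) = 1 + j := by
    simp only [h1, List.getElem_range', one_mul]
  rw [List.getElem_map] at h4
  rw [Job.src, h4, Nat.add_sub_cancel_left, List.getD_eq_getElem _ _ hj]

theorem m2_core {L : ℕ} (hL : 1 ≤ L) {ss : List Sec}
    (hcov : cover L true (ss.flatMap fun S => S.cols) 0 = true) (Fn : Cfg L → ℂ) (hF : Inv3 Fn)
    (v : Sec → ℤ) (F : ℕ) {E : ℝ}
    (h : ∀ S ∈ ss, ‖(v S : ℂ) - 2 ^ F * (S.cols.map fun p => (p.1 : ℂ) * Fn (cfg L p.2)).sum‖ ≤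
      ((S.cols.map fun p => p.1).sum : ℕ) * E) :
    |(2 : ℝ) ^ F * (∑ σ, Fn σ).re - ((ss.map v).sum : ℤ)| ≤ (3 ^ L : ℕ) * E := by
  have h1 := cover_sound hcov (fun c => Fn (cfg L c)) fun _ c hc =>
    ⟨⟨(cfg_rotC hc hL).1, by rw [(cfg_rotC hc hL).2]; exact (hF _).1⟩,
      ⟨(cfg_revC hc).1, by rw [(cfg_revC hc).2]; exact (hF _).2.1⟩,
      ⟨(cfg_flipC hc).1, by rw [(cfg_flipC hc).2]; exact (hF _).2.2⟩⟩
  have h2 := cover_wsum hcov fun _ c hc => ⟨(cfg_rotC hc hL).1, (cfg_revC hc).1, (cfg_flipC hc).1⟩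
  rw [m2_flat] at h1 h2
  have h3 := mom_list ss v _ (fun S => (S.cols.map fun p => p.1).sum) _ E h
  rw [← h1, ← sum_cfg, h2] at h3
  refine le_trans ?_ h3
  rw [abs_sub_comm]
  refine le_trans (le_of_eq ?_) (Complex.abs_re_le_norm _)
  congr 1
  rw [Complex.sub_re, Complex.intCast_re, show (2 : ℂ) ^ F = ((2 ^ F : ℝ) : ℂ) by push_cast; rfl,
    Complex.re_ofReal_mul]

theorem m2_wf {S : Sec} {P : Par} (h : S.wf P = true) :
    (∀ b ∈ S.blks, (∀ J ∈ b.2, J.wf (okR (P.l + 1) S.lo (can (P.gens S.mode b.1))) = true ∧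
      J.l1 = J.l0 ∧ J.e.length = P.K + 1 ∧ J.w = P.w ∧ J.F = P.F) ∧
      (b.2.flatMap fun J => J.l0.map fun e => (e.1, e.2.1)) =
        (S.cols.filter fun p => isRep (can (P.gens S.mode b.1)) p.2).map fun p =>
          (8 * p.1 / S.cnt P p.2, p.2)) ∧
    (∀ p ∈ S.cols, okS (P.l + 1) S.lo p.2 = true ∧
      S.cnt P p.2 * (8 * p.1 / S.cnt P p.2) = 8 * p.1 ∧
      ∀ e ∈ imgsM (P.gens S.mode 0) p.2 false, cancel e.1 p.2 (S.gs P) 0 0 = true) ∧
    (P.fl = true → S.lo = P.l + 1 → bit S.mode 2 = true) := by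
  simp only [Sec.wf, Bool.and_eq_true, List.all_eq_true, beq_iff_eq, Bool.or_eq_true,
    Bool.not_eq_true', Bool.and_eq_false_iff, beq_eq_false_iff_ne] at h
  obtain ⟨⟨h1, h2⟩, h3⟩ := h
  refine ⟨fun b hb => ⟨fun J hJ => ?_, (h1 b hb).2⟩, fun p hp => ⟨(h2 p hp).1.1, (h2 p hp).1.2,
    (h2 p hp).2⟩, fun hfl hlo => ?_⟩
  · obtain ⟨⟨⟨⟨a, b⟩, c⟩, d⟩, e⟩ := (h1 b hb).1 J hJ
    exact ⟨a, b, c, d, e⟩
  · rcases h3 with (h3 | h3) | h3
    · rw [hfl] at h3
      exact absurd h3 (by decide)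
    · exact absurd hlo h3
    · exact h3

theorem m2_ext (P : Par) (hP : P.ok3) {lo mode : ℕ}
    (hg : Good (fun c => okS (P.l + 1) lo c = true) (P.gens mode 0)) (chi : ℕ) :
    Good (fun c => okS (P.l + 1) lo c = true) (P.gens mode chi) ∧
    Ext (P.smat lo mode chi) (okR (P.l + 1) lo (can (P.gens mode chi))) P.t (cfg (P.l + 1)) P.A
      (ext (P.l + 1) lo (can (P.gens mode chi))) := by
  obtain ⟨h1, h2, h3, h4, -⟩ := hP
  have hg' := hg.twist (gensOf_twist (P.l + 1) P.kind mode chi)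
  exact ⟨hg', sym_ext (by omega) (by omega) (fun h => by omega) h3 h4 hg'
    (gensOf_sym h1 h2 _ _ _ _ _ _ _)⟩

/-- the column `r` of `2^F B` projected to the block `chi` -/
noncomputable def m2u (P : Par) (lo mode k chi r : ℕ) : Cfg (P.l + 1) → ℂ :=
  chU P.A k *ᵥ ext (P.l + 1) lo (can (P.gens mode chi)) fun q => if q = r then 2 ^ P.F else 0

theorem m2_flip (P : Par) (hP : P.ok3) {lo mode : ℕ}
    (hg : Good (fun c => okS (P.l + 1) lo c = true) (P.gens mode 0)) (hm : bit mode 2 = true)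
    (chi : ℕ) {r : ℕ} (hr : okS (P.l + 1) lo r = true) (k r' : ℕ) :
    (-1) ^ (if bit chi 2 then 1 else 0) * m2u P lo mode k chi r' (cfg (P.l + 1) r) =
      m2u P lo mode k chi r' (flipS (cfg (P.l + 1) r)) := by
  obtain ⟨hg', R⟩ := m2_ext P hP hg chi
  obtain ⟨y, hy⟩ := R.chU_mem k fun q => if q = r' then 2 ^ P.F else 0
  have hmem : genF (P.l + 1) (bit chi 2) ∈ P.gens mode chi := genF_mem chi hm
  have h1 : okS (P.l + 1) lo (flipC (P.l + 1) r) = true := (hg' _ hmem r hr).1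
  have h2 : extC (can (P.gens mode chi)) y (flipC (P.l + 1) r) =
      sg (bit chi 2) * extC (can (P.gens mode chi)) y r := extC_gen hg' hmem hr y
  rw [m2u, hy, ← (cfg_flipC ((okS_iff _ _ _).1 hr).1).2, ext_cfg _ _ h1, ext_cfg _ _ hr, h2]
  cases bit chi 2 <;> simp [sg]

theorem m2_blk (P : Par) (hP : P.ok3) {S : Sec} (h : S.OK P) (hS : Spec P.A (-2) 2) {k : ℕ}
    (hk : k < P.K + 1) {b : ℕ × List Job} (hb : b ∈ S.blks) :
    ‖(((b.2.map fun J => J.val1 P.s k).sum : ℤ) : ℂ) - 1 * (S.cols.map fun p =>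
      ((8 * p.1 / S.cnt P p.2 : ℕ) : ℂ) * m2u P S.lo S.mode k b.1 p.2 (cfg (P.l + 1) p.2)).sum‖ ≤
      ((S.cols.map fun p => if isRep (can (P.gens S.mode b.1)) p.2 then 8 * p.1 / S.cnt P p.2
        else 0).sum : ℕ) * (P.d * ((P.K : ℝ) + 1) ^ 2) := by
  obtain ⟨hg, R⟩ := m2_ext P hP h.2.1 b.1
  obtain ⟨hJ, hl⟩ := (m2_wf h.2.2).1 b hb
  obtain ⟨-, -, -, -, h6, h7, h8⟩ := hP
  have hE : (P.d : ℝ) * ((k : ℝ) + 1) ^ 2 ≤ P.d * ((P.K : ℝ) + 1) ^ 2 := by
    have : (k : ℝ) ≤ P.K := by exact_mod_cast Nat.le_of_lt_succ hk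
    gcongr
  have h1 := mom_list b.2 (fun J => J.val1 P.s k) (fun J => (J.l0.map fun e =>
    (e.1 : ℂ) * m2u P S.lo S.mode k b.1 e.2.1 (cfg (P.l + 1) e.2.1)).sum) (fun J => wsum J.l0) 1
    (P.d * ((P.K : ℝ) + 1) ^ 2) fun J hJm => by
      obtain ⟨w1, w2, w4, w5, w6⟩ := hJ J hJm
      have h2 := cheb_sound2 (J := J) R (spinA_herm _ _ _ _ _ _ _) hS rfl (d := P.d)
        (by simpa using h6) w1 (by rw [w4, w5, w6]; exact ⟨h7, h8⟩) (h.1 b hb J hJm) k
        (by rwa [w4])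
      rw [w2, w6, List.map_congr_left fun e he => by rw [m2_src w1 he]] at h2
      rw [one_mul]
      exact h2.trans (mul_le_mul_of_nonneg_left hE (Nat.cast_nonneg _))
  have e1 := congrArg (fun l : List (ℕ × ℕ) => (l.map fun p =>
    (p.1 : ℂ) * m2u P S.lo S.mode k b.1 p.2 (cfg (P.l + 1) p.2)).sum) hl
  have e2 := congrArg (fun l : List (ℕ × ℕ) => (l.map fun p => p.1).sum) hl
  simp only [m2_flat, List.map_map, m2_filter, Function.comp_def] at e1 e2
  unfold wsum at h1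
  rw [e1, e2] at h1
  rw [List.map_congr_left (g := fun p : ℕ × ℕ => if isRep (can (P.gens S.mode b.1)) p.2 then
    ((8 * p.1 / S.cnt P p.2 : ℕ) : ℂ) * m2u P S.lo S.mode k b.1 p.2 (cfg (P.l + 1) p.2) else 0)]
  · exact h1
  · intro p _
    cases hr : isRep (can (P.gens S.mode b.1)) p.2
    · rw [m2u, ext_dead hg hr]
      simp
    · rfl

theorem m2_sec (P : Par) (hP : P.ok3) {S : Sec} (h : S.OK P) (hS : Spec P.A (-2) 2) {k : ℕ}
    (hk : k < P.K + 1) (n : ℕ × List Job → ℕ) (pt : ℕ → Cfg (P.l + 1))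
    (hpt : ∀ b ∈ S.blks, ∀ p ∈ S.cols, (-1) ^ n b * m2u P S.lo S.mode k b.1 p.2 (cfg (P.l + 1) p.2) =
      m2u P S.lo S.mode k b.1 p.2 (pt p.2)) :
    ‖(((S.blks.map fun b => (-1) ^ n b * (b.2.map fun J => J.val1 P.s k).sum).sum : ℤ) : ℂ) -
      2 ^ (P.F + 3) * (S.cols.map fun p => (p.1 : ℂ) * chU P.A k (pt p.2) (cfg (P.l + 1) p.2)).sum‖ ≤
      ((S.cols.map fun p => p.1).sum : ℕ) * (8 * (P.d * ((P.K : ℝ) + 1) ^ 2)) := by
  have hc := (m2_wf h.2.2).2.1
  have h1 := mom_list S.blks (fun b => (-1) ^ n b * (b.2.map fun J => J.val1 P.s k).sum)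
    (fun b => (S.cols.map fun p =>
      ((8 * p.1 / S.cnt P p.2 : ℕ) : ℂ) * m2u P S.lo S.mode k b.1 p.2 (pt p.2)).sum) _ 1
    (P.d * ((P.K : ℝ) + 1) ^ 2) fun b hb => by
      have h2 := m2_blk P hP h hS hk hb
      rw [← mom_sign (n b), ← List.sum_map_mul_left S.cols,
        List.map_congr_left (l := S.cols) fun p hp => by rw [mul_left_comm, hpt b hb p hp]] at h2
      exact h2
  rw [m2_swap (M := ℂ) S.blks S.cols, m2_swap (M := ℕ) S.blks S.cols, one_mul] at h1
  have e1 : (S.cols.map fun p => (S.blks.map fun b => ((8 * p.1 / S.cnt P p.2 : ℕ) : ℂ) *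
      m2u P S.lo S.mode k b.1 p.2 (pt p.2)).sum).sum =
      2 ^ (P.F + 3) * (S.cols.map fun p =>
        (p.1 : ℂ) * chU P.A k (pt p.2) (cfg (P.l + 1) p.2)).sum := by
    rw [← List.sum_map_mul_left]
    congr 1
    refine List.map_congr_left fun p hp => ?_
    obtain ⟨c1, c2, c3⟩ := hc p hp
    have h2 := ext_sum (gs := S.gs P) h.2.1 (fun g hg => by
      obtain ⟨b, -, rfl⟩ := List.mem_map.1 hg
      exact gensOf_twist _ _ _ _) c1 c3 (2 ^ P.F)
    rw [Sec.gs, List.map_map] at h2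
    have h3 : ((S.cnt P p.2 : ℕ) : ℂ) * ((8 * p.1 / S.cnt P p.2 : ℕ) : ℂ) = 8 * p.1 := by
      exact_mod_cast congrArg (Nat.cast : ℕ → ℂ) c2
    rw [List.sum_map_mul_left]
    unfold m2u
    rw [m2_mulVec]
    erw [h2]
    rw [Matrix.mulVec_smul, Matrix.mulVec_single_one, Pi.smul_apply, smul_eq_mul, Matrix.col_apply]
    change _ * ((S.cnt P p.2 : ℂ) * _ * _) = _
    linear_combination (2 ^ P.F * chU P.A k (pt p.2) (cfg (P.l + 1) p.2)) * h3
  have e2 : (S.cols.map fun p => (S.blks.map fun b =>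
      if isRep (can (P.gens S.mode b.1)) p.2 then 8 * p.1 / S.cnt P p.2 else 0).sum).sum =
      8 * (S.cols.map fun p => p.1).sum := by
    rw [← List.sum_map_mul_left]
    congr 1
    refine List.map_congr_left fun p hp => ?_
    rw [m2_count S.blks fun b => isRep (can (P.gens S.mode b.1)) p.2, ← (hc p hp).2.1]
    congr 1
    · rw [Sec.cnt, Sec.gs, List.countP_map]
      rfl
    · rw [(hc p hp).2.1]
  rw [e1, e2] at h1
  refine h1.trans (le_of_eq ?_)
  push_cast
  ring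

theorem moments2 (P : Par) (hP : P.ok3) (ss : List Sec) (h : ∀ S ∈ ss, S.OK P)
    (hcov : cover (P.l + 1) true (ss.flatMap fun S => S.cols) 0 = true) (hS : Spec P.A (-2) 2) :
    Mom P.up.A 1 P.up.F ((List.range (P.K + 1)).map (tot1 ss P.s)) P.up.err ∧
    Mom P.up.A (tens (P.up.l + 1) (rot (some 2))) P.up.F
      ((List.range (P.K + 1)).map (totZ ss (P.l + 1) P.s)) P.up.err ∧
    (P.fl = true → Mom P.up.A (tens (P.up.l + 1) (rot (some 0))) P.up.F
      ((List.range (P.K + 1)).map (totX ss (P.l + 1) P.s)) P.up.err) := by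
  have hl : 1 ≤ P.l := by have := hP.1; omega
  have hkind : P.kind ≤ 1 := hP.2.1
  have herr : ((3 ^ (P.l + 1) : ℕ) : ℝ) * (8 * (P.d * ((P.K : ℝ) + 1) ^ 2)) = P.up.err := by
    change _ = ((3 ^ (P.l + 1) * (8 * P.d * (P.K + 1) ^ 2) : ℕ) : ℝ)
    push_cast
    ring
  have hget : ∀ (f : ℕ → ℤ) k, k < P.K + 1 → ((List.range (P.K + 1)).map f).getD k 0 = f k :=
    fun f k hk => by simp [List.getD_eq_getElem?_getD, List.getElem?_range hk]
  have hL : 1 ≤ P.l + 1 := by omega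
  have h1 : ∀ S ∈ ss, ∀ k, k < P.K + 1 → ‖(S.v1 P.s k : ℂ) - 2 ^ (P.F + 3) * (S.cols.map fun p =>
      (p.1 : ℂ) * chU P.A k (cfg (P.l + 1) p.2) (cfg (P.l + 1) p.2)).sum‖ ≤
      ((S.cols.map fun p => p.1).sum : ℕ) * (8 * (P.d * ((P.K : ℝ) + 1) ^ 2)) := by
    intro S hS' k hk
    have := m2_sec P hP (h S hS') hS hk (fun _ => 0) (cfg (P.l + 1)) (fun b _ p _ => by simp)
    simpa only [pow_zero, one_mul, Sec.v1] using this
  change Mom P.A 1 (P.F + 3) _ _ ∧ Mom P.A (tens (P.l + 1) (rot (some 2))) (P.F + 3) _ _ ∧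
    (P.fl = true → Mom P.A (tens (P.l + 1) (rot (some 0))) (P.F + 3) _ _)
  refine ⟨fun k hk => ?_, fun k hk => ?_, fun hfl k hk => ?_⟩ <;>
    rw [List.length_map, List.length_range] at hk <;> rw [hget _ k hk, ← herr]
  · rw [Matrix.one_mul]
    exact m2_core hL hcov (fun σ => chU P.A k σ σ) (inv_diag _ _ _ _ _ hl hkind k) _ _
      fun S hS' => h1 S hS' k hk
  · have e : (tens (P.l + 1) (rot (some 2)) * chU P.A k).trace =
        ∑ σ, (-1) ^ (P.l + 1 + ∑ j, (σ j).val) * chU P.A k σ σ := by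
      simp only [Matrix.trace, Matrix.diag_apply, Matrix.mul_apply, tens_rotz, ite_mul, zero_mul,
        Finset.sum_ite_eq', Finset.mem_univ, if_true]
    rw [e]
    refine m2_core hL hcov _ (fun σ => ?_) _ _ fun S hS' => ?_
    · have a := inv_diag P.m P.f P.eP P.eN P.s hl hkind k σ
      have a' := inv_sign (P.l + 1) σ
      exact ⟨congrArg₂ _ a'.1 a.1, congrArg₂ _ a'.2.1 a.2.1, congrArg₂ _ a'.2.2 a.2.2⟩
    · have h2 := h1 S hS' k hk
      rw [← mom_sign (P.l + 1 + S.lo), ← List.sum_map_mul_left] at h2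
      rwa [List.map_congr_left (g := fun p : ℕ × ℕ => (-1) ^ (P.l + 1 + S.lo) *
        ((p.1 : ℂ) * chU P.A k (cfg (P.l + 1) p.2) (cfg (P.l + 1) p.2)))]
      intro p hp
      have h3 := ((okS_iff _ _ _).1 ((m2_wf (h S hS').2.2).2.1 p hp).1).2
      rw [← h3, ← dsC_cfg, mul_left_comm]
      rfl
  · have e : (tens (P.l + 1) (rot (some 0)) * chU P.A k).trace =
        ∑ σ, (-1) ^ (P.l + 1) * chU P.A k (flipS σ) σ := by
      simp only [Matrix.trace, Matrix.diag_apply, Matrix.mul_apply, tens_rotx, ite_mul, zero_mul,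
        Finset.sum_ite_eq', Finset.mem_univ, if_true]
    rw [e, totX, ← List.sum_map_mul_left]
    refine m2_core hL hcov _ (fun σ => ?_) _ _ fun S hS' => ?_
    · have a := inv_flip P.m P.f P.eP P.eN P.s hl hkind k σ
      exact ⟨congrArg _ a.1, congrArg _ a.2.1, congrArg _ a.2.2⟩
    · have hw := m2_wf (h S hS').2.2
      by_cases hlo : S.lo = P.l + 1
      · have h2 := m2_sec P hP (h S hS') hS hk (fun b => if bit b.1 2 then 1 else 0)
          (fun r => flipS (cfg (P.l + 1) r)) fun b hb p hp =>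
            m2_flip P hP (h S hS').2.1 (hw.2.2 hfl hlo) b.1 (hw.2.1 p hp).1 k _
        have e2 : (S.blks.map fun b => (-1) ^ (if bit b.1 2 then 1 else 0) *
            (b.2.map fun J => J.val1 P.s k).sum).sum = S.vX P.s k := by
          unfold Sec.vX
          congr 1
          refine List.map_congr_left fun b _ => ?_
          cases bit b.1 2 <;> simp
        rw [e2, ← mom_sign (P.l + 1), ← List.sum_map_mul_left] at h2
        rw [if_pos hlo]
        simpa only [mul_left_comm] using h2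
      · rw [if_neg hlo, List.sum_eq_zero]
        · simp only [mul_zero, Int.cast_zero, sub_zero, norm_zero]
          positivity
        · intro x hx
          obtain ⟨p, hp, rfl⟩ := List.mem_map.1 hx
          have h3 := mom_dsC_flip (cfg (P.l + 1) p.2)
          have h4 := ((okS_iff _ _ _).1 (hw.2.1 p hp).1).2
          rw [← dsC_cfg] at h4
          rw [chU_block (A := P.A) dsC (fun p q h => spinA_block _ _ _ _ _ hl (by omega) h) k
            (by omega), mul_zero, mul_zero]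

end Crest.Agent.R347.Eng
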