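import Crest.Agent.R347.EngSpec

/-!
# Row 347: matrix product states (definitions only)
-/

set_option autoImplicit false

namespace Crest.Agent.R347

open Crest.MathPhysics.SpinChain Matrix

noncomputable section

/-- the seven-state operator: `0` before the first site, `1` before the bond, `2 3 4` inside the bond,
`5` after the bond, `6` after the last site -/
def W7 (f f' : ℤ) (p q : Fin 7) : M3 :=
  Matrix.of fun k' k => (((Eng.wl f f' p.val).map fun w =>
    if w.1 = q.val ∧ w.2.1 = k'.val ∧ w.2.2.1 = k.val then (w.2.2.2 : ℂ) else 0).sum)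

/-- selects the paths from the state `p` to the state `6` -/
def sel7 (p : Fin 7) : Matrix (Fin 7) (Fin 7) ℂ := Matrix.of fun a b => if a = 6 ∧ b = p then 1 else 0

variable {D P : Type}

def sand (A : Fin 3 → Matrix D D ℂ) (W : P → P → M3) : Matrix (D × P × D) (D × P × D) ℂ :=
  Matrix.of fun x y => ∑ k', ∑ k, star (A k' x.1 y.1) * W x.2.1 y.2.1 k' k * A k x.2.2 y.2.2

def kron3 (Γ : Matrix D D ℂ) (Γ' : Matrix P P ℂ) : Matrix (D × P × D) (D × P × D) ℂ :=
  Matrix.of fun x y => star (Γ x.1 y.1) * Γ' x.2.1 y.2.1 * Γ x.2.2 y.2.2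

/-- the tensors read from the tables `N`, `Q` -/
def tenA (N Q D : ℕ) (k : Fin 3) : Matrix (Fin D) (Fin D) ℂ :=
  Matrix.of fun a b =>
    if Eng.chg Q b.val + k.val = Eng.chg Q a.val + 1 then (Eng.ent N D a.val b.val : ℂ) else 0

/-- the twist on the virtual space: `1`, or `(-1)^charge` -/
def tenG (Q D : ℕ) (tw : Bool) : Matrix (Fin D) (Fin D) ℂ :=
  Matrix.diagonal fun a => if tw then (-1) ^ Eng.chg Q a.val else 1

def decM (D : ℕ) [NeZero D] (c : ℕ) : Fin D × Fin 7 × Fin D :=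
  (Fin.ofNat D (c / D / 7), Fin.ofNat 7 (c / D), Fin.ofNat D c)

end

namespace Eng

/-- the finite checks on the rows of `mpsMat` -/
noncomputable def mpsCheck (N Q D : ℕ) (f f' : ℤ) (dl n s t Λ : ℕ) : Bool :=
  decide (7 * D * D ≤ 9 ^ n) && decide (t ≤ 2 ^ s) && decide (Λ ≤ 2 ^ (s + 1) * t + 2 ^ s) &&
  (List.range (7 * D * D)).all fun c => !(mpsOk Q D dl c) ||
    Nat.ble (wt (splitRow (mpsEnt N Q D f f' c)).1 + wt (splitRow (mpsEnt N Q D f f' c)).2) Λ

/-- the equation lemmas of `wl` are generated here, once -/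
theorem wl_eqns : True := by
  have := @wl.eq_7
  trivial

/-- code of `(a', p, a)` -/
def mcode (D a' p a : ℕ) : ℕ := (a' * 7 + p) * D + a

/-- A ring job with block number `lo`: unit vectors at `(a', 6, a)`, outputs at `(a', 5, a)` (norm) and
`(a', 0, a)` (energy). -/
def Blk.mwf (b : Blk) (Q D K w F : ℕ) : Bool :=
  b.J.wf (mpsOk Q D b.lo) && b.J.l0.all (fun e => e.1 == 1 && e.2.1 / D % 7 == 6) &&
  (b.J.l1 == b.J.l0.map fun e => (1, e.2.1 - D, e.2.2)) &&
  (b.J.l2 == b.J.l0.map fun e => (1, e.2.1 - 6 * D, e.2.2)) &&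
  (b.J.e.length == K + 1) && (b.J.w == w) && (b.J.F == F)

def msum1 (bs : List Blk) (tw : Bool) (s k : ℕ) : ℤ :=
  (bs.map fun b => (if tw then (-1) ^ b.lo else 1) * b.J.val1 s k).sum
def msum2 (bs : List Blk) (tw : Bool) (s k : ℕ) : ℤ :=
  (bs.map fun b => (if tw then (-1) ^ b.lo else 1) * b.J.val2 s k).sum

end Eng

end Crest.Agent.R347
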