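import Crest.Agent.R347.EngM
import Crest.Agent.R347.MpsDefs
import Crest.Agent.R347.EngTree

/-!
# Row 347: the fast rows agree with the rows of `mpsMat`   (task R347/MpsFast; do not edit EngM.lean)

Recipe.  `force n k = k n` (cases), `nth t i = t.getD i []`, `nthW` likewise, `xor' = xor`.  For any
`g : ℕ → ℕ` let `S g gs = (gs.map fun p => p.1 * (p.2.map g).sum).sum` (`evalG_eq`; `wt = S (fun _ => 1)`).
By induction the loops `loopE`, `loopF`, `loopW` add to `S g pos` (resp. `S g neg`) the sum of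
`magnitude * g code` over the entries with positive (resp. negative) sign.  For `c < 7 D²` (so
`c / D / 7 < D`, `c % D < D`, and `k, k' < 3` for all entries of `wl`), `(mkAT N Q D).getD (3 a + k) []` is
`adj N Q D k a` without its zero entries, so `S g (fastRow … c).1 = S g (splitRow (mpsEnt … c)).1`
(`(x * y * z).toNat`/sign rules for non-zero integers; zero products contribute nothing on both sides),
and the same for `.2`.  Hence the two `leaf` functions agree on codes with `mpsOk`, and
`build emp f = build emp f'` when `f c = f' c` for all `c` with `emp 0 c = false` (induction on the depth).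
So `genStep` and `genBuild` of the two matrices are equal (`funext`), and `check` only depends on them.
-/

set_option autoImplicit false

namespace Crest.Agent.R347.Eng

abbrev WTab := List (List (ℕ × ℕ × ℕ × ℕ × Bool))

def RowsOK (AT : List Adj) (WT : WTab) (Q D dl Λ lo hi : ℕ) : Prop :=
  ∀ c, lo ≤ c → c < hi → mpsOk Q D dl c = true →
    wt (fastRow AT WT D c).1 + wt (fastRow AT WT D c).2 ≤ Λ

theorem mf_force {α : Type} (n : ℕ) (k : ℕ → α) : force n k = k n := by cases n <;> rfl

theorem mf_nth (t : List Adj) (i : ℕ) : nth t i = t.getD i [] := by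
  induction t generalizing i with
  | nil => rfl
  | cons h t ih =>
    cases i with
    | zero => rfl
    | succ i => exact ih i

theorem mf_nthW (t : WTab) (i : ℕ) : nthW t i = t.getD i [] := by
  induction t generalizing i with
  | nil => rfl
  | cons h t ih =>
    cases i with
    | zero => rfl
    | succ i => exact ih i

theorem mf_xor (a b : Bool) : xor' a b = xor a b := by cases a <;> cases b <;> rfl

/-- the value of the positive (`σ = false`) or negative (`σ = true`) groups -/
def mfS (g : ℕ → ℕ) (σ : Bool) (r : Gs × Gs) : ℕ :=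
  ((if σ then r.2 else r.1).map fun p => p.1 * (p.2.map g).sum).sum

def mfVal (σ : Bool) (m : ℕ) (sg : Bool) : ℕ := if sg = σ then m else 0

def mfInt (σ : Bool) (z : ℤ) : ℕ := if σ then (-z).toNat else z.toNat

/-- the continuation `k` adds `c` -/
def mfAcc (g : ℕ → ℕ) (σ : Bool) (k : Gs → Gs → Gs × Gs) (c : ℕ) : Prop :=
  ∀ pos neg, mfS g σ (k pos neg) = mfS g σ (pos, neg) + c

theorem mf_int_eq (σ : Bool) (z : ℤ) : mfInt σ z = mfVal σ z.natAbs (decide (z < 0)) := by
  unfold mfInt mfVal
  cases σ <;> by_cases h : z < 0 <;> simp [h] <;> omega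

theorem mf_val_mul (σ : Bool) (x y z : ℤ) :
    mfVal σ (x.natAbs * y.natAbs * z.natAbs)
      (xor (xor (decide (y < 0)) (decide (x < 0))) (decide (z < 0))) = mfInt σ (x * y * z) := by
  rw [mf_int_eq, Int.natAbs_mul, Int.natAbs_mul]
  rcases eq_or_ne x 0 with rfl | hx
  · simp [mfVal]
  rcases eq_or_ne y 0 with rfl | hy
  · simp [mfVal]
  rcases eq_or_ne z 0 with rfl | hz
  · simp [mfVal]
  congr 1
  rcases lt_or_gt_of_ne hx with hx | hx <;> rcases lt_or_gt_of_ne hy with hy | hy <;>
    rcases lt_or_gt_of_ne hz with hz | hz <;>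
    simp [hx, hy, hz, hx.not_gt, hy.not_gt, hz.not_gt, mul_neg_iff, mul_pos_iff]

theorem mf_loopE {g : ℕ → ℕ} {σ : Bool} {k : Gs → Gs → Gs × Gs} {c : ℕ} (h : mfAcc g σ k c)
    (m : ℕ) (sg : Bool) (base : ℕ) (l : Adj) :
    mfAcc g σ (loopE m sg base k l)
      (c + (l.map fun e => mfVal σ (m * e.2.1) (xor sg e.2.2) * g (base + e.1)).sum) := by
  induction l with
  | nil => exact h
  | cons e l ih =>
    obtain ⟨b, mag, ng⟩ := e
    intro pos neg
    have e1 : loopE m sg base k ((b, mag, ng) :: l) pos neg =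
        force (m * mag) fun km => force (base + b) fun q =>
          Bool.rec (motive := fun _ => Gs × Gs) (loopE m sg base k l ((km, [q]) :: pos) neg)
            (loopE m sg base k l pos ((km, [q]) :: neg)) (xor' sg ng) := rfl
    rw [e1, mf_force, mf_force, mf_xor, List.map_cons, List.sum_cons]
    generalize xor sg ng = u
    cases u
    · rw [ih]
      cases σ <;> simp [mfS, mfVal] <;> ring
    · rw [ih]
      cases σ <;> simp [mfS, mfVal] <;> ring

theorem mf_loopF {g : ℕ → ℕ} {σ : Bool} {k : Gs → Gs → Gs × Gs} {c : ℕ} (h : mfAcc g σ k c)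
    (D q wm : ℕ) (ws : Bool) (l2 l : Adj) :
    mfAcc g σ (loopF D q wm ws l2 k l)
      (c + (l.map fun e' => (l2.map fun e => mfVal σ (e'.2.1 * wm * e.2.1)
        (xor (xor ws e'.2.2) e.2.2) * g ((e'.1 * 7 + q) * D + e.1)).sum).sum) := by
  induction l with
  | nil => exact h
  | cons e l ih =>
    obtain ⟨b, mag, ng⟩ := e
    have e1 : loopF D q wm ws l2 k ((b, mag, ng) :: l) =
        force (mag * wm) fun m => force ((b * 7 + q) * D) fun base =>
          Bool.rec (motive := fun _ => Gs → Gs → Gs × Gs)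
            (loopE m false base (loopF D q wm ws l2 k l) l2)
            (loopE m true base (loopF D q wm ws l2 k l) l2) (xor' ws ng) := rfl
    rw [e1, mf_force, mf_force, mf_xor, List.map_cons, List.sum_cons, add_comm (List.sum _),
      ← add_assoc]
    simp only
    generalize xor ws ng = u
    cases u
    · exact mf_loopE ih _ _ _ _
    · exact mf_loopE ih _ _ _ _

theorem mf_loopW (g : ℕ → ℕ) (σ : Bool) (AT : List Adj) (D a' a : ℕ)
    (l : List (ℕ × ℕ × ℕ × ℕ × Bool)) :
    mfAcc g σ (loopW AT D a' a l)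
      (l.map fun w => ((AT.getD (3 * a' + w.2.1) []).map fun e' =>
        ((AT.getD (3 * a + w.2.2.1) []).map fun e => mfVal σ (e'.2.1 * w.2.2.2.1 * e.2.1)
          (xor (xor w.2.2.2.2 e'.2.2) e.2.2) * g ((e'.1 * 7 + w.1) * D + e.1)).sum).sum).sum := by
  induction l with
  | nil => intro pos neg; rfl
  | cons w l ih =>
    obtain ⟨q, k', k, wm, ws⟩ := w
    have e1 : loopW AT D a' a ((q, k', k, wm, ws) :: l) =
        force (3 * a' + k') fun i' => force (3 * a + k) fun i =>
          loopF D q wm ws (nth AT i) (loopW AT D a' a l) (nth AT i') := rfl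
    rw [e1, mf_force, mf_force, mf_nth, mf_nth, List.map_cons, List.sum_cons,
      add_comm (List.sum _)]
    exact mf_loopF ih _ _ _ _ _ _

theorem mf_split (g : ℕ → ℕ) (σ : Bool) (l : List (ℤ × ℕ)) :
    mfS g σ (splitRow l) = (l.map fun e => mfInt σ e.1 * g e.2).sum := by
  induction l with
  | nil => cases σ <;> rfl
  | cons e l ih =>
    rw [List.map_cons, List.sum_cons, ← ih]
    cases σ
    · by_cases h : 0 < e.1
      · simp [mfS, splitRow, mfInt, h]
      · simp [mfS, splitRow, mfInt, h, Int.toNat_eq_zero.2 (not_lt.1 h)]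
    · by_cases h : e.1 < 0
      · simp [mfS, splitRow, mfInt, h]
      · have : (-e.1).toNat = 0 := Int.toNat_eq_zero.2 (by omega)
        simp [mfS, splitRow, mfInt, h, this]

theorem mf_sum_filter {α : Type} (l : List α) (p : α → Bool) (ψ : α → ℕ)
    (h : ∀ e, p e = false → ψ e = 0) : ((l.filter p).map ψ).sum = (l.map ψ).sum := by
  induction l with
  | nil => rfl
  | cons e l ih =>
    cases hp : p e
    · simp [hp, ih, h e hp]
    · simp [hp, ih]

theorem mf_sum_flatMap {α β : Type} (l : List α) (F : α → List β) (ψ : β → ℕ) :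
    ((l.flatMap F).map ψ).sum = (l.map fun w => ((F w).map ψ).sum).sum := by
  induction l with
  | nil => rfl
  | cons e l ih => simp [ih]

theorem mf_wl_lt (f f' : ℤ) (p : ℕ) : ∀ w ∈ wl f f' p, w.2.1 < 3 ∧ w.2.2.1 < 3 := by
  match p with
  | 0 | 1 | 2 | 3 | 4 | 5 => simp [wl]
  | _ + 6 => simp [wl]

theorem mf_mkAT (N Q D : ℕ) {a k : ℕ} (ha : a < D) (hk : k < 3) :
    (mkAT N Q D).getD (3 * a + k) [] = ((adj N Q D k a).filter fun e => e.2 != 0).map fun e =>
      (e.1, e.2.natAbs, decide (e.2 < 0)) := by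
  have h1 : 3 * a + k < 3 * D := by omega
  have h2 : (3 * a + k) % 3 = k := by omega
  have h3 : (3 * a + k) / 3 = a := by omega
  simp [mkAT, List.getD_eq_getElem?_getD, List.getElem?_range h1, h2, h3]

theorem mf_mkWT (f f' : ℤ) {p : ℕ} (hp : p < 7) :
    (mkWT f f').getD p [] = ((wl f f' p).filter fun w => w.2.2.2 != 0).map fun w =>
      (w.1, w.2.1, w.2.2.1, w.2.2.2.natAbs, decide (w.2.2.2 < 0)) := by
  simp only [mkWT, List.getD_eq_getElem?_getD, List.getElem?_map, List.getElem?_range hp,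
    Option.map_some, Option.getD_some]

theorem mf_row (N Q D : ℕ) (f f' : ℤ) {c : ℕ} (hc : c < 7 * D * D) (g : ℕ → ℕ) (σ : Bool) :
    mfS g σ (fastRow (mkAT N Q D) (mkWT f f') D c) = mfS g σ (splitRow (mpsEnt N Q D f f' c)) := by
  have hD : 0 < D := Nat.pos_of_ne_zero fun h => by simp [h] at hc
  have h1 : c / D / 7 < D := by
    rw [Nat.div_lt_iff_lt_mul (by norm_num), Nat.div_lt_iff_lt_mul hD, mul_comm D 7]
    exact hc
  have h2 : c % D < D := Nat.mod_lt _ hD
  have e1 : fastRow (mkAT N Q D) (mkWT f f') D c =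
      loopW (mkAT N Q D) D (c / D / 7) (c % D) (nthW (mkWT f f') (c / D % 7)) [] [] := by
    unfold fastRow
    rw [mf_force, mf_force, mf_force]
    rfl
  have e0 : mfS g σ ([], []) = 0 := by cases σ <;> rfl
  have hz : mfInt σ 0 = 0 := by cases σ <;> rfl
  rw [e1, mf_loopW, e0, zero_add, mf_nthW, mf_mkWT f f' (Nat.mod_lt _ (by norm_num)), mf_split,
    mpsEnt, mf_sum_flatMap, List.map_map, ← mf_sum_filter (wl f f' (c / D % 7))
      (fun w => w.2.2.2 != 0)]
  · congr 1
    refine List.map_congr_left fun w hw => ?_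
    have hw' := mf_wl_lt f f' _ w (List.mem_of_mem_filter hw)
    simp only [Function.comp]
    rw [mf_mkAT N Q D h1 hw'.1, mf_mkAT N Q D h2 hw'.2, mf_sum_flatMap, List.map_map,
      ← mf_sum_filter (adj N Q D w.2.1 (c / D / 7)) (fun e => e.2 != 0)]
    · congr 1
      refine List.map_congr_left fun e' _ => ?_
      simp only [Function.comp]
      rw [List.map_map, List.map_map,
        ← mf_sum_filter (adj N Q D w.2.2.1 (c % D)) (fun e => e.2 != 0)]
      · congr 1
        refine List.map_congr_left fun e _ => ?_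
        simp only [Function.comp]
        rw [mf_val_mul]
      · intro e he
        have : e.2 = 0 := by simpa using he
        simp [this, hz]
    · intro e' he
      have : e'.2 = 0 := by simpa using he
      simp [this, hz, Function.comp_def]
  · intro w hw
    have : w.2.2.2 = 0 := by simpa using hw
    rw [mf_sum_flatMap]
    simp [this, hz, Function.comp_def]

theorem mf_wt1 (r : Gs × Gs) : wt r.1 = mfS (fun _ => 1) false r := by simp [wt_eq, mfS]

theorem mf_wt2 (r : Gs × Gs) : wt r.2 = mfS (fun _ => 1) true r := by simp [wt_eq, mfS]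

theorem mf_ev1 (g : ℕ → ℕ) (r : Gs × Gs) (a : ℕ) : evalG g r.1 a = a + mfS g false r := by
  simp [evalG_eq, mfS]

theorem mf_ev2 (g : ℕ → ℕ) (r : Gs × Gs) (a : ℕ) : evalG g r.2 a = a + mfS g true r := by
  simp [evalG_eq, mfS]

theorem mf_ok_lt {Q D dl c : ℕ} (h : mpsOk Q D dl c = true) : c < 7 * D * D := by
  simp only [mpsOk, Bool.and_eq_true, decide_eq_true_eq] at h
  exact h.1

theorem mf_build (emp : ℕ → ℕ → Bool) (f f' : ℕ → ℕ) (h : ∀ c, emp 0 c = false → f c = f' c)
    (n : ℕ) : build emp f n = build emp f' n := by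
  induction n with
  | zero =>
    funext c
    show Bool.rec (motive := fun _ => ℕ) (f c) 0 (emp 0 c) =
      Bool.rec (motive := fun _ => ℕ) (f' c) 0 (emp 0 c)
    cases hc : emp 0 c
    · exact h c hc
    · rfl
  | succ n ih =>
    funext c
    cases hc : emp (n + 1) c
    · rw [tree_build_succ _ _ _ _ hc, tree_build_succ _ _ _ _ hc, ih]
    · unfold build
      simp only [hc]

theorem mf_leaf (M : Mat) (B' mask : ℕ) (x o : T M.n) (c : ℕ) :
    leaf M B' mask x o c = Nat.land (Nat.sub
      (evalG (fun q => Nat.shiftRight (get M.n x q) M.s) (M.row c).1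
        (Nat.mul (Nat.sub (Nat.add M.base (wt (M.row c).2)) (wt (M.row c).1)) B'))
      (evalG (fun q => Nat.shiftRight (get M.n x q) M.s) (M.row c).2
        (Bool.rec (motive := fun _ => Nat) 0 (get M.n o c) M.old))) mask := rfl

theorem rowsLe_sound {AT : List Adj} {WT : WTab} {Q D dl Λ lo k : ℕ}
    (h : rowsLe AT WT Q D dl Λ lo k = true) : RowsOK AT WT Q D dl Λ lo (lo + k) := by
  induction k with
  | zero => intro c h1 h2; omega
  | succ k ih =>
    have e1 : rowsLe AT WT Q D dl Λ lo (k + 1) = force (lo + k) fun c => and'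
        (Bool.rec (motive := fun _ => Bool) true
          (Nat.ble (wt (fastRow AT WT D c).1 + wt (fastRow AT WT D c).2) Λ) (mpsOk Q D dl c))
        (rowsLe AT WT Q D dl Λ lo k) := rfl
    rw [e1, mf_force, and'_iff] at h
    intro c h1 h2 h3
    rcases Nat.lt_or_ge c (lo + k) with h4 | h4
    · exact ih h.2 c h1 h4 h3
    · obtain rfl : c = lo + k := by omega
      have h5 := h.1
      rw [h3] at h5
      exact Nat.le_of_ble_eq_true h5

theorem RowsOK.append {AT : List Adj} {WT : WTab} {Q D dl Λ lo mid hi : ℕ}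
    (h : RowsOK AT WT Q D dl Λ lo mid) (h' : RowsOK AT WT Q D dl Λ mid hi) :
    RowsOK AT WT Q D dl Λ lo hi := by
  intro c h1 h2 h3
  rcases Nat.lt_or_ge c mid with h4 | h4
  · exact h c h1 h4 h3
  · exact h' c h4 h2 h3

theorem check_fast {N Q D : ℕ} {f f' : ℤ} {AT : List Adj} {WT : WTab} (hA : mkAT N Q D = AT)
    (hW : mkWT f f' = WT) {dl n s t : ℕ} {J : Job}
    (h : check (mpsMatF AT WT Q D dl n s t) J = true) :
    check (mpsMat N Q D f f' dl n s t) J = true := by
  subst hA hW
  refine check_of (mpsMat N Q D f f' dl n s t) J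
    (genBuild (mpsMatF (mkAT N Q D) (mkWT f f') Q D dl n s t))
    (genStep (mpsMatF (mkAT N Q D) (mkWT f f') Q D dl n s t)) rfl ?_ h
  funext B' mask x o
  refine congrFun (mf_build (mpsEmp Q D dl) _ _ (fun c hc => ?_) n) 0
  have hc' : c < 7 * D * D := mf_ok_lt (by simpa [mpsEmp] using hc)
  rw [mf_leaf, mf_leaf, mf_wt1, mf_wt2, mf_ev1, mf_ev2, mf_wt1, mf_wt2, mf_ev1, mf_ev2]
  show _ = Nat.land (Nat.sub (_ + mfS _ false (fastRow _ _ D c)) (_ + mfS _ true (fastRow _ _ D c))) _
  simp only [mpsMatF, mf_row N Q D f f' hc']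
  rfl

theorem mpsCheck_fast {N Q D : ℕ} {f f' : ℤ} {AT : List Adj} {WT : WTab} (hA : mkAT N Q D = AT)
    (hW : mkWT f f' = WT) {dl n s t Λ : ℕ} (h : RowsOK AT WT Q D dl Λ 0 (7 * D * D))
    (hc : 7 * D * D ≤ 9 ^ n ∧ t ≤ 2 ^ s ∧ Λ ≤ 2 ^ (s + 1) * t + 2 ^ s) :
    mpsCheck N Q D f f' dl n s t Λ = true := by
  subst hA hW
  simp only [mpsCheck, Bool.and_eq_true, decide_eq_true_eq, List.all_eq_true, List.mem_range,
    Bool.or_eq_true, Bool.not_eq_true']
  refine ⟨⟨⟨hc.1, hc.2.1⟩, hc.2.2⟩, fun c hc' => ?_⟩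
  cases ho : mpsOk Q D dl c
  · exact Or.inl rfl
  · refine Or.inr (Nat.ble_eq_true_of_le ?_)
    have := h c (Nat.zero_le _) hc' ho
    rw [mf_wt1, mf_wt2, mf_row N Q D f f' hc', mf_row N Q D f f' hc'] at this
    rwa [mf_wt1, mf_wt2]

end Crest.Agent.R347.Eng
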