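import Crest.Agent.R347.Moments
import Crest.Agent.R347.SpecBound
import Crest.Agent.R347.ExpApprox

/-!
# Row 347: from moments to partition functions   (task R347/Near)

`P.A = (1/2^s) • (m • H - c₀ • 1)`; use `spec_ring`/`spec_open` with `Spec.affine`, `boltz_affine`,
`near_of_mom`, `spinA_herm`, `tens_rep`/`rot_rep` (for `Gᴴ * G = 1`), `Fintype.card (Cfg L) = 3^L`.
-/

set_option autoImplicit false

namespace Crest.Agent.R347.Eng

open Matrix

/-- a priori bounds `-lo ≤ H ≤ hi` -/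
def Par.lo (P : Par) : ℚ := if P.kind ≤ 1 then 3 * (P.l + 1) / 2 else 3 * (P.l + 1) / 2 + 1 / 5
def Par.hi (P : Par) : ℚ := if P.kind ≤ 1 then P.l + 1 else P.l + 6 / 5
def Par.y0 (P : Par) : ℚ := -(P.m * P.lo + spinC P.l P.kind P.m P.f P.eP P.eN) / 2 ^ P.s

def Par.ok2 (P : Par) : Prop :=
  1 ≤ P.l ∧ (P.kind ≤ 1 → 2 ≤ P.l) ∧ P.kind ≤ 3 ∧ 0 < P.m ∧ -2 ≤ P.y0 ∧
    (P.m * P.hi - spinC P.l P.kind P.m P.f P.eP P.eN) / 2 ^ P.s ≤ 2

instance (P : Par) : Decidable P.ok2 := by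
  unfold Par.ok2; infer_instance

theorem near_A (P : Par) : P.A = ((1 / 2 ^ P.s : ℝ) : ℂ) • (((P.m : ℝ) : ℂ) • spinH P.l P.kind -
    (((spinC P.l P.kind P.m P.f P.eP P.eN : ℤ) : ℝ) : ℂ) • 1) := by
  unfold Par.A spinA
  push_cast
  rfl

theorem near_specH (P : Par) (h : P.ok2) : Spec (spinH P.l P.kind) (-(P.lo : ℝ)) (P.hi : ℝ) := by
  obtain ⟨h1, h2, -, -⟩ := h
  unfold spinH Par.lo Par.hi
  by_cases hk : P.kind ≤ 1
  · have h3 : 3 ≤ P.l + 1 := by have := h2 hk; omega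
    simp only [if_pos hk]
    push_cast
    split_ifs with h4 h5 h6
    · simpa using spec_ring h3 none
    · simpa using spec_ring h3 (some 2)
    · omega
    · omega
  · simp only [if_neg hk]
    push_cast
    split_ifs with h4 h5 h6
    · omega
    · omega
    · exact spec_open h1 (by simp) (by simp)
    · exact spec_open h1 (by simp) (by simp)

theorem near_spec (P : Par) (h : P.ok2) {lo : ℝ} (hlo : lo ≤ (P.y0 : ℚ)) : Spec P.A lo 2 := by
  rw [near_A]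
  refine (near_specH P h).affine (by positivity) (by positivity) (hlo.trans (le_of_eq ?_)) ?_
  · unfold Par.y0
    push_cast
    ring
  · have h2 : (((P.m * P.hi - spinC P.l P.kind P.m P.f P.eP P.eN) / 2 ^ P.s : ℚ) : ℝ) ≤ (2 : ℚ) :=
      Rat.cast_le.2 h.2.2.2.2.2
    push_cast at h2
    refine le_trans (le_of_eq ?_) h2
    ring

theorem Par.spec (P : Par) (h : P.ok2) : Spec P.A (P.y0 : ℚ) 2 := by
  exact near_spec P h le_rfl

theorem Par.spec2 (P : Par) (h : P.ok2) : Spec P.A (-2) 2 := by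
  refine near_spec P h ?_
  exact_mod_cast h.2.2.2.2.1

def Par.nearOK (P : Par) (V : List ℤ) (j : ℕ) (z δ : ℚ) : Prop :=
  NearOK V P.F P.err (3 ^ (P.l + 1)) ((j : ℚ) / 2 * 2 ^ P.s / P.m) P.y0 ((eta ^ (P.l + 1)) ^ j) z δ

instance (P : Par) (V : List ℤ) (j : ℕ) (z δ : ℚ) : Decidable (P.nearOK V j z δ) := by
  unfold Par.nearOK; infer_instance

theorem Mom.one {L F err : ℕ} {A : Matrix (Cfg L) (Cfg L) ℂ} {V : List ℤ} (h : Mom A 1 F V err) :
    Mom A (tens L (rot none)) F V err := by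
  rwa [(tens_rep L rot_rep).one]

theorem near_core (P : Par) (hP : P.ok2) {G : Matrix (Cfg (P.l + 1)) (Cfg (P.l + 1)) ℂ}
    (hG : Gᴴ * G = 1) {V : List ℤ} (hM : Mom P.A G P.F V P.err) {j : ℕ} {z δ : ℚ}
    (hc : P.nearOK V j z δ) :
    |((eta : ℝ) ^ (P.l + 1)) ^ j * (G * boltz (spinH P.l P.kind) P.lo (j / 2)).trace.re - z| ≤ δ := by
  have h1 := near_of_mom (spinA_herm P.l P.kind P.m P.f P.eP P.eN P.s) (P.spec hP) hG hM
    (card := 3 ^ (P.l + 1)) (by simp) hc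
  have hm : (P.m : ℝ) ≠ 0 := by exact_mod_cast hP.2.2.2.1.ne'
  have h2 : boltz P.A (-((P.y0 : ℚ) : ℝ)) (((j : ℚ) / 2 * 2 ^ P.s / P.m : ℚ) : ℝ) =
      boltz (spinH P.l P.kind) P.lo (j / 2) := by
    rw [near_A]
    refine boltz_affine _ ?_ ?_
    · push_cast
      field_simp
    · unfold Par.y0
      push_cast
      ring
  rw [← h2]
  simpa only [Par.A, Rat.cast_pow] using h1

theorem near_unit (L : ℕ) (h : Aux) : (tens L (rot h))ᴴ * tens L (rot h) = 1 := by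
  have h1 := tens_rep L rot_rep
  rw [(h1.herm h).eq, h1.mul, ← h1.one]
  cases h <;> simp [gmul]

theorem ring_near (P : Par) (hP : P.ok2) {g : Aux}
    (hg : (P.kind = 0 ∧ g = none) ∨ (P.kind = 1 ∧ g = some 2)) {h : Aux} {V : List ℤ}
    (hM : Mom P.A (tens (P.l + 1) (rot h)) P.F V P.err) {j : ℕ} {z δ : ℚ}
    (hc : P.nearOK V j z δ) : |Zr (P.l + 1) g h j - z| ≤ δ := by
  have h1 := near_core P hP (near_unit (P.l + 1) h) hM hc
  have h2 : spinH P.l P.kind = ringH (P.l + 1) g := by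
    rcases hg with ⟨hk, rfl⟩ | ⟨hk, rfl⟩ <;> simp [spinH, hk]
  have h3 : ((P.lo : ℚ) : ℝ) = 3 * ((P.l + 1 : ℕ) : ℝ) / 2 := by
    have : P.kind ≤ 1 := by rcases hg with ⟨hk, -⟩ | ⟨hk, -⟩ <;> omega
    unfold Par.lo
    rw [if_pos this]
    push_cast
    ring
  rw [h2, h3] at h1
  exact h1

theorem ring_near_neg (P : Par) (hP : P.ok2) {g : Aux}
    (hg : (P.kind = 0 ∧ g = none) ∨ (P.kind = 1 ∧ g = some 2)) {h : Aux} {V : List ℤ}
    (hM : Mom P.A (tens (P.l + 1) (rot h)) P.F V P.err) {j : ℕ} {z δ : ℚ}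
    (hc : P.nearOK V j (-z) δ) : |-Zr (P.l + 1) g h j - z| ≤ δ := by
  have h1 := ring_near P hP hg hM hc
  rw [← abs_neg] at h1
  convert h1 using 2
  push_cast
  ring

theorem open_near (P : Par) (hP : P.ok2) {k : ℕ} (hk : P.l = k + 1) {s' : ℝ}
    (hs : (P.kind = 2 ∧ s' = -1) ∨ (P.kind = 3 ∧ s' = 1)) {V : List ℤ} (hM : Mom P.A 1 P.F V P.err)
    {j : ℕ} {z δ : ℚ} (hc : P.nearOK V j z δ) : |Zo k 1 s' j - z| ≤ δ := by
  have h1 := near_core P hP (G := 1) (by simp) hM hc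
  have h2 : spinH P.l P.kind = openH P.l 1 s' := by
    rcases hs with ⟨hk, rfl⟩ | ⟨hk, rfl⟩ <;> simp [spinH, hk]
  have h3 : ((P.lo : ℚ) : ℝ) = 3 * ((k : ℝ) + 2) / 2 + 1 / 5 := by
    have : ¬ P.kind ≤ 1 := by rcases hs with ⟨hk, -⟩ | ⟨hk, -⟩ <;> omega
    unfold Par.lo
    rw [if_neg this, hk]
    push_cast
    ring
  rw [h2, h3, Matrix.one_mul] at h1
  generalize P.l = l at h1 hk
  subst hk
  exact h1

end Crest.Agent.R347.Eng
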