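import Crest.Agent.R347.SysBasic

/-!
# Row 347: rules for the chains with two ends   (task R347/ORules)

You may use `TopBasic`, `TopPsi`, `SysBasic` (other tasks).  Notation: `T n = ω A^n`,
`r n = Ao (2n) - T n ≥ 0`, `b n = Bo (2n) ≥ 0`, `Ze2 n = T n + r n + b n`.
-/

set_option autoImplicit false

namespace Crest.Agent.R347

namespace OSys

variable {O : OSys} {n j : ℕ}

/-- real form: `rest_pow` gives `r (n+1) ≤ ρ A r n`; iterate -/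
theorem rest_decay (hj : 1 ≤ j) {ρ : ℝ} (hρ : 0 ≤ ρ) {i : ℕ} (hi : 1 ≤ i)
    (h : O.S0 i j - O.A j ^ i ≤ (ρ * O.A j) ^ i) (n d : ℕ) :
    O.Ao (2 * (n + d)) j - O.ω j * O.A j ^ (n + d) ≤
      (ρ * O.A j) ^ d * (O.Ao (2 * n) j - O.ω j * O.A j ^ n) := by
  have hA := (O.toSys.A_pos hj).le
  have hstep : ∀ m : ℕ, O.Ao (2 * (m + 1)) j - O.ω j * O.A j ^ (m + 1) ≤
      ρ * O.A j * (O.Ao (2 * m) j - O.ω j * O.A j ^ m) := by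
    intro m
    have h0 : 0 ≤ O.Ao (2 * m) j - O.ω j * O.A j ^ m := sub_nonneg.2 (O.top_le j hj m)
    have h1 := O.rest_pow j hj m i hi
    have h2 : (O.Ao (2 * m + 2) j - O.ω j * O.A j ^ (m + 1)) ^ i ≤
        (ρ * O.A j * (O.Ao (2 * m) j - O.ω j * O.A j ^ m)) ^ i := by
      rw [mul_pow]
      exact h1.trans (mul_le_mul_of_nonneg_right h (pow_nonneg h0 _))
    exact le_of_pow_le_pow_left₀ (by omega) (by positivity) h2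
  induction d with
  | zero => simp
  | succ d ih =>
    rw [← add_assoc]
    refine (hstep (n + d)).trans ?_
    rw [pow_succ' (ρ * O.A j), mul_assoc (ρ * O.A j)]
    exact mul_le_mul_of_nonneg_left ih (by positivity)

theorem B_decay (hj : 1 ≤ j) {r : ℝ} (h : O.A1 j ≤ r) (n d : ℕ) :
    O.Bo (2 * (n + d)) j ≤ r ^ d * O.Bo (2 * n) j := by
  have hr : 0 ≤ r := (O.tS1 j hj).nonneg.trans h
  induction d with
  | zero => simp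
  | succ d ih =>
    have h1 := O.B_anti j hj (n + d)
    have h2 := mul_le_mul_of_nonneg_right h (O.B_nonneg j hj (n + d))
    have h3 := mul_le_mul_of_nonneg_left ih hr
    rw [← add_assoc, pow_succ' r, mul_assoc r]
    exact h1.trans (h2.trans h3)

/-- `rest_anti`, `B_anti`, `A1_le_A` -/
theorem Ze2_growth (hj : 1 ≤ j) (n d : ℕ) : O.Ze2 (n + d) j ≤ O.A j ^ d * O.Ze2 n j := by
  have hA := (O.toSys.A_pos hj).le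
  induction d with
  | zero => simp
  | succ d ih =>
    have h1 := O.rest_anti j hj (n + d)
    have h2 := O.B_anti j hj (n + d)
    have h3 := mul_le_mul_of_nonneg_right (O.toSys.A1_le_A hj) (O.B_nonneg j hj (n + d))
    have h4 := mul_le_mul_of_nonneg_left ih hA
    have e : 2 * (n + (d + 1)) = 2 * (n + d) + 2 := by ring
    unfold Ze2 at h4 ⊢
    rw [e, pow_succ' (O.A j) d]
    rw [pow_succ' (O.A j) (n + d)] at h1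
    nlinarith

theorem top_le_Ze2 (hj : 1 ≤ j) (n : ℕ) : O.ω j * O.A j ^ n ≤ O.Ze2 n j := by
  have h1 := O.top_le j hj n
  have h2 := O.B_nonneg j hj n
  unfold Ze2
  linarith

/-- real form of `Sop`: with `R n = r n + b n`, `R (n+d) ≤ (ρ A)^d R n` -/
theorem Ze2_decay (hj : 1 ≤ j) {ρ : ℝ} (hρ : 0 ≤ ρ) {i : ℕ} (hi : 1 ≤ i)
    (h : O.S0 i j - O.A j ^ i ≤ (ρ * O.A j) ^ i) (h1 : O.A1 j ≤ ρ * O.A j) (n d : ℕ) :
    O.Ze2 (n + d) j - O.ω j * O.A j ^ (n + d) ≤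
      (ρ * O.A j) ^ d * (O.Ze2 n j - O.ω j * O.A j ^ n) := by
  have a1 := rest_decay hj hρ hi h n d
  have a2 := B_decay hj h1 n d
  unfold Ze2
  linarith

theorem CoLo {c : ℚ} (h : ∀ j, 1 ≤ j → (c : ℝ) ^ j ≤ O.Ze2 n j) : (c : ℝ) ≤ O.Co n := by
  exact (O.topo n).le_of zero_le_one fun i hi => by rw [one_mul]; exact h i hi

theorem To.pow {j' : ℕ} {t t' : ℚ} (h : O.To n j t)
    (hc : 1 ≤ j ∧ j ≤ j' ∧ 0 ≤ t' ∧ t ^ j' ≤ t' ^ j) : O.To n j' t' := by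
  obtain ⟨h1, h2, h3, h4⟩ := hc
  exact (O.topo n).ratio h1 h2 h (by exact_mod_cast h3) (by exact_mod_cast h4)

/-- `k = n - 2`: `r n ≤ r0^k (o0 - ω al^2)`, `b n ≤ r1^k o1`, `T n ≤ ω Au^n`, so
`Ze2 n ≤ r0^k o0 + ω (Au^n - r0^k al^2) + r1^k o1`. -/
theorem ToI {o0 o1 wb al Au ρ r1 co t : ℚ} (h0 : O.Ao 4 j ≤ (o0 : ℝ)) (h1 : O.Bo 4 j ≤ (o1 : ℝ))
    (hw : O.ω j ≤ (wb : ℝ)) (hal : (al : ℝ) ≤ O.A j) (hAu : O.A j ≤ (Au : ℝ)) (hρ : O.Rh0 j ρ)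
    (hr1 : O.A1 j ≤ (r1 : ℝ)) (hco : (co : ℝ) ≤ O.Co n) (r0 : ℚ)
    (hc : 2 ≤ n ∧ 1 ≤ j ∧ 0 ≤ al ∧ ρ * Au ≤ r0 ∧ 0 ≤ co ∧ 0 ≤ t ∧ r0 ^ (n - 2) * al ^ 2 ≤ Au ^ n ∧
      r0 ^ (n - 2) * o0 + wb * (Au ^ n - r0 ^ (n - 2) * al ^ 2) + r1 ^ (n - 2) * o1 ≤
        (1 + t) * co ^ j) : O.To n j t := by
  obtain ⟨hn, hj, c1, c2, c3, c4, c5, c6⟩ := hc
  obtain ⟨k, rfl⟩ : ∃ k, n = 2 + k := ⟨n - 2, by omega⟩
  rw [Nat.add_sub_cancel_left] at c5 c6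
  obtain ⟨hρ0, i, hi, hρi⟩ := hρ
  have hρ0' : (0 : ℝ) ≤ ρ := by exact_mod_cast hρ0
  have c1' : (0 : ℝ) ≤ al := by exact_mod_cast c1
  have c2' : (ρ : ℝ) * Au ≤ r0 := by exact_mod_cast c2
  have c3' : (0 : ℝ) ≤ co := by exact_mod_cast c3
  have c4' : (0 : ℝ) ≤ t := by exact_mod_cast c4
  have c5' : (r0 : ℝ) ^ k * al ^ 2 ≤ Au ^ (2 + k) := by exact_mod_cast c5
  have c6' : (r0 : ℝ) ^ k * o0 + wb * (Au ^ (2 + k) - r0 ^ k * al ^ 2) + r1 ^ k * o1 ≤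
      (1 + t) * co ^ j := by exact_mod_cast c6
  have hA := (O.toSys.A_pos hj).le
  have hω := O.w_nonneg j hj
  have hr1' : (0 : ℝ) ≤ r1 := (O.tS1 j hj).nonneg.trans hr1
  have hr0 : ρ * O.A j ≤ r0 := (mul_le_mul_of_nonneg_left hAu hρ0').trans c2'
  have hr0' : (0 : ℝ) ≤ r0 := le_trans (by positivity) hr0
  have a1 := rest_decay hj hρ0' hi hρi 2 k
  have a2 := B_decay hj hr1 2 k
  have a3 : 0 ≤ O.Ao (2 * 2) j - O.ω j * O.A j ^ 2 := sub_nonneg.2 (O.top_le j hj 2)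
  have a4 : ((ρ : ℝ) * O.A j) ^ k * (O.Ao (2 * 2) j - O.ω j * O.A j ^ 2) ≤
      r0 ^ k * (o0 - O.ω j * al ^ 2) := by
    refine mul_le_mul (pow_le_pow_left₀ (by positivity) hr0 k) ?_ a3 (by positivity)
    have := mul_le_mul_of_nonneg_left (pow_le_pow_left₀ c1' hal 2) hω
    have h0' : O.Ao (2 * 2) j ≤ o0 := h0
    linarith
  have a5 : (r1 : ℝ) ^ k * O.Bo (2 * 2) j ≤ r1 ^ k * o1 :=
    mul_le_mul_of_nonneg_left h1 (by positivity)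
  have a6 := mul_le_mul_of_nonneg_left (pow_le_pow_left₀ hA hAu (2 + k)) hω
  have a7 := mul_le_mul_of_nonneg_right hw (sub_nonneg.2 c5')
  have a8 : (1 + (t : ℝ)) * co ^ j ≤ (1 + t) * O.Co (2 + k) ^ j :=
    mul_le_mul_of_nonneg_left (pow_le_pow_left₀ c3' hco j) (by positivity)
  unfold To Ze2
  linarith

/-- `k = n - 2`, `R = r n + b n ≤ o0 r0^k + o1 r1^k`, `T + R = Ze2 ≥ co^j`.  So
`w2 Au^k ≤ T n = (ω A^2) A^k ≤ (ω A^2) Au^k`, i.e. `w2 ≤ ω A^2` (`Au ≥ A > 0`), hence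
`R ≤ (o0 - w2) r0^k + o1 r1^k ≤ R'` and `R ≤ R' ≤ s (co^j - R') ≤ s T`. -/
theorem SoI {o0 o1 Au ρ r1 co s : ℚ} (h0 : O.Ao 4 j ≤ (o0 : ℝ)) (h1 : O.Bo 4 j ≤ (o1 : ℝ))
    (hAu : O.A j ≤ (Au : ℝ)) (hρ : O.Rh0 j ρ) (hr1 : O.A1 j ≤ (r1 : ℝ)) (hco : (co : ℝ) ≤ O.Co n)
    (r0 w2 R' : ℚ)
    (hc : 2 ≤ n ∧ 1 ≤ j ∧ ρ * Au ≤ r0 ∧ 0 ≤ co ∧ 0 ≤ s ∧
      w2 * Au ^ (n - 2) ≤ co ^ j - (o0 * r0 ^ (n - 2) + o1 * r1 ^ (n - 2)) ∧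
      (o0 - w2) * r0 ^ (n - 2) + o1 * r1 ^ (n - 2) ≤ R' ∧ R' ≤ s * (co ^ j - R')) :
    O.So n j s := by
  obtain ⟨hn, hj, c2, c3, c4, c5, c6, c7⟩ := hc
  obtain ⟨k, rfl⟩ : ∃ k, n = 2 + k := ⟨n - 2, by omega⟩
  rw [Nat.add_sub_cancel_left] at c5 c6
  obtain ⟨hρ0, i, hi, hρi⟩ := hρ
  have hρ0' : (0 : ℝ) ≤ ρ := by exact_mod_cast hρ0
  have c2' : (ρ : ℝ) * Au ≤ r0 := by exact_mod_cast c2
  have c3' : (0 : ℝ) ≤ co := by exact_mod_cast c3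
  have c4' : (0 : ℝ) ≤ s := by exact_mod_cast c4
  have c5' : (w2 : ℝ) * Au ^ k ≤ co ^ j - (o0 * r0 ^ k + o1 * r1 ^ k) := by exact_mod_cast c5
  have c6' : ((o0 : ℝ) - w2) * r0 ^ k + o1 * r1 ^ k ≤ R' := by exact_mod_cast c6
  have c7' : (R' : ℝ) ≤ s * (co ^ j - R') := by exact_mod_cast c7
  have hA0 := O.toSys.A_pos hj
  have hA := hA0.le
  have hω := O.w_nonneg j hj
  have hr1' : (0 : ℝ) ≤ r1 := (O.tS1 j hj).nonneg.trans hr1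
  have hr0 : ρ * O.A j ≤ r0 := (mul_le_mul_of_nonneg_left hAu hρ0').trans c2'
  have hr0' : (0 : ℝ) ≤ r0 := le_trans (by positivity) hr0
  have a1 := rest_decay hj hρ0' hi hρi 2 k
  have a2 := B_decay hj hr1 2 k
  have a3 : 0 ≤ O.Ao (2 * 2) j - O.ω j * O.A j ^ 2 := sub_nonneg.2 (O.top_le j hj 2)
  have a4 : ((ρ : ℝ) * O.A j) ^ k * (O.Ao (2 * 2) j - O.ω j * O.A j ^ 2) ≤
      r0 ^ k * (o0 - O.ω j * O.A j ^ 2) := by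
    refine mul_le_mul (pow_le_pow_left₀ (by positivity) hr0 k) ?_ a3 (by positivity)
    have h0' : O.Ao (2 * 2) j ≤ o0 := h0
    linarith
  have a5 : (r1 : ℝ) ^ k * O.Bo (2 * 2) j ≤ r1 ^ k * o1 :=
    mul_le_mul_of_nonneg_left h1 (by positivity)
  have a6 : (co : ℝ) ^ j ≤ O.Ze2 (2 + k) j :=
    (pow_le_pow_left₀ c3' hco j).trans ((O.topo (2 + k)).pow_le hj)
  have a7 : 0 ≤ (r0 : ℝ) ^ k * (O.ω j * O.A j ^ 2) := by positivity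
  have a8 : O.ω j * O.A j ^ (2 + k) ≤ O.ω j * O.A j ^ 2 * Au ^ k := by
    rw [pow_add, ← mul_assoc]
    exact mul_le_mul_of_nonneg_left (pow_le_pow_left₀ hA hAu k) (by positivity)
  have hAu0 : (0 : ℝ) < (Au : ℝ) ^ k := pow_pos (hA0.trans_le hAu) k
  unfold Ze2 at a6
  have a9 : (w2 : ℝ) ≤ O.ω j * O.A j ^ 2 := le_of_mul_le_mul_right (by linarith) hAu0
  have a10 := mul_le_mul_of_nonneg_left a9 (pow_nonneg hr0' k)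
  have a11 : O.Ao (2 * (2 + k)) j + O.Bo (2 * (2 + k)) j - O.ω j * O.A j ^ (2 + k) ≤ R' := by
    linarith
  have a12 : (s : ℝ) * (co ^ j - R') ≤ s * (O.ω j * O.A j ^ (2 + k)) :=
    mul_le_mul_of_nonneg_left (by linarith) c4'
  unfold So Ze2
  linarith

theorem Sop {n0 : ℕ} {s ρ0 ρ1 s' : ℚ} (h : O.So n0 j s) (h0 : O.Rh0 j ρ0) (h1 : O.Rh1 j ρ1) (ρ : ℚ)
    (hc : n0 ≤ n ∧ 1 ≤ j ∧ ρ0 ≤ ρ ∧ ρ1 ≤ ρ ∧ 0 ≤ s ∧ s * ρ ^ (n - n0) ≤ s') : O.So n j s' := by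
  obtain ⟨hn, hj, c1, c2, c3, c4⟩ := hc
  obtain ⟨d, rfl⟩ : ∃ d, n = n0 + d := ⟨n - n0, by omega⟩
  rw [Nat.add_sub_cancel_left] at c4
  obtain ⟨hρ0, i, hi, hρi⟩ := h0
  have hρ0' : (0 : ℝ) ≤ ρ0 := by exact_mod_cast hρ0
  have c1' : (ρ0 : ℝ) ≤ ρ := by exact_mod_cast c1
  have c2' : (ρ1 : ℝ) ≤ ρ := by exact_mod_cast c2
  have c4' : (s : ℝ) * ρ ^ d ≤ s' := by exact_mod_cast c4
  have hρ : (0 : ℝ) ≤ ρ := hρ0'.trans c1'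
  have hA := (O.toSys.A_pos hj).le
  have hω := O.w_nonneg j hj
  have a1 := Ze2_decay hj hρ hi
    (hρi.trans (pow_le_pow_left₀ (by positivity) (mul_le_mul_of_nonneg_right c1' hA) i))
    (le_trans h1 (mul_le_mul_of_nonneg_right c2' hA)) n0 d
  unfold So at h ⊢
  have a2 : ((ρ : ℝ) * O.A j) ^ d * (O.Ze2 n0 j - O.ω j * O.A j ^ n0) ≤
      (ρ * O.A j) ^ d * (s * (O.ω j * O.A j ^ n0)) :=
    mul_le_mul_of_nonneg_left (by linarith) (by positivity)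
  have a3 : ((ρ : ℝ) * O.A j) ^ d * (s * (O.ω j * O.A j ^ n0)) =
      s * ρ ^ d * (O.ω j * O.A j ^ (n0 + d)) := by
    rw [mul_pow, pow_add]
    ring
  have a4 := mul_le_mul_of_nonneg_right c4'
    (by positivity : 0 ≤ O.ω j * O.A j ^ (n0 + d))
  linarith

end OSys

end Crest.Agent.R347
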