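import Crest.Agent.R347.Tens

/-!
# Row 347: symmetry sectors of a Hermitian matrix, and `boltz`   (task R347/Sector)

`sector`: `T' = P * T` is Hermitian, `T'^t = P * T^t` for `t ≥ 1`, and `l† T^t l = l† T'^t l` for all `t`;
use the spectral theorem for `T'` (`Matrix.IsHermitian.spectral_theorem`), `x` = eigenvalues,
`w k = ‖(U† l) k‖²`.  If `T ≥ 0` then `T' = P† T P ≥ 0`.
-/

set_option autoImplicit false

namespace Crest.Agent.R347

open Matrix
open scoped ComplexOrder

variable {n : Type} [Fintype n] [DecidableEq n]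

theorem spec_eq {A : Matrix n n ℂ} (hA : A.IsHermitian) :
    A = (hA.eigenvectorUnitary : Matrix n n ℂ) *
      Matrix.diagonal (fun k => ((hA.eigenvalues k : ℝ) : ℂ)) *
      star (hA.eigenvectorUnitary : Matrix n n ℂ) := by
  have := hA.spectral_theorem
  rw [Unitary.conjStarAlgAut_apply] at this
  exact this

theorem conj_diag_pow (U : Matrix n n ℂ) (hU : star U * U = 1) (hU' : U * star U = 1)
    (d : n → ℂ) (t : ℕ) :
    (U * Matrix.diagonal d * star U) ^ t = U * Matrix.diagonal (fun k => d k ^ t) * star U := by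
  induction t with
  | zero => simp [hU']
  | succ t ih =>
    rw [pow_succ, ih]
    calc U * Matrix.diagonal (fun k => d k ^ t) * star U * (U * Matrix.diagonal d * star U)
        = U * (Matrix.diagonal (fun k => d k ^ t) * (star U * U) * Matrix.diagonal d) * star U := by
          simp only [Matrix.mul_assoc]
      _ = _ := by
          rw [hU, Matrix.mul_one, Matrix.diagonal_mul_diagonal]
          simp only [pow_succ]

theorem conj_diag_trace (U : Matrix n n ℂ) (hU : star U * U = 1) (d : n → ℂ) :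
    (U * Matrix.diagonal d * star U).trace = ∑ k, d k := by
  rw [Matrix.trace_mul_cycle, hU, Matrix.one_mul, Matrix.trace_diagonal]

theorem conj_diag_form (U : Matrix n n ℂ) (d : n → ℂ) (l : n → ℂ) :
    star l ⬝ᵥ ((U * Matrix.diagonal d * star U) *ᵥ l) =
      ∑ k, (Complex.normSq ((star U *ᵥ l) k) : ℂ) * d k := by
  rw [← Matrix.mulVec_mulVec, ← Matrix.mulVec_mulVec, Matrix.dotProduct_mulVec]
  have h1 : star l ᵥ* U = star (star U *ᵥ l) := by
    rw [Matrix.star_mulVec, Matrix.star_eq_conjTranspose, Matrix.conjTranspose_conjTranspose]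
  rw [h1]
  unfold dotProduct
  refine Finset.sum_congr rfl fun k _ => ?_
  rw [Matrix.mulVec_diagonal, Pi.star_apply, Complex.normSq_eq_conj_mul_self]
  simp only [Complex.star_def]
  ring

theorem sector (T P : Matrix n n ℂ) (hT : T.IsHermitian) (hP : P.IsHermitian) (hPP : P * P = P)
    (hc : P * T = T * P) (l : n → ℂ) (hl : P *ᵥ l = l) :
    ∃ x w : n → ℝ, (∀ k, 0 ≤ w k) ∧ (T.PosSemidef → ∀ k, 0 ≤ x k) ∧
      (∀ t, 1 ≤ t → (P * T ^ t).trace.re = ∑ k, x k ^ t) ∧
      ∀ t, (star l ⬝ᵥ (T ^ t *ᵥ l)).re = ∑ k, w k * x k ^ t := by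
  have hcomm : Commute P T := hc
  have hT' : (P * T).IsHermitian := by
    unfold Matrix.IsHermitian
    rw [Matrix.conjTranspose_mul, hT.eq, hP.eq, hc]
  have hpow : ∀ t, 1 ≤ t → (P * T) ^ t = P * T ^ t := by
    intro t ht
    rw [hcomm.mul_pow]
    congr 1
    obtain ⟨s, rfl⟩ := Nat.exists_eq_add_of_le' ht
    exact IsIdempotentElem.pow_succ_eq s hPP
  set U : Matrix n n ℂ := (hT'.eigenvectorUnitary : Matrix n n ℂ) with hUdef
  have hU : star U * U = 1 := hT'.eigenvectorUnitary.2.1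
  have hU' : U * star U = 1 := hT'.eigenvectorUnitary.2.2
  have hsp : ∀ t, (P * T) ^ t =
      U * Matrix.diagonal (fun k => ((hT'.eigenvalues k : ℝ) : ℂ) ^ t) * star U := fun t => by
    rw [← conj_diag_pow U hU hU']
    congr 1
    exact spec_eq hT'
  refine ⟨hT'.eigenvalues, fun k => Complex.normSq ((star U *ᵥ l) k),
    fun k => Complex.normSq_nonneg _, fun hpos k => ?_, fun t ht => ?_, fun t => ?_⟩
  · have h1 : (P * T).PosSemidef := by
      have h2 := hpos.conjTranspose_mul_mul_same P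
      rw [hP.eq, Matrix.mul_assoc, ← hc, ← Matrix.mul_assoc, hPP] at h2
      exact h2
    exact h1.eigenvalues_nonneg k
  · rw [← hpow t ht, hsp, conj_diag_trace U hU, Complex.re_sum]
    refine Finset.sum_congr rfl fun k _ => ?_
    rw [← Complex.ofReal_pow, Complex.ofReal_re]
  · have h1 : T ^ t *ᵥ l = (P * T) ^ t *ᵥ l := by
      rcases Nat.eq_zero_or_pos t with rfl | ht
      · simp
      · rw [hpow t ht, (hcomm.pow_right t).eq, ← Matrix.mulVec_mulVec, hl]
    rw [h1, hsp, conj_diag_form, Complex.re_sum]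
    refine Finset.sum_congr rfl fun k _ => ?_
    rw [← Complex.ofReal_pow, ← Complex.ofReal_mul, Complex.ofReal_re]

/-- `P = (1/4) ∑ g, sgn g a • ρ g` -/
theorem sector4 {ρ : Aux → Matrix n n ℂ} (hρ : Rep4 ρ) (T : Matrix n n ℂ) (hT : T.IsHermitian)
    (hc : ∀ g, ρ g * T = T * ρ g) (a : Aux) (l : n → ℂ) (hl : ∀ g, ρ g *ᵥ l = (sgn g a : ℂ) • l) :
    ∃ x w : n → ℝ, (∀ k, 0 ≤ w k) ∧ (T.PosSemidef → ∀ k, 0 ≤ x k) ∧
      (∀ t, 1 ≤ t → ((T ^ t).trace.re + (sgn (some 0) a : ℝ) * (ρ (some 0) * T ^ t).trace.re +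
        (sgn (some 1) a : ℝ) * (ρ (some 1) * T ^ t).trace.re +
        (sgn (some 2) a : ℝ) * (ρ (some 2) * T ^ t).trace.re) / 4 = ∑ k, x k ^ t) ∧
      ∀ t, (star l ⬝ᵥ (T ^ t *ᵥ l)).re = ∑ k, w k * x k ^ t := by
  have hsq : ∀ g, (sgn g a : ℂ) * (sgn g a : ℂ) = 1 := fun g => by
    exact_mod_cast congrArg (Int.cast : ℤ → ℂ) (sgn_mul_self g a)
  let P : Matrix n n ℂ := (1 / 4 : ℂ) • ∑ g : Aux, (sgn g a : ℂ) • ρ g
  have hP : P.IsHermitian := by
    unfold Matrix.IsHermitian
    simp only [P, Matrix.conjTranspose_smul, Matrix.conjTranspose_sum, (hρ.herm _).eq]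
    simp
  have hgP : ∀ g, ρ g * P = (sgn g a : ℂ) • P := by
    intro g
    have hinv : Function.Involutive (gmul g) := by
      intro g'
      revert g g'
      decide
    simp only [P, Matrix.mul_smul, Matrix.mul_sum, hρ.mul]
    rw [smul_comm (sgn g a : ℂ) (1 / 4 : ℂ)]
    congr 1
    rw [Finset.smul_sum]
    refine Fintype.sum_equiv hinv.toPerm _ _ fun g' => ?_
    simp only [Function.Involutive.coe_toPerm, sgn_gmul, smul_smul, Int.cast_mul]
    rw [← mul_assoc, hsq, one_mul]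
  have hPP : P * P = P := by
    calc P * P = (1 / 4 : ℂ) • ∑ g : Aux, (sgn g a : ℂ) • (ρ g * P) := by
          conv_lhs => rw [show P * P = ((1 / 4 : ℂ) • ∑ g : Aux, (sgn g a : ℂ) • ρ g) * P from rfl]
          simp only [Matrix.smul_mul, Matrix.sum_mul]
      _ = P := by
          simp only [hgP, smul_smul, hsq, one_smul, Finset.sum_const, Finset.card_univ,
            Fintype.card_option, Fintype.card_fin]
          rw [← Nat.cast_smul_eq_nsmul ℂ, smul_smul]
          norm_num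
  have hPT : P * T = T * P := by
    simp only [P, Matrix.smul_mul, Matrix.sum_mul, Matrix.mul_smul, Matrix.mul_sum, hc]
  have hPl : P *ᵥ l = l := by
    simp only [P, Matrix.smul_mulVec, Matrix.sum_mulVec, hl, smul_smul, hsq, one_smul,
      Finset.sum_const, Finset.card_univ, Fintype.card_option, Fintype.card_fin]
    rw [← Nat.cast_smul_eq_nsmul ℂ, smul_smul]
    norm_num
  obtain ⟨x, w, h1, h2, h3, h4⟩ := sector T P hT hP hPP hPT l hPl
  refine ⟨x, w, h1, h2, fun t ht => ?_, h4⟩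
  rw [← h3 t ht]
  have hs0 : sgn none a = 1 := by cases a <;> rfl
  simp only [P, Matrix.smul_mul, Matrix.sum_mul, Matrix.trace_smul, Matrix.trace_sum,
    Fintype.sum_option, Fin.sum_univ_three, hρ.one, hs0, Matrix.add_mul, Matrix.trace_add,
    Matrix.one_mul, smul_eq_mul, Int.cast_one, one_mul]
  have e : ∀ (m : ℤ) (z : ℂ), ((m : ℂ) * z).re = (m : ℝ) * z.re := fun m z => by
    rw [← Complex.ofReal_intCast, Complex.re_ofReal_mul]
  have e4 : ∀ z : ℂ, ((1 / 4 : ℂ) * z).re = z.re / 4 := fun z => by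
    rw [show (1 / 4 : ℂ) = ((1 / 4 : ℝ) : ℂ) by norm_num, Complex.re_ofReal_mul]; ring
  rw [e4]
  simp only [Complex.add_re, e]
  ring

theorem exp_conj_aux {U U' : Matrix n n ℂ} (hU : U * U' = 1) (A : Matrix n n ℂ) :
    NormedSpace.exp (U * A * U') = U * NormedSpace.exp A * U' := by
  have hU' : U' * U = 1 := mul_eq_one_comm.mp hU
  exact Matrix.exp_units_conj (⟨U, U', hU, hU'⟩ : (Matrix n n ℂ)ˣ) A

/-- `Matrix.exp_conj`, `Matrix.exp_diagonal` -/
theorem boltz_spectral {H : Matrix n n ℂ} (hH : H.IsHermitian) (c β : ℝ) :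
    boltz H c β = (hH.eigenvectorUnitary : Matrix n n ℂ) *
      Matrix.diagonal (fun k => ((Real.exp (-β * (hH.eigenvalues k + c)) : ℝ) : ℂ)) *
      star (hH.eigenvectorUnitary : Matrix n n ℂ) := by
  set U : Matrix n n ℂ := (hH.eigenvectorUnitary : Matrix n n ℂ) with hUdef
  have hU' : U * star U = 1 := hH.eigenvectorUnitary.2.2
  have h1 : ((-β : ℝ) : ℂ) • (H + (c : ℂ) • (1 : Matrix n n ℂ)) =
      U * Matrix.diagonal (fun k => ((-β * (hH.eigenvalues k + c) : ℝ) : ℂ)) * star U := by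
    have h2 : Matrix.diagonal (fun k => ((-β * (hH.eigenvalues k + c) : ℝ) : ℂ)) =
        ((-β : ℝ) : ℂ) • (Matrix.diagonal (fun k => ((hH.eigenvalues k : ℝ) : ℂ)) +
          (c : ℂ) • (1 : Matrix n n ℂ)) := by
      ext i j
      by_cases hij : i = j
      · subst hij; simp
      · simp [hij]
    rw [h2, Matrix.mul_smul, Matrix.smul_mul, Matrix.mul_add, Matrix.add_mul, Matrix.mul_smul,
      Matrix.smul_mul, Matrix.mul_one, hU', ← spec_eq hH]
  unfold boltz
  rw [h1, exp_conj_aux hU', Matrix.exp_diagonal]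
  congr 3
  funext k
  rw [Pi.coe_exp, ← Complex.exp_eq_exp_ℂ, Complex.ofReal_exp]

theorem boltz_trace {H : Matrix n n ℂ} (hH : H.IsHermitian) (c β : ℝ) :
    (boltz H c β).trace.re = ∑ k, Real.exp (-β * (hH.eigenvalues k + c)) := by
  rw [boltz_spectral hH, conj_diag_trace _ hH.eigenvectorUnitary.2.1, Complex.re_sum]
  simp only [Complex.ofReal_re]

theorem boltz_posSemidef {H : Matrix n n ℂ} (hH : H.IsHermitian) (c β : ℝ) :
    (boltz H c β).PosSemidef := by
  rw [boltz_spectral hH]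
  refine Matrix.PosSemidef.mul_mul_conjTranspose_same ?_ _
  refine Matrix.PosSemidef.diagonal fun k => ?_
  exact Complex.zero_le_real.mpr (Real.exp_pos _).le

theorem boltz_pow (H : Matrix n n ℂ) (c : ℝ) (j : ℕ) :
    boltz H c ((j : ℝ) / 2) = boltz H c (1 / 2) ^ j := by
  unfold boltz
  rw [← Matrix.exp_nsmul, ← Nat.cast_smul_eq_nsmul ℂ, smul_smul]
  congr 2
  push_cast
  ring

theorem boltz_shift (H : Matrix n n ℂ) (c β : ℝ) :
    boltz H c β = ((Real.exp (-β * c) : ℝ) : ℂ) • NormedSpace.exp (((-β : ℝ) : ℂ) • H) := by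
  unfold boltz
  have h1 : ((-β : ℝ) : ℂ) • ((c : ℂ) • (1 : Matrix n n ℂ)) =
      Matrix.diagonal (fun _ => ((-β * c : ℝ) : ℂ)) := by
    ext i j
    by_cases hij : i = j
    · subst hij; simp
    · simp [hij]
  have h2 : NormedSpace.exp (Matrix.diagonal (fun _ : n => ((-β * c : ℝ) : ℂ))) =
      ((Real.exp (-β * c) : ℝ) : ℂ) • (1 : Matrix n n ℂ) := by
    rw [Matrix.exp_diagonal]
    ext i j
    by_cases hij : i = j
    · subst hij
      rw [Matrix.diagonal_apply_eq, Pi.coe_exp, ← Complex.exp_eq_exp_ℂ, Complex.ofReal_exp]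
      simp
    · simp [hij]
  rw [smul_add, Matrix.exp_add_of_commute _ _
    (((Commute.one_right H).smul_right _).smul_left _ |>.smul_right _), h1, h2, Matrix.mul_smul,
    Matrix.mul_one]

theorem boltz_conj {H H' U U' : Matrix n n ℂ} (hU : U * U' = 1) (h : U * H * U' = H') (c β : ℝ) :
    U * boltz H c β * U' = boltz H' c β := by
  unfold boltz
  rw [← exp_conj_aux hU, ← h, Matrix.mul_smul, Matrix.smul_mul, Matrix.mul_add, Matrix.add_mul,
    Matrix.mul_smul, Matrix.smul_mul, Matrix.mul_one, hU]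

end Crest.Agent.R347
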