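import Crest.Agent.R347.Defs

/-!
# Row 347: `3 × 3` spin algebra   (task R347/SpinAlg)

The `3 × 3` facts follow from the explicit forms `spinX_eq`, `spinY_eq`, `spinZ_eq` by
`ext i j; fin_cases i <;> fin_cases j <;> simp […]` and `(√2)^2 = 2`.
-/

set_option autoImplicit false

namespace Crest.Agent.R347

open Crest.MathPhysics.SpinChain Matrix

theorem sgn_gmul (g g' a : Aux) : sgn (gmul g g') a = sgn g a * sgn g' a := by
  revert g g' a; decide

theorem sgn_mul_self (g a : Aux) : sgn g a * sgn g a = 1 := by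
  revert g a; decide

theorem gmul_comm (g g' : Aux) : gmul g g' = gmul g' g := by
  revert g g'; decide

theorem gmul_self (g : Aux) : gmul g g = none := by
  revert g; decide

theorem spinPlus_eq : spinPlus = ((Real.sqrt 2 : ℝ) : ℂ) • spP := by
  ext i j; fin_cases i <;> fin_cases j <;> simp [spinPlus, spP]

theorem spP_conjTranspose : spPᴴ = spM := by
  ext i j; fin_cases i <;> fin_cases j <;> simp [spP, spM]

theorem spM_conjTranspose : spMᴴ = spP := by
  rw [← spP_conjTranspose, conjTranspose_conjTranspose]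

theorem spinMinus_eq : spinMinus = ((Real.sqrt 2 : ℝ) : ℂ) • spM := by
  rw [spinMinus, spinPlus_eq, conjTranspose_smul, spP_conjTranspose]
  simp

theorem sqrt_half_sq : ((Real.sqrt 2 / 2 : ℝ) : ℂ) * ((Real.sqrt 2 / 2 : ℝ) : ℂ) = 1 / 2 := by
  have : Real.sqrt 2 / 2 * (Real.sqrt 2 / 2) = 1 / 2 := by
    have := Real.mul_self_sqrt (show (0 : ℝ) ≤ 2 by norm_num)
    linarith
  rw [← Complex.ofReal_mul, this]
  norm_num

theorem sqrt_half_sq' : (-Complex.I * ((Real.sqrt 2 / 2 : ℝ) : ℂ)) *
    (-Complex.I * ((Real.sqrt 2 / 2 : ℝ) : ℂ)) = -(1 / 2) := by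
  linear_combination (Complex.I * Complex.I) * sqrt_half_sq + (1 / 2) * Complex.I_mul_I

theorem spinX_eq : spinX = ((Real.sqrt 2 / 2 : ℝ) : ℂ) • (spP + spM) := by
  rw [spinX, spinPlus_eq, spinMinus_eq, ← smul_add, smul_smul]
  congr 1
  push_cast
  ring

theorem spinY_eq : spinY = (-Complex.I * ((Real.sqrt 2 / 2 : ℝ) : ℂ)) • (spP - spM) := by
  rw [spinY, spinPlus_eq, spinMinus_eq, ← smul_sub, smul_smul]
  congr 1
  push_cast
  field_simp
  simp

theorem spinZ_eq : spinZ = !![1, 0, 0; 0, 0, 0; 0, 0, -1] := by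
  ext i j; fin_cases i <;> fin_cases j <;> simp [spinZ, magneticNumber]
  norm_num

theorem spinOp_zero : spinOp 0 = spinX := rfl

theorem spinOp_one : spinOp 1 = spinY := rfl

theorem spinOp_two : spinOp 2 = spinZ := rfl

theorem fin3_cases {P : Fin 3 → Prop} (h0 : P 0) (h1 : P 1) (h2 : P 2) (a : Fin 3) : P a := by
  fin_cases a
  exacts [h0, h1, h2]

theorem aux_cases {P : Aux → Prop} (h : P none) (h0 : P (some 0)) (h1 : P (some 1))
    (h2 : P (some 2)) (a : Aux) : P a := by
  cases a with
  | none => exact h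
  | some a => exact fin3_cases (P := fun a => P (some a)) h0 h1 h2 a

theorem rot_zero : rot (some 0) = !![0, 0, -1; 0, -1, 0; -1, 0, 0] := rfl

theorem rot_one : rot (some 1) = !![0, 0, 1; 0, -1, 0; 1, 0, 0] := rfl

theorem rot_two : rot (some 2) = !![-1, 0, 0; 0, 1, 0; 0, 0, -1] := rfl

theorem rot_none : rot none = 1 := rfl

theorem spinOp_herm (a : Fin 3) : (spinOp a).IsHermitian := by
  induction a using fin3_cases
  · rw [spinOp_zero, spinX_eq, IsHermitian, conjTranspose_smul, conjTranspose_add,
      spP_conjTranspose, spM_conjTranspose, add_comm]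
    simp
  · rw [spinOp_one, spinY_eq, IsHermitian, conjTranspose_smul, conjTranspose_sub,
      spP_conjTranspose, spM_conjTranspose, ← neg_sub, smul_neg, ← neg_smul]
    simp
  · rw [spinOp_two, spinZ_eq]
    ext i j; fin_cases i <;> fin_cases j <;> simp

theorem rot_rep : Rep4 rot := by
  refine ⟨rfl, fun g g' => ?_, fun g => ?_⟩
  · induction g using aux_cases <;> induction g' using aux_cases <;>
      simp [gmul, rot_none, rot_zero, rot_one, rot_two, one_fin_three,
        show -(1 : Fin 3) = 2 from rfl, show -(2 : Fin 3) = 1 from rfl]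
  · induction g using aux_cases
    · exact isHermitian_one
    all_goals
      ext i j; fin_cases i <;> fin_cases j <;> simp [rot_zero, rot_one, rot_two]

theorem rot_eq (a : Fin 3) : rot (some a) = 1 - (2 : ℂ) • (spinOp a * spinOp a) := by
  induction a using fin3_cases
  · rw [spinOp_zero, spinX_eq, smul_mul_smul_comm, sqrt_half_sq, smul_smul, rot_zero]
    ext i j; fin_cases i <;> fin_cases j <;>
      simp [spP, spM]
  · rw [spinOp_one, spinY_eq, smul_mul_smul_comm, sqrt_half_sq', smul_smul, rot_one]
    ext i j; fin_cases i <;> fin_cases j <;>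
      simp [spP, spM]
  · rw [spinOp_two, spinZ_eq, rot_two]
    ext i j; fin_cases i <;> fin_cases j <;>
      simp <;> norm_num

theorem rot_real (g : Aux) : (rot g).map star = rot g := by
  induction g using aux_cases
  · ext i j; fin_cases i <;> fin_cases j <;> simp [rot_none]
  all_goals
    ext i j; fin_cases i <;> fin_cases j <;> simp [rot_zero, rot_one, rot_two]

theorem rot_spin (g : Aux) (a : Fin 3) :
    rot g * spinOp a * rot g = (sgn g (some a) : ℂ) • spinOp a := by
  induction g using aux_cases
  · simp [rot_none, sgn]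
  all_goals
    induction a using fin3_cases <;>
      simp only [spinOp_zero, spinOp_one, spinOp_two, spinX_eq, spinY_eq, spinZ_eq, rot_zero,
        rot_one, rot_two, Matrix.mul_smul, Matrix.smul_mul] <;>
      (ext i j; fin_cases i <;> fin_cases j <;>
        simp [sgn, spP, spM, Matrix.mul_apply, Fin.sum_univ_three])

/-- complex conjugation of the entries -/
theorem spin_conj (a : Fin 3) :
    (spinOp a).map star = -(rot (some 1) * spinOp a * rot (some 1)) := by
  rw [rot_spin]
  induction a using fin3_cases <;>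
    simp only [spinOp_zero, spinOp_one, spinOp_two, spinX_eq, spinY_eq, spinZ_eq] <;>
    (ext i j; fin_cases i <;> fin_cases j <;> simp [sgn, spP, spM, map_ofNat])

theorem Gam_rep : Rep4 Gam := by
  refine ⟨?_, fun g g' => ?_, fun g => ?_⟩
  · rw [Gam, ← diagonal_one]
    congr 1
    funext a
    simp [sgn]
  · simp only [Gam, diagonal_mul_diagonal, sgn_gmul, Int.cast_mul]
  · rw [Gam, isHermitian_diagonal_iff]
    intro a
    simp [IsSelfAdjoint]

/-- the (twisted) exchange in integer form -/
theorem exchange (ε : ℂ) (s s' t t' : Fin 3) :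
    ε * (spinOp 0 s s' * spinOp 0 t t') + ε * (spinOp 1 s s' * spinOp 1 t t') +
        spinOp 2 s s' * spinOp 2 t t' =
      spinZ s s' * spinZ t t' + ε * (spP s s' * spM t t' + spM s s' * spP t t') := by
  simp only [spinOp_zero, spinOp_one, spinOp_two, spinX_eq, spinY_eq, Matrix.smul_apply,
    Matrix.add_apply, Matrix.sub_apply, smul_eq_mul]
  linear_combination ε * (spP s s' + spM s s') * (spP t t' + spM t t') * sqrt_half_sq +
    ε * (spP s s' - spM s s') * (spP t t' - spM t t') * sqrt_half_sq'

end Crest.Agent.R347
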