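import Crest.Agent.R347.Tens
import Crest.Agent.R347.EngTree

/-!
# Row 347: one row of the spin Hamiltonian in terms of codes   (task R347/SpinRow)

You may use `SpinAlg`, `Tens`, `EngTree` (other tasks).
-/

set_option autoImplicit false

namespace Crest.Agent.R347.Eng

open Crest.MathPhysics.SpinChain Matrix

theorem hops_eq (c j k : ℕ) (t : List ℕ) : hops c j k t =
    (if 1 ≤ dig c j ∧ dig c k ≤ 1 then [c + 3 ^ k - 3 ^ j] else []) ++
    (if dig c j ≤ 1 ∧ 1 ≤ dig c k then [c + 3 ^ j - 3 ^ k] else []) ++ t := by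
  unfold hops
  have e1 : ∀ a b : ℕ, Nat.ble a b = decide (a ≤ b) := fun a b => by
    rw [Bool.eq_iff_iff]; simp
  simp only [e1]
  by_cases h1 : 1 ≤ dig c j <;> by_cases h2 : dig c k ≤ 1 <;> by_cases h3 : dig c j ≤ 1 <;>
    by_cases h4 : 1 ≤ dig c k <;> simp [h1, h2, h3, h4]

theorem SR_code_lt {L : ℕ} (σ : Cfg L) : ∑ i : Fin L, (σ i).val * 3 ^ i.val < 3 ^ L := by
  have := (finFunctionFinEquiv σ).isLt
  rwa [finFunctionFinEquiv_apply] at this

theorem SR_cfg_code {L : ℕ} (σ : Cfg L) : cfg L (∑ i : Fin L, (σ i).val * 3 ^ i.val) = σ := by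
  funext k
  apply Fin.ext
  have h := finFunctionFinEquiv_symm_apply_val (finFunctionFinEquiv σ) k
  rw [Equiv.symm_apply_apply, finFunctionFinEquiv_apply] at h
  exact h.symm

theorem SR_code_cfg {L c : ℕ} (hc : c < 3 ^ L) :
    ∑ i : Fin L, (cfg L c i).val * 3 ^ i.val = c := by
  have h : cfg L c = finFunctionFinEquiv.symm ⟨c, hc⟩ := by
    funext k
    apply Fin.ext
    rw [finFunctionFinEquiv_symm_apply_val]
    rfl
  rw [← finFunctionFinEquiv_apply, h, Equiv.apply_symm_apply]

theorem SR_add_one {a : Fin 3} (h : a.val ≤ 1) : (a + 1).val = a.val + 1 := by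
  revert a; decide

theorem SR_sub_one {a : Fin 3} (h : 1 ≤ a.val) : (a - 1).val + 1 = a.val := by
  revert a; decide

theorem SR_wsum {L : ℕ} (σ : Cfg L) {j k : Fin L} (hjk : j ≠ k) (hj : (σ j).val ≤ 1)
    (hk : 1 ≤ (σ k).val) (w : Fin L → ℕ) :
    ∑ i, (Function.update (Function.update σ j (σ j + 1)) k (σ k - 1) i).val * w i + w k =
      ∑ i, (σ i).val * w i + w j := by
  have hk' : k ∈ Finset.univ.erase j := Finset.mem_erase.2 ⟨hjk.symm, Finset.mem_univ k⟩
  rw [← Finset.add_sum_erase _ _ (Finset.mem_univ j), ← Finset.add_sum_erase _ _ hk',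
    ← Finset.add_sum_erase _ (fun i => (σ i).val * w i) (Finset.mem_univ j),
    ← Finset.add_sum_erase _ (fun i => (σ i).val * w i) hk',
    Function.update_self, Function.update_of_ne hjk, Function.update_self,
    Finset.sum_congr rfl fun p hp => by
      rw [Function.update_of_ne (Finset.ne_of_mem_erase hp),
        Function.update_of_ne (Finset.ne_of_mem_erase (Finset.mem_of_mem_erase hp))],
    SR_add_one hj, ← SR_sub_one hk]
  ring

/-- raising digit `j` and lowering digit `k` -/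
theorem hop_code {L c : ℕ} (hc : c < 3 ^ L) {j k : Fin L} (hjk : j ≠ k) (h1 : dig c j ≤ 1)
    (h2 : 1 ≤ dig c k) : c + 3 ^ j.val - 3 ^ k.val < 3 ^ L ∧
      dsum L (c + 3 ^ j.val - 3 ^ k.val) = dsum L c ∧
      cfg L (c + 3 ^ j.val - 3 ^ k.val) =
        Function.update (Function.update (cfg L c) j (cfg L c j + 1)) k (cfg L c k - 1) := by
  have hj : (cfg L c j).val ≤ 1 := h1
  have hk : 1 ≤ (cfg L c k).val := h2
  set τ := Function.update (Function.update (cfg L c) j (cfg L c j + 1)) k (cfg L c k - 1) with hτ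
  have e1 := SR_wsum (cfg L c) hjk hj hk fun i => 3 ^ i.val
  have e2 := SR_wsum (cfg L c) hjk hj hk fun _ => 1
  rw [← hτ] at e1 e2
  rw [SR_code_cfg hc] at e1
  have e3 : c + 3 ^ j.val - 3 ^ k.val = ∑ i : Fin L, (τ i).val * 3 ^ i.val := by omega
  have e4 : cfg L (c + 3 ^ j.val - 3 ^ k.val) = τ := by rw [e3, SR_cfg_code]
  refine ⟨by rw [e3]; exact SR_code_lt τ, ?_, e4⟩
  rw [dsum_cfg, dsum_cfg, e4]
  simp only [mul_one] at e2
  omega

theorem SR_spP (a b : Fin 3) : spP a b = if a.val ≤ 1 ∧ b = a + 1 then 1 else 0 := by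
  fin_cases a <;> fin_cases b <;> simp [spP]

theorem SR_spM (a b : Fin 3) : spM a b = if 1 ≤ a.val ∧ b = a - 1 then 1 else 0 := by
  fin_cases a <;> fin_cases b <;> simp [spM]

theorem SR_PM {L : ℕ} (σ : Cfg L) {j k : Fin L} (hjk : j ≠ k) (y : Cfg L → ℂ) :
    ∑ q, (onSite spP j * onSite spM k) σ q * y q =
      if (σ j).val ≤ 1 ∧ 1 ≤ (σ k).val then
        y (Function.update (Function.update σ j (σ j + 1)) k (σ k - 1)) else 0 := by
  simp only [onSite_two_apply _ _ hjk, SR_spP, SR_spM]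
  split_ifs with h
  · rw [Finset.sum_eq_single (Function.update (Function.update σ j (σ j + 1)) k (σ k - 1))]
    · rw [if_pos, if_pos, if_pos, mul_one, one_mul]
      · exact ⟨h.2, Function.update_self ..⟩
      · exact ⟨h.1, by rw [Function.update_of_ne hjk, Function.update_self]⟩
      · intro p h1 h2
        rw [Function.update_of_ne h2, Function.update_of_ne h1]
    · intro q _ hq
      split_ifs with h1 h2 h3
      · refine absurd (funext fun p => ?_) hq
        by_cases hp : p = k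
        · subst hp
          rw [Function.update_self, h3.2]
        · rw [Function.update_of_ne hp]
          by_cases hp' : p = j
          · subst hp'
            rw [Function.update_self, h2.2]
          · rw [Function.update_of_ne hp', h1 p hp' hp]
      all_goals simp
    · simp
  · refine Finset.sum_eq_zero fun q _ => ?_
    split_ifs with h1 h2 h3
    · exact absurd ⟨h2.1, h3.1⟩ h
    all_goals simp

/-- `onSite_two_apply`; `spP a b = 1` iff `b = a + 1`, `spM a b = 1` iff `a = b + 1` -/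
theorem hop_row {L c : ℕ} (hc : c < 3 ^ L) {j k : Fin L} (hjk : j ≠ k) (y : Cfg L → ℂ) :
    ∑ q, (onSite spP j * onSite spM k + onSite spM j * onSite spP k) (cfg L c) q * y q =
      ((hops c j k []).map fun q => y (cfg L q)).sum := by
  simp only [Matrix.add_apply, add_mul, Finset.sum_add_distrib]
  rw [onSite_comm spM spP hjk, SR_PM _ hjk, SR_PM _ hjk.symm, hops_eq, List.append_nil,
    List.map_append, List.sum_append, add_comm]
  congr 1
  · by_cases h : 1 ≤ dig c j ∧ dig c k ≤ 1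
    · rw [if_pos h, if_pos (show (cfg L c k).val ≤ 1 ∧ 1 ≤ (cfg L c j).val from ⟨h.2, h.1⟩)]
      simp only [List.map_cons, List.map_nil, List.sum_cons, List.sum_nil, add_zero]
      rw [(hop_code hc hjk.symm h.2 h.1).2.2]
    · rw [if_neg h, if_neg fun h' : (cfg L c k).val ≤ 1 ∧ 1 ≤ (cfg L c j).val => h ⟨h'.2, h'.1⟩]
      simp
  · by_cases h : dig c j ≤ 1 ∧ 1 ≤ dig c k
    · rw [if_pos h, if_pos (show (cfg L c j).val ≤ 1 ∧ 1 ≤ (cfg L c k).val from h)]
      simp only [List.map_cons, List.map_nil, List.sum_cons, List.sum_nil, add_zero]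
      rw [(hop_code hc hjk h.1 h.2).2.2]
    · rw [if_neg h, if_neg fun h' : (cfg L c j).val ≤ 1 ∧ 1 ≤ (cfg L c k).val => h h']
      simp

theorem SR_onZ {L : ℕ} (j : Fin L) :
    onSite spinZ j = Matrix.diagonal fun σ : Cfg L => 1 - ((σ j).val : ℂ) := by
  ext s t
  simp only [onSite, spinZ, Matrix.of_apply, Matrix.diagonal_apply, magneticNumber]
  by_cases h : s = t
  · subst h
    simp
  · rw [if_neg h]
    split_ifs with h1 h2
    · refine absurd (funext fun p => ?_) h
      by_cases hp : p = j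
      · rw [hp, h2]
      · exact h1 p hp
    all_goals rfl

theorem SR_diag_row {L : ℕ} (d : Cfg L → ℂ) (σ : Cfg L) (y : Cfg L → ℂ) :
    ∑ q, Matrix.diagonal d σ q * y q = d σ * y σ := by
  simp [Matrix.diagonal_apply]

theorem SR_zz (a b : ℕ) (ha : a < 3) (hb : b < 3) :
    (zz a b : ℂ) = 1 + (1 - (a : ℂ)) * (1 - (b : ℂ)) := by
  interval_cases a <;> interval_cases b <;> simp [zz] <;> norm_num

theorem zz_row {L : ℕ} (c : ℕ) {j k : Fin L} (hjk : j ≠ k) (y : Cfg L → ℂ) :
    ∑ q, (onSite spinZ j * onSite spinZ k) (cfg L c) q * y q =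
      ((zz (dig c j) (dig c k) : ℂ) - 1) * y (cfg L c) := by
  rw [SR_onZ, SR_onZ, Matrix.diagonal_mul_diagonal, SR_diag_row, SR_zz (dig c j) (dig c k)
    (Nat.mod_lt _ (by decide)) (Nat.mod_lt _ (by decide))]
  have _ := hjk
  congr 1
  change (1 - (dig c j : ℂ)) * (1 - (dig c k : ℂ)) = _
  ring

theorem z_row {L : ℕ} (c : ℕ) (j : Fin L) (y : Cfg L → ℂ) :
    ∑ q, onSite spinZ j (cfg L c) q * y q = (1 - (dig c j : ℂ)) * y (cfg L c) := by
  rw [SR_onZ, SR_diag_row]
  rfl

theorem SR_bond {L c : ℕ} (hc : c < 3 ^ L) (ε : ℂ) {j k : Fin L} (hjk : j ≠ k) (y : Cfg L → ℂ) :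
    ((ε • (onSite (spinOp 0) j * onSite (spinOp 0) k) +
      ε • (onSite (spinOp 1) j * onSite (spinOp 1) k) +
        onSite (spinOp 2) j * onSite (spinOp 2) k) *ᵥ y) (cfg L c) =
      ((zz (dig c j) (dig c k) : ℂ) - 1) * y (cfg L c) +
        ε * ((hops c j k []).map fun q => y (cfg L q)).sum := by
  rw [bond_int ε hjk, Matrix.add_mulVec, Matrix.smul_mulVec, Pi.add_apply, Pi.smul_apply,
    ← zz_row c hjk y, ← hop_row hc hjk y]
  rfl

theorem SR_hopsTo (g : ℕ → ℂ) (c : ℕ) (t : List ℕ) (n : ℕ) : ((hopsTo c t n).map g).sum =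
    ∑ j ∈ Finset.range n, ((hops c j (j + 1) []).map g).sum + (t.map g).sum := by
  induction n with
  | zero => simp [hopsTo]
  | succ n ih =>
    have : hopsTo c t (n + 1) = hops c n (n + 1) (hopsTo c t n) := rfl
    rw [this, Finset.sum_range_succ, hops_eq, hops_eq c n (n + 1) [], List.append_nil,
      List.map_append, List.sum_append, ih]
    ring

theorem SR_zzTo (c n : ℕ) : (zzTo c n : ℂ) =
    ∑ j ∈ Finset.range n, (zz (dig c j) (dig c (j + 1)) : ℂ) := by
  induction n with
  | zero => simp [zzTo]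
  | succ n ih =>
    have : zzTo c (n + 1) = zz (dig c n) (dig c (n + 1)) + zzTo c n := rfl
    rw [this, Finset.sum_range_succ, Nat.cast_add, ih, add_comm]

theorem SR_chain {l c : ℕ} (hc : c < 3 ^ (l + 1)) (y : Cfg (l + 1) → ℂ) :
    ((∑ j : Fin l, bond (Fin.castSucc j) (Fin.succ j)) *ᵥ y) (cfg (l + 1) c) =
      ((zzTo c l : ℂ) - l) * y (cfg (l + 1) c) +
        ((hopsTo c [] l).map fun q => y (cfg (l + 1) q)).sum := by
  rw [Matrix.sum_mulVec, Finset.sum_apply, SR_hopsTo, SR_zzTo]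
  have : ∀ j : Fin l, (bond (Fin.castSucc j) (Fin.succ j) *ᵥ y) (cfg (l + 1) c) =
      ((zz (dig c j) (dig c (j + 1)) : ℂ) - 1) * y (cfg (l + 1) c) +
        ((hops c j (j + 1) []).map fun q => y (cfg (l + 1) q)).sum := fun j => by
    have h := SR_bond hc 1 (Fin.castSucc_lt_succ (i := j)).ne y
    simp only [one_smul, one_mul, Fin.val_castSucc, Fin.val_succ] at h
    rw [bond, Fin.sum_univ_three, h]
  simp only [this]
  rw [Fin.sum_univ_eq_sum_range (fun j => ((zz (dig c j) (dig c (j + 1)) : ℂ) - 1) *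
    y (cfg (l + 1) c) + ((hops c j (j + 1) []).map fun q => y (cfg (l + 1) q)).sum) l,
    Finset.sum_add_distrib, ← Finset.sum_mul, Finset.sum_sub_distrib]
  simp

theorem SR_ring (l : ℕ) (g : Aux) (ε : ℂ) (h0 : (sgn g (some 0) : ℂ) = ε)
    (h1 : (sgn g (some 1) : ℂ) = ε) (h2 : (sgn g (some 2) : ℂ) = 1) :
    ringH (l + 1) g = (∑ j : Fin l, bond (Fin.castSucc j) (Fin.succ j)) +
      (ε • (onSite (spinOp 0) (Fin.last l) * onSite (spinOp 0) 0) +
        ε • (onSite (spinOp 1) (Fin.last l) * onSite (spinOp 1) 0) +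
        onSite (spinOp 2) (Fin.last l) * onSite (spinOp 2) 0) := by
  rw [ringH, Fin.sum_univ_castSucc]
  congr 1
  · refine Finset.sum_congr rfl fun j _ => ?_
    have hj : ¬ ((Fin.castSucc j).val + 1 = l + 1) := by
      have := j.isLt
      simp only [Fin.val_castSucc]
      omega
    simp only [if_neg hj, one_smul, bond, finRotate_apply, Fin.coeSucc_eq_succ]
  · simp only [Fin.val_last, if_true, finRotate_last, Fin.sum_univ_three, h0, h1, h2, one_smul]

/-- the row identity: `bond_int` for every bond (`finRotate` of `castSucc j` is `succ j`, of `last` is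
`0`), `hopsTo`, `zzTo` by induction, and `((P - eN : ℕ) : ℂ) - ((eN - P : ℕ) : ℂ) = P - eN` -/
theorem spin_row {l kind m f eP eN : ℕ} (hl : 1 ≤ l) (hk : kind ≤ 3) (hf : 2 ≤ kind → 5 * f = 3 * m)
    {c : ℕ} (hc : c < 3 ^ (l + 1)) (y : Cfg (l + 1) → ℂ) :
    gsum (fun q => y (cfg (l + 1) q)) (spinRow l kind m f eP eN c).1 -
      gsum (fun q => y (cfg (l + 1) q)) (spinRow l kind m f eP eN c).2 =
      ∑ q, ((m : ℂ) • spinH l kind - (spinC l kind m f eP eN : ℂ) • 1) (cfg (l + 1) c) q * y q := by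
  have hlast : (Fin.last l) ≠ 0 := fun h => by
    have := congrArg Fin.val h
    simp at this
    omega
  have hsub : ∀ P : ℕ, ((P - eN : ℕ) : ℂ) - ((eN - P : ℕ) : ℂ) = (P : ℂ) - eN := fun P => by
    rcases le_total P eN with h | h
    · rw [Nat.sub_eq_zero_of_le h, Nat.cast_sub h]; simp
    · rw [Nat.sub_eq_zero_of_le h, Nat.cast_sub h]; simp
  have hd : dig c l < 3 := Nat.mod_lt _ (by decide)
  have hz0 : (onSite spinZ (0 : Fin (l + 1)) *ᵥ y) (cfg (l + 1) c) =
      (1 - (dig c 0 : ℂ)) * y (cfg (l + 1) c) := z_row c 0 y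
  have hzl : (onSite spinZ (Fin.last l) *ᵥ y) (cfg (l + 1) c) =
      (1 - (dig c l : ℂ)) * y (cfg (l + 1) c) := z_row c (Fin.last l) y
  have hb := fun ε => SR_bond hc ε hlast y
  simp only [Fin.val_last, Fin.val_zero] at hb
  have hch := SR_chain hc y
  change _ = (((m : ℂ) • spinH l kind - (spinC l kind m f eP eN : ℂ) • 1) *ᵥ y) (cfg (l + 1) c)
  rw [Matrix.sub_mulVec, Matrix.smul_mulVec, Matrix.smul_mulVec, Matrix.one_mulVec]
  simp only [Pi.sub_apply, Pi.smul_apply, smul_eq_mul]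
  have key : ∀ (P : ℕ) (t t' : List ℕ),
      gsum (fun q => y (cfg (l + 1) q)) [(m, hopsTo c t l), (P - eN, [c])] -
        gsum (fun q => y (cfg (l + 1) q)) [(m, t'), (eN - P, [c])] =
      m * (((hopsTo c [] l).map fun q => y (cfg (l + 1) q)).sum +
        (t.map fun q => y (cfg (l + 1) q)).sum - (t'.map fun q => y (cfg (l + 1) q)).sum) +
        ((P : ℂ) - eN) * y (cfg (l + 1) c) := by
    intro P t t'
    simp only [gsum, List.map_cons, List.map_nil, List.sum_cons, List.sum_nil, add_zero]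
    rw [SR_hopsTo _ c t, SR_hopsTo _ c [], ← hsub P]
    simp only [List.map_nil, List.sum_nil, add_zero]
    ring
  interval_cases kind
  · refine (key (m * zzTo c l + eP + m * zz (dig c l) (dig c 0)) (hops c l 0 []) []).trans ?_
    have : spinH l 0 = ringH (l + 1) none := rfl
    rw [this, SR_ring l none 1 (by simp [sgn]) (by simp [sgn]) (by simp [sgn]), Matrix.add_mulVec,
      Pi.add_apply, hch, hb]
    simp only [spinC, List.map_nil, List.sum_nil, zero_le, if_true]
    push_cast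
    ring
  · refine (key (m * zzTo c l + eP + m * zz (dig c l) (dig c 0)) [] (hops c l 0 [])).trans ?_
    have : spinH l 1 = ringH (l + 1) (some 2) := rfl
    rw [this, SR_ring l (some 2) (-1) (by simp [sgn]) (by simp [sgn]) (by simp [sgn]),
      Matrix.add_mulVec, Pi.add_apply, hch, hb]
    simp only [spinC, List.map_nil, List.sum_nil, le_refl, if_true]
    push_cast
    ring
  · refine (key (m * zzTo c l + eP + f * (dig c 0 + (2 - dig c l))) [] []).trans ?_
    have : spinH l 2 = openH l 1 (-1) := rfl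
    have hf' : (5 : ℂ) * f = 3 * m := by exact_mod_cast hf le_rfl
    rw [this, openH, Matrix.sub_mulVec, Matrix.add_mulVec, Matrix.smul_mulVec, Matrix.smul_mulVec]
    simp only [Pi.sub_apply, Pi.add_apply, Pi.smul_apply, smul_eq_mul]
    rw [hch, hz0, hzl]
    simp only [spinC, List.map_nil, List.sum_nil, show ¬ (2 ≤ 1) by decide, if_false]
    push_cast [Nat.cast_sub (show dig c l ≤ 2 by omega)]
    linear_combination (((dig c 0 : ℂ) - dig c l) * y (cfg (l + 1) c) / 5) * hf'
  · refine (key (m * zzTo c l + eP + f * (dig c 0 + dig c l)) [] []).trans ?_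
    have : spinH l 3 = openH l 1 1 := rfl
    have hf' : (5 : ℂ) * f = 3 * m := by exact_mod_cast hf (by decide)
    rw [this, openH, Matrix.sub_mulVec, Matrix.add_mulVec, Matrix.smul_mulVec, Matrix.smul_mulVec]
    simp only [Pi.sub_apply, Pi.add_apply, Pi.smul_apply, smul_eq_mul]
    rw [hch, hz0, hzl]
    simp only [spinC, List.map_nil, List.sum_nil, show ¬ (3 ≤ 1) by decide, if_false]
    push_cast
    linear_combination (((dig c 0 : ℂ) + dig c l - 2) * y (cfg (l + 1) c) / 5) * hf'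

end Crest.Agent.R347.Eng
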