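import Crest.Agent.R347.EngS
import Crest.Agent.R347.SpinRep

/-!
# Row 347: canonical representatives under commuting signed involutions   (task R347/SymCan)

Do not edit `EngS.lean`.  Recipe.  `force n k = k n`, `xor' = xor`, `not' = not`, `and' = and` (cases).
`can_eq`: induction on the generators for `foldImg q gens c s k m sg =` "if some `(q, true)` occurs in
`imgsM gens c s` then `none` else `k` at the `foldl`-minimum started from `(m, sg)`".
Key lemma A (for `Good P gens`, sublists `l ⊆ gens`, `g ∈ l`, `P c`):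
`(imgsM l (g c).1 (xor s (g c).2)).Perm (imgsM l c s)`; induction on `l` (head: `perm_append_comm` and the
involution; tail: commutation and the hypothesis twice).  Lemma A': `l ⊆ gens`, `(r, u) ∈ imgsM l c s`
give `P r` and `(imgsM gens r u).Perm (imgsM gens c s)`.  Also `(c, s) ∈ imgsM gens c s` and
`imgsM gens c (!s) = (imgsM gens c s).map fun e => (e.1, !e.2)`.  Hence `(c, true) ∈ imgsM gens c false`
iff some code occurs there with both signs, and `can gens c = some (r, u)` iff no code occurs with both
signs, `(r, u) ∈ imgsM gens c false` and `r` is the smallest code that occurs.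
-/

set_option autoImplicit false

namespace Crest.Agent.R347.Eng

/-- the sign -/
def sg (b : Bool) : ℂ := if b then -1 else 1

/-- extension of `y` from the representatives -/
noncomputable def extC (cn : ℕ → Res) (y : ℕ → ℂ) (c : ℕ) : ℂ :=
  match cn c with
  | none => 0
  | some e => sg e.2 * y e.1

/-- commuting signed involutions of the set `P` -/
def Good (P : ℕ → Prop) (gens : List SMap) : Prop :=
  ∀ g ∈ gens, ∀ c, P c → P (g c).1 ∧ g (g c).1 = (c, (g c).2) ∧ ∀ g' ∈ gens,
    (g (g' c).1).1 = (g' (g c).1).1 ∧ xor (g' c).2 (g (g' c).1).2 = xor (g c).2 (g' (g c).1).2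

/-- the same maps up to constant signs -/
def Twist (l l' : List SMap) : Prop :=
  List.Forall₂ (fun g g' : SMap => ∃ b, ∀ c, g' c = ((g c).1, xor b (g c).2)) l l'

theorem SymCan_force {α : Type} (n : ℕ) (k : ℕ → α) : force n k = k n := by cases n <;> rfl
theorem SymCan_xor (a b : Bool) : xor' a b = xor a b := by cases a <;> cases b <;> rfl
theorem SymCan_not (a : Bool) : not' a = !a := by cases a <;> rfl
theorem SymCan_and (a b : Bool) : and' a b = (a && b) := by cases a <;> cases b <;> rfl

theorem sg_xor (a b : Bool) : sg (xor a b) = sg a * sg b := by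
  cases a <;> cases b <;> simp [sg]

theorem sg_mul_self (a : Bool) : sg a * sg a = 1 := by
  cases a <;> simp [sg]

/-- keeps the smaller code -/
def SymCan_mn (a e : ℕ × Bool) : ℕ × Bool := if a.1 ≤ e.1 then a else e

theorem SymCan_fold_cons (q : ℕ) (g : SMap) (gs : List SMap) (c : ℕ) (s : Bool) (k : ℕ → Bool → Res) :
    foldImg q (g :: gs) c s k =
      foldImg q gs c s fun m t => foldImg q gs (g c).1 (xor s (g c).2) k m t := by
  show foldImg q gs c s (fun m t => force (g c).1 fun c' =>
    Bool.rec (motive := fun _ => Res) (foldImg q gs c' false k m t) (foldImg q gs c' true k m t)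
      (xor' s (g c).2)) = _
  simp only [SymCan_force, SymCan_xor]
  cases xor s (g c).2 <;> rfl

theorem SymCan_fold (q : ℕ) (gens : List SMap) : ∀ (c : ℕ) (s : Bool) (k : ℕ → Bool → Res) (m : ℕ)
    (t : Bool), foldImg q gens c s k m t =
      if (imgsM gens c s).any (fun e => e.2 && e.1 == q) then none else
        k ((imgsM gens c s).foldl SymCan_mn (m, t)).1 ((imgsM gens c s).foldl SymCan_mn (m, t)).2 := by
  induction gens with
  | nil =>
    intro c s k m t
    show pick q c s k m t = _
    have h1 : Nat.beq c q = (c == q) := by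
      rw [Bool.eq_iff_iff, Nat.beq_eq, beq_iff_eq]
    have h2 : Nat.ble m c = decide (m ≤ c) := by
      rw [Bool.eq_iff_iff, Nat.ble_eq, decide_eq_true_iff]
    simp only [pick, imgsM, SymCan_and, h1, h2, List.any_cons, List.any_nil, Bool.or_false,
      List.foldl_cons, List.foldl_nil, SymCan_mn]
    cases (s && c == q)
    · by_cases h : m ≤ c <;> simp [h]
    · rfl
  | cons g gs ih =>
    intro c s k m t
    rw [SymCan_fold_cons, ih, ih, imgsM, List.any_append, List.foldl_append]
    cases (imgsM gs c s).any (fun e => e.2 && e.1 == q) <;> simp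

theorem can_eq (gens : List SMap) (q : ℕ) : can gens q = canM gens q := by
  exact SymCan_fold q gens q false _ q false

theorem isRep_iff (cn : ℕ → Res) (c : ℕ) : isRep cn c = true ↔ cn c = some (c, false) := by
  unfold isRep
  rcases cn c with _ | ⟨r, u⟩
  · simp
  · simp [SymCan_and, SymCan_not]

theorem Twist.mem {l l' : List SMap} (ht : Twist l l') :
    ∀ g' ∈ l', ∃ g ∈ l, ∃ b, ∀ c, g' c = ((g c).1, xor b (g c).2) := by
  induction ht with
  | nil => simp
  | cons h _ ih =>
    intro g' hg'
    rcases List.mem_cons.1 hg' with rfl | hg'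
    · exact ⟨_, List.mem_cons_self, h⟩
    · obtain ⟨g, hg, hb⟩ := ih g' hg'
      exact ⟨g, List.mem_cons_of_mem _ hg, hb⟩

theorem Good.twist {P : ℕ → Prop} {l l' : List SMap} (h : Good P l) (ht : Twist l l') : Good P l' := by
  intro g' hg' c hc
  obtain ⟨g, hg, b, hb⟩ := ht.mem g' hg'
  obtain ⟨h1, h2, h3⟩ := h g hg c hc
  refine ⟨by rw [hb]; exact h1, by simp only [hb, h2], fun k' hk' => ?_⟩
  obtain ⟨k, hk, d, hd⟩ := ht.mem k' hk'
  obtain ⟨h4, h5⟩ := h3 k hk
  simp only [hb, hd]
  refine ⟨h4, ?_⟩
  revert h5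
  cases b <;> cases d <;> cases (k c).2 <;> cases (g c).2 <;> cases (g (k c).1).2 <;>
    cases (k (g c).1).2 <;> simp

theorem Twist.imgs {l l' : List SMap} (ht : Twist l l') (c : ℕ) (s s' : Bool) :
    (imgsM l' c s').map Prod.fst = (imgsM l c s).map Prod.fst := by
  induction ht generalizing c s s' with
  | nil => rfl
  | @cons g g' _ _ h _ ih =>
    obtain ⟨b, hb⟩ := h
    rw [imgsM, imgsM, List.map_append, List.map_append, ih c s s', hb]
    exact congrArg _ (ih _ _ _)

variable {P : ℕ → Prop} {gens : List SMap}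

theorem SymCan_self (l : List SMap) (c : ℕ) (s : Bool) : (c, s) ∈ imgsM l c s := by
  induction l with
  | nil => exact List.mem_singleton.2 rfl
  | cons g gs ih => exact List.mem_append_left _ ih

theorem SymCan_sign (l : List SMap) (t : Bool) : ∀ (c : ℕ) (s : Bool) (x : ℕ) (y : Bool),
    (x, xor y t) ∈ imgsM l c (xor s t) ↔ (x, y) ∈ imgsM l c s := by
  induction l with
  | nil => intro c s x y; simp [imgsM]
  | cons g gs ih =>
    intro c s x y
    rw [imgsM, imgsM, List.mem_append, List.mem_append, ih, Bool.xor_right_comm, ih]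

theorem SymCan_A (h : Good P gens) {g : SMap} (l : List SMap) (hl : ∀ k ∈ l, k ∈ gens) (hg : g ∈ l) :
    ∀ (c : ℕ) (s : Bool), P c → (imgsM l (g c).1 (xor s (g c).2)).Perm (imgsM l c s) := by
  induction l with
  | nil => simp at hg
  | cons k t ih =>
    intro c s hc
    obtain ⟨-, h2, h3⟩ := h g (hl g hg) c hc
    rw [imgsM, imgsM]
    rcases List.mem_cons.1 hg with rfl | hg'
    · rw [h2, Bool.xor_assoc, Bool.xor_self, Bool.xor_false]
      exact List.perm_append_comm
    · have ih' := ih (fun k hk => hl k (List.mem_cons_of_mem _ hk)) hg'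
      obtain ⟨h4, h5⟩ := h3 k (hl k List.mem_cons_self)
      refine (ih' c s hc).append ?_
      rw [← h4, Bool.xor_assoc, ← h5, ← Bool.xor_assoc]
      exact ih' _ _ (h k (hl k List.mem_cons_self) c hc).1

theorem SymCan_A' (h : Good P gens) {r : ℕ} {u : Bool} (l : List SMap) (hl : ∀ k ∈ l, k ∈ gens) :
    ∀ (c : ℕ) (s : Bool), P c → (r, u) ∈ imgsM l c s →
      P r ∧ (imgsM gens r u).Perm (imgsM gens c s) := by
  induction l with
  | nil =>
    intro c s hc hm
    obtain ⟨rfl, rfl⟩ := Prod.mk.inj (List.mem_singleton.1 hm)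
    exact ⟨hc, List.Perm.refl _⟩
  | cons k t ih =>
    intro c s hc hm
    have ih' := ih fun k hk => hl k (List.mem_cons_of_mem _ hk)
    have hk := hl k List.mem_cons_self
    rcases List.mem_append.1 hm with hm | hm
    · exact ih' c s hc hm
    · obtain ⟨h1, h2⟩ := ih' _ _ (h k hk c hc).1 hm
      exact ⟨h1, h2.trans (SymCan_A h gens (fun _ => id) hk c s hc)⟩

theorem SymCan_mem (h : Good P gens) {c d : ℕ} {t : Bool} (hc : P c) (hd : (d, t) ∈ imgsM gens c false)
    (x : ℕ) (y : Bool) : (x, y) ∈ imgsM gens d false ↔ (x, xor y t) ∈ imgsM gens c false := by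
  rw [← (SymCan_A' h gens (fun _ => id) c false hc hd).2.mem_iff, ← SymCan_sign gens t, Bool.false_xor]

theorem SymCan_min (l : List (ℕ × Bool)) : ∀ a : ℕ × Bool,
    (l.foldl SymCan_mn a = a ∨ l.foldl SymCan_mn a ∈ l) ∧ (l.foldl SymCan_mn a).1 ≤ a.1 ∧
      ∀ e ∈ l, (l.foldl SymCan_mn a).1 ≤ e.1 := by
  induction l with
  | nil => simp
  | cons e l ih =>
    intro a
    obtain ⟨h1, h2, h3⟩ := ih (SymCan_mn a e)
    have h4 : (SymCan_mn a e = a ∨ SymCan_mn a e = e) ∧ (SymCan_mn a e).1 ≤ a.1 ∧
        (SymCan_mn a e).1 ≤ e.1 := by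
      unfold SymCan_mn
      split_ifs with h
      · exact ⟨Or.inl rfl, le_rfl, h⟩
      · exact ⟨Or.inr rfl, by omega, le_rfl⟩
    rw [List.foldl_cons]
    refine ⟨?_, h2.trans h4.2.1, fun e' he' => ?_⟩
    · rcases h1 with h1 | h1
      · rw [h1]
        exact h4.1.imp id fun h => by rw [h]; exact List.mem_cons_self
      · exact Or.inr (List.mem_cons_of_mem _ h1)
    · rcases List.mem_cons.1 he' with rfl | he'
      · exact h2.trans h4.2.2
      · exact h3 e' he'

theorem SymCan_none (gens : List SMap) (c : ℕ) :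
    can gens c = none ↔ (c, true) ∈ imgsM gens c false := by
  rw [can_eq, canM]
  simp

theorem SymCan_some {c : ℕ} {e : ℕ × Bool} (he : can gens c = some e) :
    e ∈ imgsM gens c false ∧ ∀ e' ∈ imgsM gens c false, e.1 ≤ e'.1 := by
  rw [can_eq, canM] at he
  split_ifs at he
  obtain rfl := Option.some.inj he
  obtain ⟨h1, -, h3⟩ := SymCan_min (imgsM gens c false) (c, false)
  refine ⟨?_, h3⟩
  rcases h1 with h1 | h1
  · exact (congrArg (· ∈ imgsM gens c false) h1).mpr (SymCan_self _ _ _)
  · exact h1

theorem SymCan_both (h : Good P gens) {c r : ℕ} {u : Bool} (hc : P c) (h1 : (r, u) ∈ imgsM gens c false)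
    (h2 : (r, !u) ∈ imgsM gens c false) : can gens c = none := by
  rw [SymCan_none]
  have h3 := (SymCan_mem h hc h1 c u).2 (by rw [Bool.xor_self]; exact SymCan_self _ _ _)
  have h4 := (SymCan_mem h hc h2 c u).1 h3
  rwa [Bool.xor_not_self] at h4

theorem SymCan_of_mem (h : Good P gens) {c d : ℕ} {t : Bool} (hc : P c)
    (hd : (d, t) ∈ imgsM gens c false) :
    can gens d = (can gens c).map fun e => (e.1, xor e.2 t) := by
  have hd' := (SymCan_A' h gens (fun _ => id) c false hc hd).1
  have hm := SymCan_mem h hc hd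
  have hm' : ∀ x y, (x, y) ∈ imgsM gens c false → (x, xor y t) ∈ imgsM gens d false := fun x y hxy =>
    (hm x _).2 (by rwa [Bool.xor_assoc, Bool.xor_self, Bool.xor_false])
  rcases e : can gens c with _ | ⟨r, u⟩
  · refine SymCan_both h hd' (hm' c false (SymCan_self _ _ _)) ?_
    have := hm' c true ((SymCan_none _ _).1 e)
    simpa using this
  · obtain ⟨h1, h2⟩ := SymCan_some e
    have hne : ∀ x y, (x, y) ∈ imgsM gens c false → (x, !y) ∉ imgsM gens c false := fun x y a b => by
      rw [SymCan_both h hc a b] at e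
      cases e
    rcases e' : can gens d with _ | ⟨r', u'⟩
    · refine absurd ((hm _ _).1 ((SymCan_none _ _).1 e')) ?_
      have := hne d t hd
      simpa using this
    · obtain ⟨h3, h4⟩ := SymCan_some e'
      have h5 := (hm _ _).1 h3
      obtain rfl : r = r' := le_antisymm (h2 _ h5) (h4 _ (hm' _ _ h1))
      have h6 := hne _ _ h1
      simp only [Option.map_some, Option.some.injEq, Prod.mk.injEq, true_and]
      revert h5 h6
      cases u <;> cases u' <;> cases t <;> simp +contextual

theorem can_gen (h : Good P gens) {g : SMap} (hg : g ∈ gens) {c : ℕ} (hc : P c) :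
    can gens (g c).1 = (can gens c).map fun e => (e.1, xor e.2 (g c).2) := by
  refine SymCan_of_mem h hc ((SymCan_A h gens (fun _ => id) hg c false hc).mem_iff.1 ?_)
  rw [Bool.false_xor]
  exact SymCan_self _ _ _

theorem can_rep (h : Good P gens) {c r : ℕ} {u : Bool} (hc : P c) (e : can gens c = some (r, u)) :
    P r ∧ can gens r = some (r, false) ∧ c ∈ (imgsM gens r false).map Prod.fst := by
  have h1 := (SymCan_some e).1
  refine ⟨(SymCan_A' h gens (fun _ => id) c false hc h1).1, ?_, List.mem_map.2 ⟨(c, u), ?_, rfl⟩⟩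
  · rw [SymCan_of_mem h hc h1, e]
    simp
  · exact (SymCan_mem h hc h1 c u).2 (by rw [Bool.xor_self]; exact SymCan_self _ _ _)

theorem SymCan_val (h : Good P gens) {v : ℕ → ℂ}
    (hv : ∀ g ∈ gens, ∀ c, P c → v (g c).1 = sg (g c).2 * v c) {e : ℕ × Bool} (l : List SMap)
    (hl : ∀ k ∈ l, k ∈ gens) : ∀ (c : ℕ) (s : Bool), P c → e ∈ imgsM l c s →
      v e.1 = sg e.2 * sg s * v c := by
  induction l with
  | nil =>
    intro c s _ hm
    obtain rfl := List.mem_singleton.1 hm
    rw [sg_mul_self, one_mul]
  | cons k t ih =>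
    intro c s hc hm
    have ih' := ih fun k hk => hl k (List.mem_cons_of_mem _ hk)
    have hk := hl k List.mem_cons_self
    rcases List.mem_append.1 hm with hm | hm
    · exact ih' c s hc hm
    · rw [ih' _ _ (h k hk c hc).1 hm, hv k hk c hc, sg_xor]
      linear_combination sg e.2 * sg s * v c * sg_mul_self (k c).2

/-- a function that transforms with the signs is determined by its values at the representatives
(`v e.1 = sg e.2 * sg s * v c` for `e ∈ imgsM l c s`; no commutation needed) -/
theorem can_val (h : Good P gens) {v : ℕ → ℂ}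
    (hv : ∀ g ∈ gens, ∀ c, P c → v (g c).1 = sg (g c).2 * v c) {c : ℕ} (hc : P c) :
    v c = extC (can gens) v c := by
  unfold extC
  rcases e : can gens c with _ | e'
  · have := SymCan_val h hv gens (fun _ => id) c false hc ((SymCan_none _ _).1 e)
    simp only [sg, if_true, Bool.false_eq_true, if_false] at this
    show v c = 0
    linear_combination this / 2
  · have := SymCan_val h hv gens (fun _ => id) c false hc (SymCan_some e).1
    show v c = sg e'.2 * v e'.1
    rw [this, ← mul_assoc, ← mul_assoc, sg_mul_self]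
    simp [sg]

theorem extC_gen (h : Good P gens) {g : SMap} (hg : g ∈ gens) {c : ℕ} (hc : P c) (y : ℕ → ℂ) :
    extC (can gens) y (g c).1 = sg (g c).2 * extC (can gens) y c := by
  unfold extC
  rw [can_gen h hg hc]
  rcases can gens c with _ | e
  · simp
  · simp only [Option.map_some, sg_xor]
    ring

theorem cancel_sound {c r : ℕ} {gs : List (List SMap)} (h : cancel c r gs 0 0 = true) (hcr : c ≠ r)
    (a : ℂ) : (gs.map fun g => extC (can g) (fun q => if q = r then a else 0) c).sum = 0 := by
  suffices H : ∀ i j : ℕ, cancel c r gs i j = true →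
      (gs.map fun g => extC (can g) (fun q => if q = r then a else 0) c).sum + (i - j) * a = 0 by
    simpa using H 0 0 h
  clear h
  induction gs with
  | nil =>
    intro i j h
    have h1 : Nat.beq r c = false := by
      rw [Bool.eq_false_iff, Ne, Nat.beq_eq]
      exact Ne.symm hcr
    have h2 : Bool.rec (motive := fun _ => Bool) (Nat.beq i j) true (Nat.beq r c) = true := h
    rw [h1] at h2
    rw [Nat.eq_of_beq_eq_true h2]
    simp
  | cons g gs ih =>
    intro i j h
    have h2 : Option.rec (motive := fun _ => Bool) (cancel c r gs i j)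
      (fun e => Prod.rec (motive := fun _ => Bool) (fun r' u => and' (Nat.beq r' r)
        (Bool.rec (motive := fun _ => Bool) (cancel c r gs (Nat.succ i) j)
          (cancel c r gs i (Nat.succ j)) u)) e) (can g c) = true := h
    rw [List.map_cons, List.sum_cons, extC]
    rcases e : can g c with _ | ⟨r', u⟩
    · rw [e] at h2
      simpa using ih i j h2
    · rw [e] at h2
      obtain ⟨h3, h4⟩ := (and'_iff _ _).1 h2
      obtain rfl := Nat.eq_of_beq_eq_true h3
      cases u
      · have := ih _ _ h4
        simp only [sg, if_true, Bool.false_eq_true, if_false]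
        push_cast at this
        linear_combination this
      · have := ih _ _ h4
        simp only [sg, if_true]
        push_cast at this
        linear_combination this

theorem SymCan_get_zero (n c : ℕ) : get n (zero n) c = 0 := by
  induction n with
  | zero => rfl
  | succ n ih =>
    have h : ∀ d, sel d (V.mk (zero n) (zero n) (zero n) (zero n) (zero n) (zero n) (zero n) (zero n)
        (zero n)) = zero n := fun d => by
      unfold sel
      cases Nat.ble d 0 <;> cases Nat.ble d 1 <;> cases Nat.ble d 2 <;> cases Nat.ble d 3 <;>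
        cases Nat.ble d 4 <;> cases Nat.ble d 5 <;> cases Nat.ble d 6 <;> cases Nat.ble d 7 <;> rfl
    exact (congrArg (fun t => get n t c) (h _)).trans ih

theorem SymCan_comm {g : SMap} {c : ℕ} (l : List SMap) (h : commOK g c l = true) : ∀ g' ∈ l,
    (g (g' c).1).1 = (g' (g c).1).1 ∧ xor (g' c).2 (g (g' c).1).2 = xor (g c).2 (g' (g c).1).2 := by
  induction l with
  | nil => simp
  | cons k t ih =>
    obtain ⟨h1, h2⟩ := (and'_iff _ _).1 h
    obtain ⟨h2, h3⟩ := (and'_iff _ _).1 h2
    intro g' hg'
    rcases List.mem_cons.1 hg' with rfl | hg'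
    · refine ⟨Nat.eq_of_beq_eq_true h1, ?_⟩
      simp only [SymCan_xor, SymCan_not] at h2
      revert h2
      cases xor (g' c).2 (g (g' c).1).2 <;> cases xor (g c).2 (g' (g c).1).2 <;> simp
    · exact ih h3 g' hg'

theorem SymCan_goodAt {L lo c : ℕ} (l : List SMap) (h : goodAt L lo gens c l = true) : ∀ g ∈ l,
    okS L lo (g c).1 = true ∧ g (g c).1 = (c, (g c).2) ∧ ∀ g' ∈ gens,
      (g (g' c).1).1 = (g' (g c).1).1 ∧
        xor (g' c).2 (g (g' c).1).2 = xor (g c).2 (g' (g c).1).2 := by
  induction l with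
  | nil => simp
  | cons k t ih =>
    obtain ⟨h1, h2⟩ := (and'_iff _ _).1 h
    obtain ⟨h2, h3⟩ := (and'_iff _ _).1 h2
    obtain ⟨h3, h4⟩ := (and'_iff _ _).1 h3
    obtain ⟨h4, h5⟩ := (and'_iff _ _).1 h4
    intro g hg
    rcases List.mem_cons.1 hg with rfl | hg
    · refine ⟨?_, Prod.ext (Nat.eq_of_beq_eq_true h2) ?_, SymCan_comm _ h4⟩
      · rw [okC, SymCan_and] at h1
        exact h1
      · simp only [SymCan_xor, SymCan_not] at h3
        revert h3
        cases (g (g c).1).2 <;> cases (g c).2 <;> simp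
    · exact ih h5 g hg

theorem SymCan_good {L lo n : ℕ} (h : ∀ c, c < 3 ^ L → goodOK L lo gens n (c / 9 ^ n) = true) :
    Good (fun c => okS L lo c = true) gens := by
  intro g hg c hc
  obtain ⟨h1, h2⟩ := (okS_iff _ _ _).1 hc
  refine SymCan_goodAt gens ?_ g hg
  have h3 := congrArg (fun t => get n t c) (eqT_eq n _ _ (h c h1))
  rw [get_build _ _ _ _ fun k _ => spinEmp_false h1 h2 k, SymCan_get_zero, SymCan_force] at h3
  revert h3
  cases goodAt L lo gens c gens <;> simp

/-- `eqT_eq`, `get_build`, `spinEmp_false`; `get n (zero n) c = 0` -/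
theorem good_one {L lo n : ℕ} (h : goodOK L lo gens n 0 = true) (hn : 3 ^ L ≤ 9 ^ n) :
    Good (fun c => okS L lo c = true) gens := by
  refine SymCan_good (n := n) fun c hc => ?_
  rw [Nat.div_eq_of_lt (hc.trans_le hn)]
  exact h

theorem good_nine {L lo n : ℕ} (h0 : goodOK L lo gens n 0 = true) (h1 : goodOK L lo gens n 1 = true)
    (h2 : goodOK L lo gens n 2 = true) (h3 : goodOK L lo gens n 3 = true)
    (h4 : goodOK L lo gens n 4 = true) (h5 : goodOK L lo gens n 5 = true)
    (h6 : goodOK L lo gens n 6 = true) (h7 : goodOK L lo gens n 7 = true)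
    (h8 : goodOK L lo gens n 8 = true) (hn : 3 ^ L ≤ 9 ^ (n + 1)) :
    Good (fun c => okS L lo c = true) gens := by
  refine SymCan_good (n := n) fun c hc => ?_
  have h9 : c / 9 ^ n < 9 := by
    rw [Nat.div_lt_iff_lt_mul (by positivity), ← pow_succ']
    exact hc.trans_le hn
  generalize c / 9 ^ n = p at h9
  interval_cases p <;> assumption

end Crest.Agent.R347.Eng
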