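import Crest.Agent.R347.SymCan
import Crest.Agent.R347.ChebExt

/-!
# Row 347: the reduced spin matrices   (task R347/SymExt)

You may use `SymCan`, `ChebExt` (other tasks), `SpinRep`, `SpinRow`, `EngTree`.  Do not edit `EngS.lean`.
Recipe for `sym_ext`.  `sortL`: by induction on `l`, `sortL cn s k l p n = k p' n'` with
`∑_{p'} y - ∑_{n'} y = ∑_p y - ∑_n y + sg s * ∑_{q ∈ l} extC cn y q`, `|p'| + |n'| ≤ |p| + |n| + |l|`, and every
new element `r` has `cn q = some (r, _)` for some `q ∈ l`.  Compare with `spinRow_eq`, `row_codes`,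
`spin_row` (applied to the vector `ext …  y`; at the diagonal code `c` use `isRep_iff`), `spin_closed` (one of
the two `lastHops` is empty).  `inv`: the vector `v = ext y` satisfies `v (π p) = ε p * v p` for all `p` and all
generators (`extC_gen` in the sector; outside the sector both sides vanish because `π` is injective and
`Good` gives `π (cfg (g c).1) = cfg c`), hence so does `A *ᵥ v` (`hπ.sum_comp`); then use `can_val` for
`c ↦ (A *ᵥ v) (cfg c)` in the sector and `spinA_block` outside.
-/

set_option autoImplicit false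

namespace Crest.Agent.R347.Eng

open Matrix

/-- the code of a configuration -/
def enc {L : ℕ} (p : Cfg L) : ℕ := (finFunctionFinEquiv p).val

noncomputable def ext (L lo : ℕ) (cn : ℕ → Res) (y : ℕ → ℂ) (p : Cfg L) : ℂ :=
  if dsC p = lo then extC cn y (enc p) else 0

noncomputable def okR (L lo : ℕ) (cn : ℕ → Res) (c : ℕ) : Bool := okS L lo c && isRep cn c

/-- `g` describes a signed permutation that commutes with `A` -/
def SymC {L : ℕ} (A : Matrix (Cfg L) (Cfg L) ℂ) (g : SMap) : Prop :=
  ∃ (π : Cfg L → Cfg L) (ε : Cfg L → ℂ), Function.Bijective π ∧ (∀ p, ε p * ε p = 1) ∧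
    (∀ p q, A (π p) (π q) = ε p * ε q * A p q) ∧
    ∀ c, c < 3 ^ L → cfg L (g c).1 = π (cfg L c) ∧ ε (cfg L c) = sg (g c).2

theorem enc_cfg {L c : ℕ} (hc : c < 3 ^ L) : enc (cfg L c) = c := by
  unfold enc
  rw [show cfg L c = finFunctionFinEquiv.symm ⟨c, hc⟩ from tree_cfg_eq L ⟨c, hc⟩, Equiv.apply_symm_apply]

theorem ext_cfg {L lo c : ℕ} (cn : ℕ → Res) (y : ℕ → ℂ) (hc : okS L lo c = true) :
    ext L lo cn y (cfg L c) = extC cn y c := by
  obtain ⟨h1, h2⟩ := (okS_iff _ _ _).1 hc
  unfold ext
  rw [if_pos (by rw [dsC_cfg, h2]), enc_cfg h1]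

theorem SE_ext_out {L lo c : ℕ} (cn : ℕ → Res) (y : ℕ → ℂ) (hc : c < 3 ^ L)
    (hd : ¬ okS L lo c = true) : ext L lo cn y (cfg L c) = 0 := by
  unfold ext
  refine if_neg fun e => hd ((okS_iff _ _ _).2 ⟨hc, ?_⟩)
  rw [← dsC_cfg, e]

theorem SE_okR (L lo : ℕ) (cn : ℕ → Res) (c : ℕ) :
    okR L lo cn c = true ↔ okS L lo c = true ∧ cn c = some (c, false) := by
  rw [okR, Bool.and_eq_true, isRep_iff]

theorem SE_force {α : Type} (n : ℕ) (k : ℕ → α) : force n k = k n := by
  cases n <;> rfl

theorem SE_sortL (cn : ℕ → Res) (s : Bool) (l : List ℕ) : ∀ p n : List ℕ, ∃ p' n' : List ℕ,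
    (∀ k, sortL cn s k l p n = k p' n') ∧
    (∀ y : ℕ → ℂ, (p'.map y).sum - (n'.map y).sum =
      (p.map y).sum - (n.map y).sum + sg s * (l.map (extC cn y)).sum) ∧
    p'.length + n'.length ≤ p.length + n.length + l.length ∧
    ∀ r ∈ p' ++ n', r ∈ p ++ n ∨ ∃ q ∈ l, ∃ u, cn q = some (r, u) := by
  induction l with
  | nil => exact fun p n => ⟨p, n, fun _ => rfl, fun y => by simp, le_rfl, fun r hr => Or.inl hr⟩
  | cons q l ih =>
    intro p n
    have e0 : ∀ k, sortL cn s k (q :: l) p n = Option.rec (motive := fun _ => Gs × Gs)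
        (sortL cn s k l p n) (fun e => Prod.rec (motive := fun _ => Gs × Gs) (fun r u =>
          Bool.rec (motive := fun _ => Gs × Gs) (sortL cn s k l (r :: p) n)
            (sortL cn s k l p (r :: n)) (xor' s u)) e) (cn q) := fun k => by
      cases q <;> rfl
    rcases e : cn q with _ | ⟨r, u⟩
    · obtain ⟨p', n', h1, h2, h3, h4⟩ := ih p n
      refine ⟨p', n', fun k => by rw [e0, e]; exact h1 k, fun y => ?_, ?_, fun r hr => ?_⟩
      · rw [h2, List.map_cons, List.sum_cons, extC, e]
        simp
      · rw [List.length_cons]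
        omega
      · rcases h4 r hr with h | ⟨q', hq', h⟩
        · exact Or.inl h
        · exact Or.inr ⟨q', List.mem_cons_of_mem _ hq', h⟩
    · rcases ex : xor' s u with _ | _
      · obtain ⟨p', n', h1, h2, h3, h4⟩ := ih (r :: p) n
        refine ⟨p', n', fun k => by rw [e0, e]; simp only [ex]; exact h1 k, fun y => ?_, ?_,
          fun r' hr => ?_⟩
        · have h5 : sg s * sg u = 1 := by
            cases s <;> cases u <;> simp [sg, xor'] at ex ⊢
          rw [h2, List.map_cons, List.sum_cons, List.map_cons, List.sum_cons, extC, e]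
          linear_combination (-y r) * h5
        · simp only [List.length_cons] at h3 ⊢
          omega
        · rcases h4 r' hr with h | ⟨q', hq', h⟩
          · rcases List.mem_cons.1 h with rfl | h
            · exact Or.inr ⟨q, List.mem_cons_self, u, e⟩
            · exact Or.inl h
          · exact Or.inr ⟨q', List.mem_cons_of_mem _ hq', h⟩
      · obtain ⟨p', n', h1, h2, h3, h4⟩ := ih p (r :: n)
        refine ⟨p', n', fun k => by rw [e0, e]; simp only [ex]; exact h1 k, fun y => ?_, ?_,
          fun r' hr => ?_⟩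
        · have h5 : sg s * sg u = -1 := by
            cases s <;> cases u <;> simp [sg, xor'] at ex ⊢
          rw [h2, List.map_cons, List.sum_cons, List.map_cons, List.sum_cons, extC, e]
          linear_combination (-y r) * h5
        · simp only [List.length_cons] at h3 ⊢
          omega
        · rcases h4 r' hr with h | ⟨q', hq', h⟩
          · simp only [List.mem_append, List.mem_cons] at h
            rcases h with h | rfl | h
            · exact Or.inl (List.mem_append_left _ h)
            · exact Or.inr ⟨q, List.mem_cons_self, u, e⟩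
            · exact Or.inl (List.mem_append_right _ h)
          · exact Or.inr ⟨q', List.mem_cons_of_mem _ hq', h⟩

theorem SE_symRow (cn : ℕ → Res) (l kind m f eP eN c : ℕ) : ∃ p n : List ℕ,
    symRow cn l kind m f eP eN c =
      ([(m, p), (m * zzTo c l + eP + lastDiag l kind m f c - eN, [c])],
       [(m, n), (eN - (m * zzTo c l + eP + lastDiag l kind m f c), [c])]) ∧
    (∀ y : ℕ → ℂ, (p.map y).sum - (n.map y).sum =
      ((hopsTo c (lastHops c l (Nat.beq kind 0)) l).map (extC cn y)).sum -
        ((lastHops c l (Nat.beq kind 1)).map (extC cn y)).sum) ∧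
    p.length + n.length ≤ (hopsTo c (lastHops c l (Nat.beq kind 0)) l).length +
      (lastHops c l (Nat.beq kind 1)).length ∧
    ∀ r ∈ p ++ n, ∃ q ∈ hopsTo c (lastHops c l (Nat.beq kind 0)) l ++ lastHops c l (Nat.beq kind 1),
      ∃ u, cn q = some (r, u) := by
  obtain ⟨p, n, h1, h2, h3, h4⟩ := SE_sortL cn false (hopsTo c (lastHops c l (Nat.beq kind 0)) l) [] []
  obtain ⟨p', n', h1', h2', h3', h4'⟩ := SE_sortL cn true (lastHops c l (Nat.beq kind 1)) p n
  refine ⟨p', n', ?_, fun y => ?_, ?_, fun r hr => ?_⟩
  · exact (SE_force _ _).trans ((h1 _).trans (h1' _))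
  · rw [h2', h2]
    simp only [sg, List.map_nil, List.sum_nil, if_true, Bool.false_eq_true, if_false]
    ring
  · simp only [List.length_nil] at h3
    omega
  · rcases h4' r hr with h | ⟨q, hq, h⟩
    · rcases h4 r h with h | ⟨q, hq, h⟩
      · simp at h
      · exact ⟨q, List.mem_append_left _ hq, h⟩
    · exact ⟨q, List.mem_append_right _ hq, h⟩

theorem SE_lastHops (c l kind : ℕ) :
    (lastHops c l (Nat.beq kind 0)).length + (lastHops c l (Nat.beq kind 1)).length ≤ 2 := by
  rcases kind with _ | _ | kind
  · exact length_lastHops c l true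
  · exact (zero_add _).trans_le (length_lastHops c l true)
  · exact Nat.zero_le _

theorem SE_mulVec {L lo : ℕ} {gens : List SMap} {A : Matrix (Cfg L) (Cfg L) ℂ} {g : SMap}
    (hg : Good (fun c => okS L lo c = true) gens) (hgm : g ∈ gens) (hs : SymC A g) (y : ℕ → ℂ)
    {c : ℕ} (hc : c < 3 ^ L) : (A *ᵥ ext L lo (can gens) y) (cfg L (g c).1) =
      sg (g c).2 * (A *ᵥ ext L lo (can gens) y) (cfg L c) := by
  obtain ⟨π, ε, hπ, hε, hA, hc'⟩ := hs
  have hv : ∀ q, ext L lo (can gens) y (π q) = ε q * ext L lo (can gens) y q := by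
    intro q
    obtain ⟨d, hd, rfl⟩ := cfg_surj q
    by_cases ho : okS L lo d = true
    · rw [← (hc' d hd).1, (hc' d hd).2, ext_cfg _ _ ho, ext_cfg _ _ (hg g hgm d ho).1,
        extC_gen hg hgm ho]
    · rw [SE_ext_out _ _ hd ho, mul_zero]
      obtain ⟨d', hd', e⟩ := cfg_surj (π (cfg L d))
      rw [← e]
      refine SE_ext_out _ _ hd' fun ho' => ho ?_
      obtain ⟨h1, h2, -⟩ := hg g hgm d' ho'
      have h3 := ((okS_iff _ _ _).1 h1).1
      have h4 := (hc' _ h3).1
      rw [h2, e] at h4
      rw [cfg_inj hd h3 (hπ.1 h4)]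
      exact h1
  rw [(hc' c hc).1, ← (hc' c hc).2]
  simp only [Matrix.mulVec, dotProduct]
  rw [← hπ.sum_comp, Finset.mul_sum]
  refine Finset.sum_congr rfl fun q _ => ?_
  rw [hA, hv]
  linear_combination (ε (cfg L c) * A (cfg L c) q * ext L lo (can gens) y q) * hε q

theorem sym_ext {l kind m f eP eN s t lo : ℕ} {gens : List SMap} (hl : 1 ≤ l) (hk : kind ≤ 3)
    (hf : 2 ≤ kind → 5 * f = 3 * m)
    (hw : 2 * m * (l + 1) + (2 * m * (l + 1) + 4 * f + eP - eN) ≤ (t + 1) * 2 ^ (s + 1))
    (ht : t ≤ 2 ^ s) (hg : Good (fun c => okS (l + 1) lo c = true) gens)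
    (hsym : ∀ g ∈ gens, SymC (spinA l kind m f eP eN s) g) :
    Ext (symMat gens l kind m f eP eN s t lo) (okR (l + 1) lo (can gens)) t (cfg (l + 1))
      (spinA l kind m f eP eN s) (ext (l + 1) lo (can gens)) := by
  have R := spin_rep (eP := eP) (eN := eN) lo hl hk hf hw ht
  have hrep : ∀ {c r : ℕ} {u : Bool}, okS (l + 1) lo c = true → can gens c = some (r, u) →
      okR (l + 1) lo (can gens) r = true := fun hc e =>
    (SE_okR _ _ _ _).2 ⟨(can_rep hg hc e).1, (can_rep hg hc e).2.1⟩
  have hval : ∀ (y : ℕ → ℂ) c, okR (l + 1) lo (can gens) c = true →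
      ext (l + 1) lo (can gens) y (cfg (l + 1) c) = y c := by
    intro y c hc
    obtain ⟨h1, h2⟩ := (SE_okR _ _ _ _).1 hc
    rw [ext_cfg _ _ h1, extC, h2]
    simp [sg]
  have hcodes : ∀ c, okS (l + 1) lo c = true →
      ∀ q ∈ hopsTo c (lastHops c l (Nat.beq kind 0)) l ++ lastHops c l (Nat.beq kind 1),
        okS (l + 1) lo q = true := by
    intro c hc q hq
    refine R.closed c hc q ?_
    show q ∈ codes (spinRow l kind m f eP eN c).1 ++ codes (spinRow l kind m f eP eN c).2
    simp only [spinRow_eq, codes, List.flatMap_cons, List.flatMap_nil, List.append_nil,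
      List.mem_append, List.mem_singleton] at hq ⊢
    tauto
  refine ⟨⟨fun c hc => ?_, fun c hc q hq => ?_, fun c _ => ?_, R.base, ht⟩, hval,
    fun y B hB hy p => ?_, fun y y' => ?_, fun y => ?_, fun c hc y => ?_⟩
  · obtain ⟨h1, h2⟩ := (SE_okR _ _ _ _).1 hc
    refine ⟨(R.valid c h1).1, fun k hk => ?_⟩
    have h3 : spinEmp (l + 1) lo lo k (c / 9 ^ k) = false := (R.valid c h1).2 k hk
    show symEmp (can gens) (l + 1) lo k (c / 9 ^ k) = false
    unfold symEmp
    rw [h3]
    cases k with
    | zero =>
      rw [pow_zero, Nat.div_one, (isRep_iff _ _).2 h2]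
      rfl
    | succ k => rfl
  · obtain ⟨h1, h2⟩ := (SE_okR _ _ _ _).1 hc
    obtain ⟨p, n, e, -, -, hm⟩ := SE_symRow (can gens) l kind m f eP eN c
    change q ∈ codes (symRow (can gens) l kind m f eP eN c).1 ++
      codes (symRow (can gens) l kind m f eP eN c).2 at hq
    simp only [e, codes, List.flatMap_cons, List.flatMap_nil, List.append_nil,
      List.mem_append, List.mem_singleton] at hq
    have key : q ∈ p ++ n → okR (l + 1) lo (can gens) q = true := fun hq => by
      obtain ⟨q', hq', u, hu⟩ := hm q hq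
      exact hrep (hcodes c h1 q' hq') hu
    rcases hq with (hq | rfl) | hq | rfl
    · exact key (List.mem_append_left _ hq)
    · exact hc
    · exact key (List.mem_append_right _ hq)
    · exact hc
  · refine le_trans ?_ (Nat.le_add_right _ _)
    show wt (symRow (can gens) l kind m f eP eN c).1 ≤ (t + 1) * 2 ^ (s + 1)
    refine le_trans ?_ hw
    obtain ⟨p, n, e, -, hlen, -⟩ := SE_symRow (can gens) l kind m f eP eN c
    rw [e, wt_eq]
    simp only [List.map_cons, List.map_nil, List.sum_cons, List.sum_nil, List.length_singleton,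
      mul_one, add_zero]
    have h1 := length_hopsTo c (lastHops c l (Nat.beq kind 0)) l
    have h2 := SE_lastHops c l kind
    have h3 := Nat.mul_le_mul_left m (zzTo_le c l)
    have h4 := lastDiag_le l kind m f c
    refine add_le_add ?_ (Nat.sub_le_sub_right ?_ _)
    · calc _ ≤ m * (2 + 2 * l) := Nat.mul_le_mul_left m (by omega)
        _ = _ := by ring
    · have : 2 * m * (l + 1) = m * (2 * l) + 2 * m := by ring
      omega
  · obtain ⟨c, hc, rfl⟩ := cfg_surj p
    by_cases hd : okS (l + 1) lo c = true
    · rw [ext_cfg _ _ hd, extC]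
      rcases e : can gens c with _ | ⟨r, u⟩
      · simpa using hB
      · have h1 : ‖sg u‖ = 1 := by cases u <;> simp [sg]
        show ‖sg u * y r‖ ≤ B
        rw [norm_mul, h1, one_mul]
        exact hy r (hrep hd e)
    · rw [SE_ext_out _ _ hc hd]
      simpa using hB
  · funext p
    simp only [ext, extC, Pi.sub_apply]
    split_ifs
    · rcases can gens (enc p) with _ | e
      · simp
      · exact mul_sub _ _ _
    · simp
  · funext p
    obtain ⟨c, hc, rfl⟩ := cfg_surj p
    by_cases hd : okS (l + 1) lo c = true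
    · rw [ext_cfg _ _ hd]
      refine (can_val hg (v := fun c => (spinA l kind m f eP eN s *ᵥ ext (l + 1) lo (can gens) y)
        (cfg (l + 1) c)) (fun g hgm c hc => ?_) hd).symm
      exact SE_mulVec hg hgm (hsym g hgm) y ((okS_iff _ _ _).1 hc).1
    · rw [SE_ext_out _ _ hc hd]
      refine (Finset.sum_eq_zero fun q _ => ?_).symm
      by_cases hq : dsC q = lo
      · refine mul_eq_zero_of_left (spinA_block m f eP eN s hl hk ?_) _
        rw [hq, dsC_cfg]
        exact fun e => hd ((okS_iff _ _ _).2 ⟨hc, e⟩)
      · rw [ext, if_neg hq, mul_zero]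
  · obtain ⟨h1, h2⟩ := (SE_okR _ _ _ _).1 hc
    refine Eq.trans ?_ (R.row c h1 (ext (l + 1) lo (can gens) y))
    obtain ⟨p, n, e, hs, -, -⟩ := SE_symRow (can gens) l kind m f eP eN c
    show gsum y (symRow (can gens) l kind m f eP eN c).1 -
        gsum y (symRow (can gens) l kind m f eP eN c).2 =
      gsum _ (spinRow l kind m f eP eN c).1 - gsum _ (spinRow l kind m f eP eN c).2
    have h3 : ∀ H : List ℕ, (∀ q ∈ H, okS (l + 1) lo q = true) →
        (H.map fun q => ext (l + 1) lo (can gens) y (cfg (l + 1) q)) = H.map (extC (can gens) y) :=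
      fun H hH => List.map_congr_left fun q hq => ext_cfg _ _ (hH q hq)
    rw [e, spinRow_eq]
    simp only [gsum, List.map_cons, List.map_nil, List.sum_cons, List.sum_nil, add_zero]
    rw [h3 _ fun q hq => hcodes c h1 q (List.mem_append_left _ hq),
      h3 _ fun q hq => hcodes c h1 q (List.mem_append_right _ hq), hval y c hc]
    linear_combination (m : ℂ) * hs y

/-- The extensions of a unit vector add up to a multiple of the unit vector.  At `cfg r`: `can_rep` shows
that `can g r = some (r, u)` forces `u = false`.  At `cfg c`, `c ≠ r` in the sector: if all terms vanish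
there is nothing to do; otherwise `can_rep`, `Twist.imgs` and `cancel_sound`. -/
theorem ext_sum {L lo r : ℕ} {base : List SMap} {gs : List (List SMap)}
    (hb : Good (fun c => okS L lo c = true) base) (hgs : ∀ g ∈ gs, Twist base g)
    (hr : okS L lo r = true) (hc : ∀ e ∈ imgsM base r false, cancel e.1 r gs 0 0 = true) (a : ℂ) :
    (gs.map fun g => ext L lo (can g) fun q => if q = r then a else 0).sum =
      ((gs.countP fun g => isRep (can g) r : ℕ) * a : ℂ) • Pi.single (cfg L r) 1 := by
  funext p
  obtain ⟨c, hc', rfl⟩ := cfg_surj p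
  rw [Pi.list_sum_apply, List.map_map, Pi.smul_apply, smul_eq_mul]
  obtain ⟨hr1, hr2⟩ := (okS_iff _ _ _).1 hr
  by_cases hd : okS L lo c = true
  · have h1 : gs.map ((fun f : Cfg L → ℂ => f (cfg L c)) ∘ fun g =>
        ext L lo (can g) fun q => if q = r then a else 0) =
        gs.map fun g => extC (can g) (fun q => if q = r then a else 0) c :=
      List.map_congr_left fun g _ => ext_cfg _ _ hd
    rw [h1]
    by_cases hcr : c = r
    · subst hcr
      rw [Pi.single_eq_same, mul_one]
      have h2 : ∀ g ∈ gs, extC (can g) (fun q => if q = c then a else 0) c =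
          if isRep (can g) c = true then a else 0 := by
        intro g hg
        simp only [isRep_iff, extC]
        rcases e : can g c with _ | ⟨r, u⟩
        · simp
        · by_cases hrc : r = c
          · subst hrc
            have h3 := (can_rep (hb.twist (hgs g hg)) hd e).2.1
            rw [e] at h3
            obtain rfl : u = false := by simpa using h3
            simp [sg]
          · simp [hrc]
      rw [List.map_congr_left h2]
      clear h1 h2 hc hgs
      induction gs with
      | nil => simp
      | cons g gs ih =>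
        rw [List.map_cons, List.sum_cons, ih, List.countP_cons]
        split_ifs <;> push_cast <;> ring
    · rw [Pi.single_eq_of_ne fun e => hcr (cfg_inj hc' hr1 e), mul_zero]
      by_cases h0 : ∀ g ∈ gs, extC (can g) (fun q => if q = r then a else 0) c = 0
      · refine List.sum_eq_zero fun x hx => ?_
        obtain ⟨g, hg, rfl⟩ := List.mem_map.1 hx
        exact h0 g hg
      · simp only [not_forall] at h0
        obtain ⟨g, hg, h0⟩ := h0
        rw [extC] at h0
        rcases e : can g c with _ | ⟨r', u⟩
        · simp [e] at h0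
        · obtain rfl : r' = r := by
            by_contra hne
            simp [e, hne] at h0
          have h3 := (can_rep (hb.twist (hgs g hg)) hd e).2.2
          rw [(hgs g hg).imgs r' false false] at h3
          obtain ⟨x, hx, rfl⟩ := List.mem_map.1 h3
          exact cancel_sound (hc x hx) hcr a
  · rw [Pi.single_eq_of_ne, mul_zero]
    · refine List.sum_eq_zero fun x hx => ?_
      obtain ⟨g, _, rfl⟩ := List.mem_map.1 hx
      exact SE_ext_out _ _ hc' hd
    · intro e
      rw [cfg_inj hc' hr1 e] at hd
      exact hd hr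

/-- the extension of a unit vector at a code that is not a representative vanishes (`can_rep`) -/
theorem ext_dead {L lo r : ℕ} {gens : List SMap} (hg : Good (fun c => okS L lo c = true) gens)
    (hr : isRep (can gens) r = false) (a : ℂ) :
    ext L lo (can gens) (fun q => if q = r then a else 0) = 0 := by
  funext p
  obtain ⟨c, hc, rfl⟩ := cfg_surj p
  by_cases hd : okS L lo c = true
  · rw [ext_cfg _ _ hd, extC]
    rcases e : can gens c with _ | ⟨r', u⟩
    · rfl
    · have hne : r' ≠ r := by
        rintro rfl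
        rw [(isRep_iff _ _).2 (can_rep hg hd e).2.1] at hr
        exact absurd hr (by simp)
      simp [hne]
  · exact SE_ext_out _ _ hc hd

end Crest.Agent.R347.Eng
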