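import Crest.Agent.R347.SymExt
import Crest.Agent.R347.Symm

/-!
# Row 347: the three generators are symmetries of the ring   (task R347/SymGen)

Do not edit `EngS.lean`.  Use `ringH_refl`, `ringH_shift` (five times; `ε` is the product of the five gauge
signs `gauge g (shiftC^[k] σ)` and of the constant `sg (bit chi 1)`), `ringH_flip`, `symm_one_apply`, `symm_spinH`, `cfg_revC`, `cfg_rotC`,
`cfg_flipC` from `Symm.lean`.  The tables can be checked by the kernel: for instance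
`allLt (fun c => Nat.beq (genA 10 false c).1 (revC 10 c)) (3 ^ 10) = true := by kernel_rfl` (prove a soundness
lemma for `allLt`; put `set_option Elab.async false` in the file; keep each such check below ~30 s and 2 GB, or
better check only the 243 table entries and argue with digits).  `gauge (some 2) σ = sg (σ 0 != 1)`, so
the sign of five rotations is the parity of `5 +` the sum of the lowest five digits.
-/

set_option autoImplicit false

namespace Crest.Agent.R347.Eng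

theorem sgen_xor (a b : Bool) : xor' a b = xor a b := by cases a <;> cases b <;> rfl

theorem sgen_and (a b : Bool) : and' a b = and a b := by cases a <;> cases b <;> rfl

theorem sgen_bit_zero (i : ℕ) : bit 0 i = false := by
  unfold bit
  rw [show Nat.shiftRight 0 i = 0 from Nat.zero_shiftRight i]
  rfl

theorem sgen_sg_xor (a b : Bool) : sg (xor a b) = sg a * sg b := by
  cases a <;> cases b <;> simp [sg]

theorem sgen_sg_sq (a : Bool) : sg a * sg a = 1 := by cases a <;> simp [sg]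

theorem sgen_rev5 : ∀ x < 243,
    rev5 x = 81 * (x % 3) + 27 * (x / 3 % 3) + 9 * (x / 9 % 3) + 3 * (x / 27 % 3) + x / 81 % 3 := by
  decide +kernel

theorem sgen_par5 : ∀ x < 243, par5 x = xor (xor (xor (xor (x % 3 != 1) (x / 3 % 3 != 1))
    (x / 9 % 3 != 1)) (x / 27 % 3 != 1)) (x / 81 % 3 != 1) := by
  decide +kernel

theorem sgen_digits {c : ℕ} (hc : c < 243) : ∃ a0 a1 a2 a3 a4 : ℕ, a0 < 3 ∧ a1 < 3 ∧ a2 < 3 ∧ a3 < 3 ∧
    a4 < 3 ∧ c = a0 + 3 * a1 + 9 * a2 + 27 * a3 + 81 * a4 ∧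
    rev5 c = 81 * a0 + 27 * a1 + 9 * a2 + 3 * a3 + a4 :=
  ⟨c % 3, c / 3 % 3, c / 9 % 3, c / 27 % 3, c / 81 % 3, by omega, by omega, by omega, by omega, by omega,
    by omega, sgen_rev5 c hc⟩

theorem sgen_revAux (k a d c : ℕ) (hd : d < 3) : revAux (k + 1) (d + 3 * c) a = revAux k c (3 * a + d) := by
  show revAux k ((d + 3 * c) / 3) (3 * a + (d + 3 * c) % 3) = _
  rw [show (d + 3 * c) / 3 = c by omega, show (d + 3 * c) % 3 = d by omega]

theorem sgen_rev9 (a0 a1 a2 a3 a4 b0 b1 b2 b3 x : ℕ) (p0 : a0 < 3) (p1 : a1 < 3) (p2 : a2 < 3) (p3 : a3 < 3)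
    (p4 : a4 < 3) (q0 : b0 < 3) (q1 : b1 < 3) (q2 : b2 < 3) (q3 : b3 < 3) (k : ℕ) :
    revAux (k + 9) (a0 + 3 * (a1 + 3 * (a2 + 3 * (a3 + 3 * (a4 + 3 * (b0 + 3 * (b1 + 3 * (b2 + 3 *
      (b3 + 3 * x))))))))) 0 = revAux k x (81 * (81 * a0 + 27 * a1 + 9 * a2 + 3 * a3 + a4) +
        (27 * b0 + 9 * b1 + 3 * b2 + b3)) := by
  rw [sgen_revAux _ _ _ _ p0, sgen_revAux _ _ _ _ p1, sgen_revAux _ _ _ _ p2, sgen_revAux _ _ _ _ p3,
    sgen_revAux _ _ _ _ p4, sgen_revAux _ _ _ _ q0, sgen_revAux _ _ _ _ q1, sgen_revAux _ _ _ _ q2,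
    sgen_revAux _ _ _ _ q3]
  congr 1
  ring

theorem sgen_revAux_zero (c a : ℕ) : revAux 0 c a = a := rfl

theorem sgen_genA_eq (L c : ℕ) (chi : Bool) :
    (genA L chi c).1 = rev5 (c % 243) * 3 ^ (L - 5) + rev5 (c / 243) / 3 ^ (10 - L) := rfl

theorem sgen_genA {L c : ℕ} (hL : L = 9 ∨ L = 10) (hc : c < 3 ^ L) (chi : Bool) :
    (genA L chi c).1 = revC L c := by
  have h1 : c / 243 < 243 := by rcases hL with rfl | rfl <;> omega
  have h9 : 9 ≤ L := by omega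
  obtain ⟨a0, a1, a2, a3, a4, p0, p1, p2, p3, p4, e1, e2⟩ :=
    sgen_digits (Nat.mod_lt c (by norm_num) : c % 243 < 243)
  obtain ⟨b0, b1, b2, b3, b4, q0, q1, q2, q3, q4, e3, e4⟩ := sgen_digits h1
  have e : c = a0 + 3 * (a1 + 3 * (a2 + 3 * (a3 + 3 * (a4 + 3 * (b0 + 3 * (b1 + 3 * (b2 + 3 *
      (b3 + 3 * (b4 + 3 * 0))))))))) := by
    rw [← Nat.mod_add_div c 243, e1, e3]
    ring
  have h := sgen_rev9 a0 a1 a2 a3 a4 b0 b1 b2 b3 (b4 + 3 * 0) p0 p1 p2 p3 p4 q0 q1 q2 q3 (L - 9)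
  rw [← e, Nat.sub_add_cancel h9] at h
  rw [sgen_genA_eq, e2, e4, revC, h]
  clear h e e1 e2 e4
  rcases hL with rfl | rfl
  · have : b4 = 0 := by omega
    rw [show 9 - 9 = 0 from rfl, sgen_revAux_zero]
    omega
  · rw [show 10 - 9 = 0 + 1 from rfl, sgen_revAux _ _ _ _ q4, sgen_revAux_zero]
    omega

theorem sgen_rot (l d c : ℕ) (hd : d < 3) : rotC (l + 1) (d + 3 * c) = c + d * 3 ^ l := by
  show (d + 3 * c) / 3 + (d + 3 * c) % 3 * 3 ^ l = _
  rw [show (d + 3 * c) / 3 = c by omega, show (d + 3 * c) % 3 = d by omega]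

/-- signed permutations that commute with `A` -/
def SymP {L : ℕ} (A : Matrix (Cfg L) (Cfg L) ℂ) (π : Cfg L → Cfg L) (ε : Cfg L → ℂ) : Prop :=
  Function.Bijective π ∧ (∀ p, ε p * ε p = 1) ∧ ∀ p q, A (π p) (π q) = ε p * ε q * A p q

theorem SymP.comp {L : ℕ} {A : Matrix (Cfg L) (Cfg L) ℂ} {π π' : Cfg L → Cfg L} {ε ε' : Cfg L → ℂ}
    (h : SymP A π ε) (h' : SymP A π' ε') : SymP A (fun p => π' (π p)) fun p => ε p * ε' (π p) := by
  refine ⟨h'.1.comp h.1, fun p => ?_, fun p q => ?_⟩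
  · linear_combination ε' (π p) * ε' (π p) * h.2.1 p + h'.2.1 (π p)
  · rw [h'.2.2, h.2.2]
    ring

theorem SymP.const {L : ℕ} (A : Matrix (Cfg L) (Cfg L) ℂ) (b : Bool) : SymP A id fun _ => sg b :=
  ⟨Function.bijective_id, fun _ => sgen_sg_sq b, fun p q => by rw [sgen_sg_sq, one_mul]; rfl⟩

theorem SymP.spinA {l kind : ℕ} (m f eP eN s : ℕ) {π : Cfg (l + 1) → Cfg (l + 1)} {ε : Cfg (l + 1) → ℂ}
    (h : SymP (spinH l kind) π ε) : SymP (spinA l kind m f eP eN s) π ε := by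
  refine ⟨h.1, h.2.1, fun p q => ?_⟩
  simp only [Eng.spinA, Matrix.smul_apply, Matrix.sub_apply, smul_eq_mul, h.2.2,
    symm_one_apply h.1.1 h.2.1 p q]
  ring

theorem sgen_gauge {l kind : ℕ} (hl : 1 ≤ l) (hk : kind ≤ 1) : ∃ ε : Cfg (l + 1) → ℂ,
    SymP (spinH l kind) shiftC ε ∧ ∀ c, ε (cfg (l + 1) c) = sg (Nat.beq kind 1 && (c % 3 != 1)) := by
  obtain rfl | rfl : kind = 0 ∨ kind = 1 := by omega
  · refine ⟨gauge none, ⟨symm_shift_bij, symm_gauge_sq (Or.inl rfl), ringH_shift hl (Or.inl rfl)⟩,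
      fun c => ?_⟩
    simp [gauge, rot_none, sg]
  · refine ⟨gauge (some 2), ⟨symm_shift_bij, symm_gauge_sq (Or.inr rfl), ringH_shift hl (Or.inr rfl)⟩,
      fun c => ?_⟩
    have e : (cfg (l + 1) c 0).val = c % 3 := by simp [cfg]
    rw [← e, gauge]
    generalize cfg (l + 1) c 0 = a
    fin_cases a <;> simp [rot_two, sg]

theorem sgen_symA {l kind : ℕ} (hl : l = 8 ∨ l = 9) (hk : kind ≤ 1) (m f eP eN s : ℕ) (chi : Bool) :
    SymC (spinA l kind m f eP eN s) (genA (l + 1) chi) := by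
  obtain ⟨g, -, hg⟩ := symm_spinH (l := l) hk
  have h : SymP (spinH l kind) reflC fun _ => sg chi :=
    ⟨symm_refl_bij, fun _ => sgen_sg_sq chi, fun p q => by
      rw [sgen_sg_sq, one_mul, hg, ringH_refl (by omega)]⟩
  have h' := h.spinA m f eP eN s
  refine ⟨_, _, h'.1, h'.2.1, h'.2.2, fun c hc => ⟨?_, rfl⟩⟩
  rw [sgen_genA (by omega) hc, (cfg_revC hc).2]

theorem sgen_symF {l kind : ℕ} (hk : kind ≤ 1) (m f eP eN s : ℕ) (chi : Bool) :
    SymC (spinA l kind m f eP eN s) (genF (l + 1) chi) := by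
  obtain ⟨g, -, hg⟩ := symm_spinH (l := l) hk
  have h : SymP (spinH l kind) flipS fun _ => sg chi :=
    ⟨symm_flip_bij, fun _ => sgen_sg_sq chi, fun p q => by
      rw [sgen_sg_sq, one_mul, hg, ringH_flip]⟩
  have h' := h.spinA m f eP eN s
  exact ⟨_, _, h'.1, h'.2.1, h'.2.2, fun c hc => ⟨(cfg_flipC hc).2, rfl⟩⟩

theorem sgen_symB {l kind : ℕ} (hl : l = 8 ∨ l = 9) (hk : kind ≤ 1) (m f eP eN s : ℕ) (chi : Bool) :
    SymC (spinA l kind m f eP eN s) (genB (l + 1) (Nat.beq kind 1) chi) := by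
  obtain ⟨ε, h, hε⟩ := sgen_gauge (l := l) (by omega) hk
  have h' := ((((((SymP.const _ chi).comp h).comp h).comp h).comp h).comp h).spinA m f eP eN s
  refine ⟨_, _, h'.1, h'.2.1, h'.2.2, fun c hc => ?_⟩
  have h1 := cfg_rotC hc (by omega)
  have h2 := cfg_rotC h1.1 (by omega)
  have h3 := cfg_rotC h2.1 (by omega)
  have h4 := cfg_rotC h3.1 (by omega)
  have h5 := cfg_rotC h4.1 (by omega)
  simp only [id]
  rw [← h1.2, ← h2.2, ← h3.2, ← h4.2, ← h5.2, hε, hε, hε, hε, hε]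
  clear h1 h2 h3 h4 h5 h' hε h
  have r : ∀ c, rotC (l + 1) c = c / 3 + c % 3 * 3 ^ l := fun _ => rfl
  obtain ⟨a0, a1, a2, a3, a4, p0, p1, p2, p3, p4, e1, -⟩ :=
    sgen_digits (Nat.mod_lt c (by norm_num) : c % 243 < 243)
  obtain ⟨t, ht⟩ : ∃ t, 3 ^ l = 243 * t := ⟨3 ^ (l - 5), by rcases hl with rfl | rfl <;> rfl⟩
  have ht' : 3 ^ (l + 1 - 5) = 3 * t := by rcases hl with rfl | rfl <;> omega
  obtain ⟨b, hb⟩ : ∃ b, b = c / 243 := ⟨_, rfl⟩
  have r0 : c = a0 + 3 * (a1 + 3 * a2 + 9 * a3 + 27 * a4 + 81 * b) := by omega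
  have r1 : rotC (l + 1) c = a1 + 3 * (a2 + 3 * a3 + 9 * a4 + 27 * b + 81 * (a0 * t)) := by
    rw [r0, sgen_rot _ _ _ p0, ht]; ring
  have r2 : rotC (l + 1) (rotC (l + 1) c) =
      a2 + 3 * (a3 + 3 * a4 + 9 * b + 27 * (a0 * t) + 81 * (a1 * t)) := by
    rw [r1, sgen_rot _ _ _ p1, ht]; ring
  have r3 : rotC (l + 1) (rotC (l + 1) (rotC (l + 1) c)) =
      a3 + 3 * (a4 + 3 * b + 9 * (a0 * t) + 27 * (a1 * t) + 81 * (a2 * t)) := by
    rw [r2, sgen_rot _ _ _ p2, ht]; ring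
  have r4 : rotC (l + 1) (rotC (l + 1) (rotC (l + 1) (rotC (l + 1) c))) =
      a4 + 3 * (b + 3 * (a0 * t) + 9 * (a1 * t) + 27 * (a2 * t) + 81 * (a3 * t)) := by
    rw [r3, sgen_rot _ _ _ p3, ht]; ring
  constructor
  · congr 1
    show c / 243 + c % 243 * 3 ^ (l + 1 - 5) = _
    rw [r4, sgen_rot _ _ _ p4, ht, ht', e1, ← hb]
    ring
  · show _ = sg (xor' chi (and' (Nat.beq kind 1) (par5 (c % 243))))
    rw [sgen_xor, sgen_and, sgen_par5 _ (Nat.mod_lt c (by norm_num)), r4, r3, r2, r1,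
      show c % 243 % 3 = a0 by omega, show c % 243 / 3 % 3 = a1 by omega,
      show c % 243 / 9 % 3 = a2 by omega, show c % 243 / 27 % 3 = a3 by omega,
      show c % 243 / 81 % 3 = a4 by omega, show c % 3 = a0 by omega, Nat.add_mul_mod_self_left,
      Nat.add_mul_mod_self_left, Nat.add_mul_mod_self_left, Nat.add_mul_mod_self_left,
      Nat.mod_eq_of_lt p1, Nat.mod_eq_of_lt p2, Nat.mod_eq_of_lt p3, Nat.mod_eq_of_lt p4]
    simp only [sgen_sg_xor, Bool.and_xor_distrib_left]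
    ring

theorem gensOf_twist (L kind mode chi : ℕ) : Twist (gensOf L kind mode 0) (gensOf L kind mode chi) := by
  have hA : ∃ b, ∀ c, genA L (bit chi 0) c = ((genA L (bit 0 0) c).1, xor b (genA L (bit 0 0) c).2) :=
    ⟨bit chi 0, fun c => by simp [genA, sgen_bit_zero]⟩
  have hB : ∃ b, ∀ c, genB L (Nat.beq kind 1) (bit chi 1) c =
      ((genB L (Nat.beq kind 1) (bit 0 1) c).1, xor b (genB L (Nat.beq kind 1) (bit 0 1) c).2) :=
    ⟨bit chi 1, fun c => by simp [genB, sgen_bit_zero, sgen_xor]⟩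
  have hF : ∃ b, ∀ c, genF L (bit chi 2) c = ((genF L (bit 0 2) c).1, xor b (genF L (bit 0 2) c).2) :=
    ⟨bit chi 2, fun c => by simp [genF, sgen_bit_zero]⟩
  unfold gensOf Twist
  cases bit mode 0 <;> cases bit mode 1 <;> cases bit mode 2 <;>
    repeat first | exact .nil | refine .cons (by assumption) ?_

theorem genF_mem {L kind mode : ℕ} (chi : ℕ) (h : bit mode 2 = true) :
    genF L (bit chi 2) ∈ gensOf L kind mode chi := by
  unfold gensOf
  rw [h]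
  cases bit mode 0 <;> cases bit mode 1 <;> simp

theorem gensOf_sym {l kind : ℕ} (hl : l = 8 ∨ l = 9) (hk : kind ≤ 1) (m f eP eN s mode chi : ℕ) :
    ∀ g ∈ gensOf (l + 1) kind mode chi, SymC (spinA l kind m f eP eN s) g := by
  have hA := sgen_symA hl hk m f eP eN s (bit chi 0)
  have hB := sgen_symB hl hk m f eP eN s (bit chi 1)
  have hF := sgen_symF (l := l) hk m f eP eN s (bit chi 2)
  unfold gensOf
  cases bit mode 0 <;> cases bit mode 1 <;> cases bit mode 2 <;> simp [hA, hB, hF]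

end Crest.Agent.R347.Eng
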