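import Crest.Agent.R347.PS

/-!
# Row 347: the self-dual system of torus partition functions (definitions only)

`Z• i j` are the five partition functions of a torus with `2 i` sites and inverse temperature `j / 2`
(twists by the group `Z₂ × Z₂` in the two directions).  For fixed `i` the sector sums
`P0 P1 Q0 Qz Qx` are power sums in `j`; for fixed `j` the sector sums `S0 S1 R0 Rz Rx` are (limits of)
power sums in `i`.  `dual` exchanges the two directions.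
-/

set_option autoImplicit false

namespace Crest.Agent.R347

structure Sys where
  (Za Zb Zc Zd Ze : ℕ → ℕ → ℝ)
  (C C1 D0 D Dx : ℕ → ℝ)
  (A A1 B0 B Bx : ℕ → ℝ)
  pos : ∀ i j, 1 ≤ i → 1 ≤ j → 0 < Za i j
  tP0 : ∀ i, 1 ≤ i → Top (fun j => (Za i j + 3 * Zc i j) / 4) (C i)
  tP1 : ∀ i, 1 ≤ i → Top (fun j => (Za i j - Zc i j) / 4) (C1 i)
  tQ0 : ∀ i, 1 ≤ i → Top (fun j => (Zb i j + Zd i j - 2 * Ze i j) / 4) (D0 i)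
  tQz : ∀ i, 1 ≤ i → Top (fun j => (Zb i j + Zd i j + 2 * Ze i j) / 4) (D i)
  tQx : ∀ i, 1 ≤ i → Top (fun j => (Zb i j - Zd i j) / 4) (Dx i)
  tS0 : ∀ j, 1 ≤ j → Top (fun i => (Za i j + 3 * Zb i j) / 4) (A j)
  tS1 : ∀ j, 1 ≤ j → Top (fun i => (Za i j - Zb i j) / 4) (A1 j)
  tR0 : ∀ j, 1 ≤ j → Top (fun i => (Zc i j + Zd i j - 2 * Ze i j) / 4) (B0 j)
  tRz : ∀ j, 1 ≤ j → Top (fun i => (Zc i j + Zd i j + 2 * Ze i j) / 4) (B j)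
  tRx : ∀ j, 1 ≤ j → Top (fun i => (Zc i j - Zd i j) / 4) (Bx j)

/-- `x ≤ q y` (and `y ≥ 0`) -/
def LeQ (x : ℝ) (q : ℚ) (y : ℝ) : Prop := 0 ≤ y ∧ x ≤ (q : ℝ) * y

namespace Sys

variable (S : Sys)

def dual : Sys where
  Za i j := S.Za j i
  Zb i j := S.Zc j i
  Zc i j := S.Zb j i
  Zd i j := S.Zd j i
  Ze i j := S.Ze j i
  C := S.A
  C1 := S.A1
  D0 := S.B0
  D := S.B
  Dx := S.Bx
  A := S.C
  A1 := S.C1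
  B0 := S.D0
  B := S.D
  Bx := S.Dx
  pos i j hi hj := S.pos j i hj hi
  tP0 := S.tS0
  tP1 := S.tS1
  tQ0 := S.tR0
  tQz := S.tRz
  tQx := S.tRx
  tS0 := S.tP0
  tS1 := S.tP1
  tR0 := S.tQ0
  tRz := S.tQz
  tRx := S.tQx

theorem dual_dual : S.dual.dual = S := rfl

noncomputable section

def P0 (i j : ℕ) : ℝ := (S.Za i j + 3 * S.Zc i j) / 4
def P1 (i j : ℕ) : ℝ := (S.Za i j - S.Zc i j) / 4
def Q0 (i j : ℕ) : ℝ := (S.Zb i j + S.Zd i j - 2 * S.Ze i j) / 4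
def Qz (i j : ℕ) : ℝ := (S.Zb i j + S.Zd i j + 2 * S.Ze i j) / 4
def Qx (i j : ℕ) : ℝ := (S.Zb i j - S.Zd i j) / 4
def S0 (i j : ℕ) : ℝ := (S.Za i j + 3 * S.Zb i j) / 4
def S1 (i j : ℕ) : ℝ := (S.Za i j - S.Zb i j) / 4
def R0 (i j : ℕ) : ℝ := (S.Zc i j + S.Zd i j - 2 * S.Ze i j) / 4
def Rz (i j : ℕ) : ℝ := (S.Zc i j + S.Zd i j + 2 * S.Ze i j) / 4
def Rx (i j : ℕ) : ℝ := (S.Zc i j - S.Zd i j) / 4

/-- potentials: `u j = (A B^3)^(1/(4j))`, `w i = (C D^3)^(1/(4i))`, `a j = A^(1/j)` -/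
def u (j : ℕ) : ℝ := (S.A j * S.B j ^ 3) ^ ((1 : ℝ) / (4 * j))
def w (i : ℕ) : ℝ := S.dual.u i
def a (j : ℕ) : ℝ := S.A j ^ ((1 : ℝ) / j)

end

/-- purity of the two leading sectors in the direction `j` -/
def TZ (i j : ℕ) (z : ℚ) : Prop :=
  S.P0 i j ≤ (1 + (z : ℝ)) * S.C i ^ j ∧ S.Qz i j ≤ (1 + (z : ℝ)) * S.D i ^ j
/-- smallness of the three other sectors in the direction `j` -/
def TX (i j : ℕ) (x : ℚ) : Prop :=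
  S.P1 i j ≤ (x : ℝ) * S.C i ^ j ∧ S.Q0 i j ≤ (x : ℝ) * S.D i ^ j ∧ S.Qx i j ≤ (x : ℝ) * S.D i ^ j
/-- purity of the full partition function in the direction `j` -/
def TF (i j : ℕ) (t : ℚ) : Prop := S.Za i j ≤ (1 + (t : ℝ)) * S.C i ^ j
def Mu (j : ℕ) (m : ℚ) : Prop := S.A j ≤ (m : ℝ) * S.B j
/-- unfolds to `S0 i j ≤ (1+w) A^i ∧ Rz i j ≤ (1+w) B^i` -/
def SZ (i j : ℕ) (w : ℚ) : Prop := S.dual.TZ j i w
/-- unfolds to `S1 i j ≤ y A^i ∧ R0 i j ≤ y B^i ∧ Rx i j ≤ y B^i` -/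
def SX (i j : ℕ) (y : ℚ) : Prop := S.dual.TX j i y
def SF (i j : ℕ) (s : ℚ) : Prop := S.dual.TF j i s
def Nu (i : ℕ) (n : ℚ) : Prop := S.dual.Mu i n
/-- second eigenvalue of the sector `S0` -/
def Rh0 (j : ℕ) (ρ : ℚ) : Prop :=
  0 ≤ ρ ∧ ∃ i, 1 ≤ i ∧ S.S0 i j - S.A j ^ i ≤ ((ρ : ℝ) * S.A j) ^ i
def Rh1 (j : ℕ) (ρ : ℚ) : Prop := S.A1 j ≤ (ρ : ℝ) * S.A j

theorem SZ_iff (i j : ℕ) (w : ℚ) : S.SZ i j w ↔
    S.S0 i j ≤ (1 + (w : ℝ)) * S.A j ^ i ∧ S.Rz i j ≤ (1 + (w : ℝ)) * S.B j ^ i := Iff.rfl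
theorem SX_iff (i j : ℕ) (y : ℚ) : S.SX i j y ↔ S.S1 i j ≤ (y : ℝ) * S.A j ^ i ∧
    S.R0 i j ≤ (y : ℝ) * S.B j ^ i ∧ S.Rx i j ≤ (y : ℝ) * S.B j ^ i := Iff.rfl
theorem SF_iff (i j : ℕ) (s : ℚ) : S.SF i j s ↔ S.Za i j ≤ (1 + (s : ℝ)) * S.A j ^ i := Iff.rfl
theorem Nu_iff (i : ℕ) (n : ℚ) : S.Nu i n ↔ S.C i ≤ (n : ℝ) * S.D i := Iff.rfl

theorem topP0 {i : ℕ} (hi : 1 ≤ i) : Top (fun j => S.P0 i j) (S.C i) := S.tP0 i hi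
theorem topP1 {i : ℕ} (hi : 1 ≤ i) : Top (fun j => S.P1 i j) (S.C1 i) := S.tP1 i hi
theorem topQ0 {i : ℕ} (hi : 1 ≤ i) : Top (fun j => S.Q0 i j) (S.D0 i) := S.tQ0 i hi
theorem topQz {i : ℕ} (hi : 1 ≤ i) : Top (fun j => S.Qz i j) (S.D i) := S.tQz i hi
theorem topQx {i : ℕ} (hi : 1 ≤ i) : Top (fun j => S.Qx i j) (S.Dx i) := S.tQx i hi
theorem topS0 {j : ℕ} (hj : 1 ≤ j) : Top (fun i => S.S0 i j) (S.A j) := S.tS0 j hj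
theorem topS1 {j : ℕ} (hj : 1 ≤ j) : Top (fun i => S.S1 i j) (S.A1 j) := S.tS1 j hj
theorem topR0 {j : ℕ} (hj : 1 ≤ j) : Top (fun i => S.R0 i j) (S.B0 j) := S.tR0 j hj
theorem topRz {j : ℕ} (hj : 1 ≤ j) : Top (fun i => S.Rz i j) (S.B j) := S.tRz j hj
theorem topRx {j : ℕ} (hj : 1 ≤ j) : Top (fun i => S.Rx i j) (S.Bx j) := S.tRx j hj

end Sys

/-- The system together with the chains with two ends: `Ao k j ± Bo k j` are the partition functions of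
`k + 2` sites with opposite / equal end fields; `Ao k j = lim ∑ w x^k` over the sector `S0`,
`Bo k j` the same over the sector `S1`. -/
structure OSys extends Sys where
  (Ao Bo : ℕ → ℕ → ℝ)
  (x ω Co Cp : ℕ → ℝ)
  x_sq : ∀ j, 1 ≤ j → x j ^ 2 = A j
  w_nonneg : ∀ j, 1 ≤ j → 0 ≤ ω j
  top_le : ∀ j, 1 ≤ j → ∀ n : ℕ, ω j * A j ^ n ≤ Ao (2 * n) j
  rest_pow : ∀ j, 1 ≤ j → ∀ n i : ℕ, 1 ≤ i → (Ao (2 * n + 2) j - ω j * A j ^ (n + 1)) ^ i ≤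
    ((Za i j + 3 * Zb i j) / 4 - A j ^ i) * (Ao (2 * n) j - ω j * A j ^ n) ^ i
  rest_anti : ∀ j, 1 ≤ j → ∀ n : ℕ,
    Ao (2 * n + 2) j - ω j * A j ^ (n + 1) ≤ A j * (Ao (2 * n) j - ω j * A j ^ n)
  rest_odd : ∀ j, 1 ≤ j → ∀ n : ℕ,
    |Ao (2 * n + 1) j - ω j * (A j ^ n * x j)| ≤ |x j| * (Ao (2 * n) j - ω j * A j ^ n)
  B_nonneg : ∀ j, 1 ≤ j → ∀ n : ℕ, 0 ≤ Bo (2 * n) j
  B_anti : ∀ j, 1 ≤ j → ∀ n : ℕ, Bo (2 * n + 2) j ≤ A1 j * Bo (2 * n) j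
  B_odd : ∀ j, 1 ≤ j → ∀ n : ℕ, |Bo (2 * n + 1) j| ≤ |x j| * Bo (2 * n) j
  topo : ∀ n : ℕ, Top (fun j => Ao (2 * n) j + Bo (2 * n) j) (Co n)
  topp : ∀ n : ℕ, Top (fun j => Ao (2 * n + 1) j - Bo (2 * n + 1) j) (Cp n)
  posp : ∀ n j : ℕ, 1 ≤ j → 0 < Ao (2 * n + 1) j - Bo (2 * n + 1) j

namespace OSys

variable (O : OSys)

/-- `2 n + 2` sites, opposite end fields -/
def Ze2 (n j : ℕ) : ℝ := O.Ao (2 * n) j + O.Bo (2 * n) j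
/-- `2 n + 3` sites, equal end fields -/
def Zp (n j : ℕ) : ℝ := O.Ao (2 * n + 1) j - O.Bo (2 * n + 1) j
def To (n j : ℕ) (t : ℚ) : Prop := O.Ze2 n j ≤ (1 + (t : ℝ)) * O.Co n ^ j
def So (n j : ℕ) (s : ℚ) : Prop := O.Ze2 n j ≤ (1 + (s : ℝ)) * (O.ω j * O.A j ^ n)

/-- the state of the final doubling induction -/
structure St (i j : ℕ) (ε : ℝ) : Prop where
  t21 : O.Za (2 * i) j ≤ (1 + ε) * O.C (2 * i) ^ j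
  s21 : O.Za (2 * i) j ≤ (1 + ε) * O.A j ^ (2 * i)
  s12 : O.Za i (2 * j) ≤ (1 + ε) * O.A (2 * j) ^ i
  t12 : O.Za i (2 * j) ≤ (1 + ε) * O.C i ^ (2 * j)
  to1 : O.Ze2 (2 * i) j ≤ (1 + ε) * O.Co (2 * i) ^ j
  so2 : O.Ze2 (2 * i) (2 * j) ≤ (1 + ε) * (O.ω (2 * j) * O.A (2 * j) ^ (2 * i))

end OSys

end Crest.Agent.R347
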